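import Vale.Agent.P259.Free.Stages

/-!
# P259, module D: simplices exist

The stages give simplices with faces in all dimensions; the degeneracies are defined by induction
on the source, filling boundaries in the contractible simplices.
-/

namespace Vale.Agent.P259.Free

open CategoryTheory Opposite

noncomputable section

/-- Simplices with faces only, in all dimensions. -/
structure SemiAll (E : Ext) : Type 1 extends SemiBase E where
  top : ∀ k, E.cells (F k).obj k
  zero_univ : ∀ (X : E.Gpd) (x : E.cells X.obj 0),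
    ∃! g : F 0 ⟶ X, E.appCell g.hom 0 (top 0) = x
  fill : ∀ k (X : E.Gpd), toSemiBase.SFam (OCx.horn (k + 1) 0) X → E.cells X.obj k
  level : ∀ k, IsLevel toSemiBase k (top k) (top (k + 1)) (fill k)

/-- The simplices up to a dimension. -/
def SemiAll.semi {E : Ext} (B : SemiAll E) (N : ℕ) : Semi E N where
  toSemiBase := B.toSemiBase
  top k _ := B.top k
  zero_univ := B.zero_univ
  fillOf {k} _ {X} h := B.fill k X h
  fillOf_natural _ := (B.level _).natural
  par _ := (B.level _).par
  top_src _ := (B.level _).top_src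
  top_tgt _ := (B.level _).top_tgt
  univ _ := (B.level _).univ

/-- The first stage: points. -/
def semiZero (E : Ext) : Semi E 0 where
  F _ := E.yon (disc 0)
  map _ _ := 𝟙 _
  map_id _ := rfl
  map_comp _ _ _ _ := Category.comp_id _
  top k hk := (Nat.le_zero.1 hk).symm ▸ (𝟙 (E.i.obj (disc 0)) : E.cells (E.yon (disc 0)).obj 0)
  zero_univ X x := by
    refine ⟨E.ofValue X x, E.act_id X.obj x, fun g hg => ObjectProperty.hom_ext _ ?_⟩
    exact yonedaEquiv.injective (hg.trans (yonedaEquiv.apply_symm_apply x).symm)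
  fillOf hk := (Nat.not_lt_zero _ hk).elim
  fillOf_natural hk := (Nat.not_lt_zero _ hk).elim
  par hk := (Nat.not_lt_zero _ hk).elim
  top_src hk := (Nat.not_lt_zero _ hk).elim
  top_tgt hk := (Nat.not_lt_zero _ hk).elim
  univ hk := (Nat.not_lt_zero _ hk).elim

section Tower

variable (h : SemiCtrCone) (C : Coherator)

/-- The stages. -/
def stage : ∀ n, Semi C.C n
  | 0 => semiZero C.C
  | n + 1 => (nonempty_next h (stage n)).some.semi

/-- The data from a stage to the next one. -/
def nextOf (n : ℕ) : Next (stage h C n) := (nonempty_next h (stage h C n)).some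

/-- Consecutive stages agree. -/
def eIso (n k : ℕ) (hk : k ≤ n) : (stage h C n).F k ≅ (stage h C (n + 1)).F k :=
  (nextOf h C n).agree.e k hk

theorem eIso_nat (n : ℕ) {k j : ℕ} (hk : k ≤ n) (hj : j ≤ n) (δ : Op k j)
    (hδ : Function.Injective δ) :
    (stage h C n).map δ hδ ≫ (eIso h C n j hj).hom =
      (eIso h C n k hk).hom ≫ (stage h C (n + 1)).map δ hδ :=
  (nextOf h C n).agree.nat hk hj δ hδ

/-- A stage agrees with the later ones. -/
def stIso (k m : ℕ) (hkm : k ≤ m) : (stage h C k).F k ≅ (stage h C m).F k :=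
  Nat.leRec (motive := fun m _ => (stage h C k).F k ≅ (stage h C m).F k) (Iso.refl _)
    (fun m hm i => i ≪≫ eIso h C m k hm) hkm

theorem stIso_self (k : ℕ) (hk : k ≤ k) : stIso h C k k hk = Iso.refl _ :=
  Nat.leRec_self ..

theorem stIso_succ (k m : ℕ) (hkm : k ≤ m) (hkm' : k ≤ m + 1) :
    stIso h C k (m + 1) hkm' = stIso h C k m hkm ≪≫ eIso h C m k hkm :=
  Nat.leRec_succ ..

theorem stIso_nat {k j m : ℕ} (hk : k ≤ j) (hj : j ≤ m) (δ : Op k j)
    (hδ : Function.Injective δ) :
    (stIso h C k m (hk.trans hj)).hom ≫ (stage h C m).map δ hδ =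
      ((stIso h C k j hk).hom ≫ (stage h C j).map δ hδ) ≫ (stIso h C j m hj).hom := by
  induction hj with
  | refl => rw [stIso_self h C j, Iso.refl_hom, Category.comp_id]
  | @step m hj ih =>
    rw [stIso_succ h C k m (hk.trans hj), stIso_succ h C j m hj, Iso.trans_hom, Iso.trans_hom,
      Category.assoc, ← eIso_nat h C m (hk.trans hj) hj, ← Category.assoc, ih, Category.assoc]

/-- The simplices with faces only. -/
def allBase : SemiBase C.C where
  F k := (stage h C k).F k
  map {k j} δ hδ := (stIso h C k j (dim_le_of_injective hδ)).hom ≫ (stage h C j).map δ hδ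
  map_id k := by
    rw [stIso_self h C k, Iso.refl_hom, Category.id_comp]
    exact (stage h C k).map_id k
  map_comp {i k j} δ ε hδ hε := by
    rw [← Category.assoc,
      ← stIso_nat h C (dim_le_of_injective hδ) (dim_le_of_injective hε) δ hδ, Category.assoc,
      (stage h C j).map_comp δ ε hδ hε]

/-- Every stage agrees with the simplices below its dimension. -/
def allAgree (n : ℕ) : Agree (stage h C n).toSemiBase (allBase h C) n where
  e k hk := (stIso h C k n hk).symm
  nat {k j} hk hj δ hδ := by
    show (stage h C n).map δ hδ ≫ (stIso h C j n hj).inv =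
      (stIso h C k n hk).inv ≫ (stIso h C k j _).hom ≫ (stage h C j).map δ hδ
    rw [Iso.eq_inv_comp, ← Category.assoc, Iso.comp_inv_eq]
    exact stIso_nat h C _ hj δ hδ

/-- The simplices with faces only, in all dimensions, with their cells. -/
def semiAll : SemiAll C.C where
  toSemiBase := allBase h C
  top k := (stage h C k).top k le_rfl
  zero_univ := (stage h C 0).zero_univ
  fill k X f := (stage h C (k + 1)).fillOf k.lt_succ_self
    ((allAgree h C (k + 1)).backH k.le_succ f)
  level k := by
    refine (allAgree h C (k + 1)).level le_rfl ((stage h C (k + 1)).level k.lt_succ_self) ?_ ?_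
      fun _ _ => rfl
    · show (stage h C k).top k le_rfl =
        C.C.appCell (stIso h C k (k + 1) k.le_succ).inv.hom k ((stage h C (k + 1)).top k _)
      rw [show (stage h C (k + 1)).top k k.le_succ = C.C.appCell (eIso h C k k le_rfl).hom.hom k
        ((stage h C k).top k le_rfl) from (nextOf h C k).top_lo le_rfl k.le_succ,
        stIso_succ h C k k le_rfl k.le_succ, stIso_self h C k]
      show _ = C.C.appCell ((eIso h C k k le_rfl).hom ≫
        (Iso.refl _ ≪≫ eIso h C k k le_rfl).inv).hom k ((stage h C k).top k le_rfl)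
      simp
      rfl
    · show (stage h C (k + 1)).top (k + 1) le_rfl =
        C.C.appCell (stIso h C (k + 1) (k + 1) le_rfl).inv.hom (k + 1)
          ((stage h C (k + 1)).top (k + 1) _)
      rw [stIso_self h C (k + 1)]
      rfl

end Tower

section Degen

theorem eq_id_of_injective {k : ℕ} {δ : Op k k} (h : Function.Injective δ) : δ = OrderHom.id :=
  OrderHom.ext _ _ (((δ.monotone.strictMono_of_injective h).range_inj strictMono_id).1 (by
    rw [Set.range_id]
    exact (Finite.injective_iff_surjective.1 h).range_eq))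

/-- A monotone map factors as a surjection and an injection. -/
theorem exists_fac {k r : ℕ} (a : Op k r) : ∃ (q : ℕ) (s : Op k q) (m : Op q r),
    Function.Injective m ∧ Function.Surjective s ∧ a = m.comp s := by
  classical
  let S : Finset (Fin (r + 1)) := Finset.univ.image a
  have hS : S.card = S.card - 1 + 1 :=
    (Nat.sub_add_cancel (Finset.card_pos.2 ⟨a 0, Finset.mem_image_of_mem _ (Finset.mem_univ _)⟩)).symm
  let e := S.orderIsoOfFin hS
  let s : Op k (S.card - 1) := ⟨fun i => e.symm ⟨a i, Finset.mem_image_of_mem _ (Finset.mem_univ _)⟩,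
    fun i i' h => e.symm.monotone (a.monotone h)⟩
  refine ⟨S.card - 1, s, ⟨fun i => (e i : Fin (r + 1)), fun i i' h => e.monotone h⟩,
    fun i i' h => e.injective (Subtype.ext h), fun i => ?_, OrderHom.ext _ _ (funext fun i => ?_)⟩
  · obtain ⟨x, -, hx⟩ := Finset.mem_image.1 (e i).2
    exact ⟨x, (congrArg e.symm (Subtype.ext hx)).trans (e.symm_apply_apply i)⟩
  · show a i = (e (e.symm _) : Fin (r + 1))
    rw [e.apply_symm_apply]

theorem fac_unique {k r q q' : ℕ} {s : Op k q} {m : Op q r} {s' : Op k q'} {m' : Op q' r}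
    (hm : Function.Injective m) (hm' : Function.Injective m') (hs : Function.Surjective s)
    (hs' : Function.Surjective s') (h : m.comp s = m'.comp s') :
    ∃ e : q = q', e ▸ s = s' ∧ e ▸ m = m' := by
  have hr : Set.range m = Set.range m' := by
    have h1 : Set.range (m ∘ s) = Set.range m := hs.range_comp _
    have h2 : Set.range (m' ∘ s') = Set.range m' := hs'.range_comp _
    rw [← h1, ← h2, show ⇑m ∘ ⇑s = ⇑m' ∘ ⇑s' from congrArg DFunLike.coe h]
  have hq : q = q' := by
    have e := (Equiv.ofInjective m hm).trans ((Equiv.setCongr hr).trans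
      (Equiv.ofInjective m' hm').symm)
    have := Fin.equiv_iff_eq.1 ⟨e⟩
    omega
  subst hq
  obtain rfl : m = m' := OrderHom.ext _ _
    (((m.monotone.strictMono_of_injective hm).range_inj (m'.monotone.strictMono_of_injective hm')).1
      hr)
  exact ⟨rfl, OrderHom.ext _ _ (funext fun i => hm (congrFun (congrArg DFunLike.coe h) i)), rfl⟩

variable {E : Ext} (B : SemiAll E)

/-- Maps for all operators up to a dimension of the source. -/
structure DUpTo (n : ℕ) : Type where
  D : ∀ k, k ≤ n → ∀ r, Op k r → (B.F k ⟶ B.F r)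
  inj : ∀ k hk r (a : Op k r) (h : Function.Injective a), D k hk r a = B.map a h
  face : ∀ k hk j hj r (δ : Op j k) (h : Function.Injective δ) (a : Op k r),
    B.map δ h ≫ D k hk r a = D j hj r (a.comp δ)
  post : ∀ k hk r q (a : Op k r) (ε : Op r q) (h : Function.Injective ε),
    D k hk r a ≫ B.map ε h = D k hk q (ε.comp a)

/-- Nothing degenerates in dimension zero. -/
def dZero : DUpTo B 0 where
  D k hk r a := B.map a (fun x y _ => by
    obtain rfl := Nat.le_zero.1 hk
    exact Subsingleton.elim (α := Fin 1) x y)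
  inj _ _ _ _ _ := rfl
  face _ _ _ _ _ _ _ _ := B.map_comp _ _ _ _
  post _ _ _ _ _ _ _ := B.map_comp _ _ _ _

variable (hB : ∀ r, E.Ctr (B.F r).obj)

include hB in
theorem exists_deg {n : ℕ} (P : DUpTo B n) {r : ℕ} (s : Op (n + 1) r) :
    ∃ g : B.F (n + 1) ⟶ B.F r, ∀ {j : ℕ} (w : (OCx.bdry (n + 1)).Simp j),
      B.map (SemiBase.simpOp w.1 w.2.1) (StrictMono.injective w.2.1) ≫ g =
        P.D j (bdry_le w) r (s.comp (SemiBase.simpOp w.1 w.2.1)) := by
  let b : B.SFam (OCx.bdry (n + 1)) (B.F r) :=
    { app := fun {j} w => P.D j (bdry_le w) r (s.comp (SemiBase.simpOp w.1 w.2.1))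
      nat := fun {k j} w δ h => P.face _ _ _ _ r δ h _ }
  obtain ⟨z, hz⟩ := (hB r).linked _ _ ((B.level n).par b)
  obtain ⟨g, ⟨-, hg⟩, -⟩ := (B.level n).univ b z hz
  exact ⟨g, fun w => congrArg (fun f : B.SFam _ _ => f.app w) hg⟩

/-- A chosen filling. -/
def degS {n : ℕ} (P : DUpTo B n) {r : ℕ} (s : Op (n + 1) r) : B.F (n + 1) ⟶ B.F r :=
  (exists_deg B hB P s).choose

open Classical in
/-- The new maps. -/
def newD {n : ℕ} (P : DUpTo B n) {r : ℕ} (a : Op (n + 1) r) : B.F (n + 1) ⟶ B.F r :=
  if h : Function.Injective a then B.map a h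
  else degS B hB P (exists_fac a).choose_spec.choose ≫
    B.map (exists_fac a).choose_spec.choose_spec.choose
      (exists_fac a).choose_spec.choose_spec.choose_spec.1

theorem newD_inj {n : ℕ} (P : DUpTo B n) {r : ℕ} (a : Op (n + 1) r) (h : Function.Injective a) :
    newD B hB P a = B.map a h :=
  dif_pos h

theorem newD_fac {n : ℕ} (P : DUpTo B n) {r q : ℕ} (a : Op (n + 1) r)
    (ha : ¬Function.Injective a) (s : Op (n + 1) q) (m : Op q r) (hm : Function.Injective m)
    (hs : Function.Surjective s) (h : a = m.comp s) :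
    newD B hB P a = degS B hB P s ≫ B.map m hm := by
  rw [newD, dif_neg ha]
  have key : ∀ (q0 : ℕ) (s0 : Op (n + 1) q0) (m0 : Op q0 r) (hm0 : Function.Injective m0),
      Function.Surjective s0 → a = m0.comp s0 →
      degS B hB P s0 ≫ B.map m0 hm0 = degS B hB P s ≫ B.map m hm := by
    intro q0 s0 m0 hm0 hs0 h0
    obtain ⟨e, e1, e2⟩ := fac_unique hm0 hm hs0 hs (h0.symm.trans h)
    subst e
    subst e1 e2
    rfl
  obtain ⟨hm0, hs0, h0⟩ := (exists_fac a).choose_spec.choose_spec.choose_spec
  exact key _ _ _ hm0 hs0 h0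

theorem newD_post {n : ℕ} (P : DUpTo B n) {r q : ℕ} (a : Op (n + 1) r) (ε : Op r q)
    (h : Function.Injective ε) :
    newD B hB P a ≫ B.map ε h = newD B hB P (ε.comp a) := by
  by_cases ha : Function.Injective a
  · rw [newD_inj B hB P a ha, newD_inj B hB P (ε.comp a) (h.comp ha)]
    exact B.map_comp _ _ _ _
  · have ha' : ¬Function.Injective (ε.comp a) := fun hi => ha fun x y hxy =>
      hi (congrArg ε hxy)
    obtain ⟨p, s, m, hm, hs, rfl⟩ := exists_fac a
    rw [newD_fac B hB P (m.comp s) ha s m hm hs rfl,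
      newD_fac B hB P (ε.comp (m.comp s)) ha' s (ε.comp m) (h.comp hm) hs rfl,
      Category.assoc, B.map_comp]

theorem newD_face {n : ℕ} (P : DUpTo B n) {j r : ℕ} (hj : j ≤ n) (δ : Op j (n + 1))
    (h : Function.Injective δ) (a : Op (n + 1) r) :
    B.map δ h ≫ newD B hB P a = P.D j hj r (a.comp δ) := by
  by_cases ha : Function.Injective a
  · rw [newD_inj B hB P a ha, B.map_comp]
    exact (P.inj j hj r (a.comp δ) (ha.comp h)).symm
  · obtain ⟨q, s, m, hm, hs, rfl⟩ := exists_fac a
    have hne : Set.range δ ≠ Set.univ := fun hr => by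
      have := Fintype.card_le_of_surjective δ (Set.range_eq_univ.1 hr)
      simp at this
      omega
    have hw := (exists_deg B hB P s).choose_spec
      (⟨δ, δ.monotone.strictMono_of_injective h, hne⟩ : (OCx.bdry (n + 1)).Simp j)
    rw [newD_fac B hB P (m.comp s) ha s m hm hs rfl, ← Category.assoc]
    exact (congrArg (· ≫ B.map m hm) hw).trans (P.post _ _ _ _ _ m hm)

/-- One more dimension. -/
def dStep {n : ℕ} (P : DUpTo B n) : DUpTo B (n + 1) where
  D k hk r a :=
    if h : k ≤ n then P.D k h r a
    else (show n + 1 = k by omega) ▸ newD B hB P ((show k = n + 1 by omega) ▸ a)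
  inj k hk r a h := by
    by_cases hk' : k ≤ n
    · rw [dif_pos hk']
      exact P.inj _ _ _ _ h
    · obtain rfl : k = n + 1 := by omega
      rw [dif_neg hk']
      exact newD_inj B hB P a h
  face k hk j hj r δ h a := by
    by_cases hk' : k ≤ n
    · rw [dif_pos hk', dif_pos ((dim_le_of_injective h).trans hk')]
      exact P.face _ _ _ _ _ _ _ _
    · obtain rfl : k = n + 1 := by omega
      by_cases hj' : j ≤ n
      · rw [dif_neg hk', dif_pos hj']
        exact newD_face B hB P hj' δ h a
      · obtain rfl : j = n + 1 := by omega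
        obtain rfl := eq_id_of_injective h
        rw [B.map_id, Category.id_comp]
        rfl
  post k hk r q a ε h := by
    by_cases hk' : k ≤ n
    · rw [dif_pos hk', dif_pos hk']
      exact P.post _ _ _ _ _ _ _
    · obtain rfl : k = n + 1 := by omega
      rw [dif_neg hk', dif_neg hk']
      exact newD_post B hB P a ε h

/-- The maps up to every dimension. -/
def dSeq : ∀ n, DUpTo B n
  | 0 => dZero B
  | n + 1 => dStep B hB (dSeq n)

/-- The maps of all operators. -/
def deg {k r : ℕ} (a : Op k r) : B.F k ⟶ B.F r := (dSeq B hB k).D k le_rfl r a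

theorem dSeq_eq {k r : ℕ} (a : Op k r) : ∀ m (hk : k ≤ m), (dSeq B hB m).D k hk r a = deg B hB a := by
  intro m hk
  induction hk with
  | refl => rfl
  | step hk ih => exact (dif_pos hk).trans ih

theorem deg_inj {k r : ℕ} (a : Op k r) (h : Function.Injective a) : deg B hB a = B.map a h :=
  (dSeq B hB k).inj _ _ _ _ h

/-- The simplices, with degeneracies. -/
def simpBase : SimpBase E where
  F := B.F
  map a := deg B hB a
  map_id k := (deg_inj B hB _ Function.injective_id).trans (B.map_id k)
  map_face_op {i k j} δ a h := by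
    rw [deg_inj B hB δ h]
    refine ((dSeq B hB k).face k le_rfl i (dim_le_of_injective h) j δ h a).trans ?_
    exact dSeq_eq B hB _ k _
  map_op_face {i k j} a δ h := by
    rw [deg_inj B hB δ h]
    exact (dSeq B hB i).post _ _ _ _ a δ h

/-- A family of simplices, with faces only. -/
def toS {Q : OCx} {X : E.Gpd} (f : Fam Q ((simpBase B hB).sys X)) : B.SFam Q X where
  app v := f.app v
  nat v δ h := (congrArg (· ≫ f.app v) (deg_inj B hB δ h).symm).trans (f.nat v δ h)

theorem toS_injective {Q : OCx} {X : E.Gpd} {f g : Fam Q ((simpBase B hB).sys X)}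
    (h : toS B hB f = toS B hB g) : f = g :=
  Fam.ext (funext fun _ => funext fun v => congrArg (fun q : B.SFam Q X => q.app v) h)

theorem toS_bdryOf {k : ℕ} {X : E.Gpd} (g : B.F k ⟶ X) :
    toS B hB (((simpBase B hB).sys X).bdryOf (g : ((simpBase B hB).sys X).S k)) = B.bdryOf g :=
  SemiBase.SFam.ext (funext fun _ => funext fun v =>
    congrArg (· ≫ g) (deg_inj B hB (SemiBase.simpOp v.1 v.2.1) (StrictMono.injective v.2.1)))

/-- Simplices, from simplices with faces only which are contractible. -/
def simplices : Simplices E where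
  toSimpBase := simpBase B hB
  top := B.top
  zero_univ := B.zero_univ
  fillOf {k X} f := B.fill k X (toS B hB f)
  fillOf_natural {k X Y} f g := (B.level k).natural f (toS B hB g)
  par {k X} b := (B.level k).par (toS B hB b)
  top_src k := by
    show _ = E.appCell (deg B hB (Op.delta 0)).hom k (B.top k)
    rw [deg_inj B hB _ (Op.delta_injective 0)]
    exact (B.level k).top_src
  top_tgt k := by
    refine (B.level k).top_tgt.trans (congrArg (B.fill k _) ?_)
    exact SemiBase.SFam.ext (funext fun j => funext fun v => (deg_inj B hB _ _).symm)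
  univ {k X} b z hz := by
    obtain ⟨g, ⟨hg, hgb⟩, hu⟩ := (B.level k).univ (toS B hB b) z hz
    exact ⟨g, ⟨hg, toS_injective B hB ((toS_bdryOf B hB g).trans hgb)⟩, fun g' hg' =>
      hu g' ⟨hg'.1, (toS_bdryOf B hB g').symm.trans (congrArg (toS B hB) hg'.2)⟩⟩

end Degen

/-- The simplex is the free model on itself. -/
def simplexRep {E : Ext} (B : SemiBase E) (r : ℕ) : B.SRep (OCx.simplex r) where
  G := B.F r
  fam := B.taut r
  univ X φ := by
    refine ⟨φ.app ⟨id, strictMono_id⟩, SemiBase.SFam.ext (funext fun _ => funext fun v =>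
      φ.nat ⟨id, strictMono_id⟩ _ _), fun g hg => ?_⟩
    refine Eq.trans ?_ (congrArg (fun f : B.SFam _ _ => f.app ⟨id, strictMono_id⟩) hg)
    exact ((congrArg (· ≫ g) (B.map_id r)).trans (Category.id_comp g)).symm

theorem ctr_simplex (h : SemiCtrCone) {C : Coherator} (B : SemiAll C.C) (r : ℕ) :
    C.C.Ctr (B.F r).obj := by
  refine h C r (B.semi r) (OCx.simplex r) (0 : Fin (r + 1))
    (inferInstanceAs (Finite (Fin (r + 1)))) (fun k v => ?_)
    ⟨⟨fun _ => (0 : Fin (r + 1)), Subsingleton.strictMono (α := Fin 1) _⟩, rfl⟩ ?_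
    (simplexRep B.toSemiBase r)
  · have := Fintype.card_le_of_injective (α := Fin (k + 1)) (β := Fin (r + 1)) v.1
      (StrictMono.injective v.2)
    simp at this
    omega
  · intro k v
    let vv : Fin (k + 1) → Fin (r + 1) := v.1
    let s : Finset (Fin (r + 1)) := insert 0 (Finset.univ.image vv)
    have hs : s.card = s.card - 1 + 1 :=
      (Nat.sub_add_cancel (Finset.card_pos.2 ⟨0, Finset.mem_insert_self _ _⟩)).symm
    refine ⟨s.card - 1, ⟨s.orderEmbOfFin hs, (s.orderEmbOfFin hs).strictMono⟩, ?_⟩
    show Set.range (s.orderEmbOfFin hs) = insert 0 (Set.range vv)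
    rw [Finset.range_orderEmbOfFin, Finset.coe_insert, Finset.coe_image, Finset.coe_univ,
      Set.image_univ]

/-- Simplices exist, given that free models on finite cones are contractible. -/
theorem simplicesExist_of (h : SemiCtrCone) : Spec.SimplicesExist := fun C =>
  ⟨simplices (semiAll h C) (ctr_simplex h (semiAll h C))⟩

end

end Vale.Agent.P259.Free
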