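import Vale.Agent.P259.Spec

/-!
# P259, module D: simplices of contractible models fill
-/

namespace Vale.Agent.P259.Free

open CategoryTheory

theorem sysFills : Spec.SysFills := by
  intro C S X hX
  obtain ⟨x⟩ := hX.nonempty
  refine ⟨⟨(S.zero_univ X x).exists.choose⟩, fun k g => ?_⟩
  obtain ⟨z, hz⟩ := hX.linked _ _ (S.par g)
  obtain ⟨f, ⟨-, hf⟩, -⟩ := S.univ g z hz
  exact ⟨f, fun {j} v => congrArg (fun b : Fam _ _ => b.app v) hf⟩

end Vale.Agent.P259.Free
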