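import Vale.Agent.P259.Cat.Chains

/-!
# P259, module D: acyclic models for chains of representables

A contravariant system of exact augmented complexes receives a natural chain map from the chains
of the representables, unique up to natural homotopy.
-/

universe u

open CategoryTheory

namespace Vale.Agent.P259.Free

open Vale.Agent.P259.Cat

variable {A : Type u} [SmallCategory A]

/-- Extensionality for chain maps. -/
theorem cxHom_ext {K L : Cx.{u}} {f g : CxHom K L} (h : ∀ n x, f.f n x = g.f n x) : f = g := by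
  obtain ⟨f, hf⟩ := f
  obtain ⟨g, hg⟩ := g
  obtain rfl : f = g := funext fun n => AddMonoidHom.ext (h n)
  rfl

/-- A contravariant system of complexes with a natural element in degree `0`. -/
structure Sys (A : Type u) [SmallCategory A] : Type (u + 1) where
  obj : A → Cx.{u}
  map : ∀ {a b : A}, (a ⟶ b) → CxHom (obj b) (obj a)
  map_id : ∀ (a : A) n (x : (obj a).X n), (map (𝟙 a)).f n x = x
  map_comp : ∀ {a b c : A} (f : a ⟶ b) (g : b ⟶ c) n (x : (obj c).X n),
    (map (f ≫ g)).f n x = (map f).f n ((map g).f n x)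
  e : ∀ a, (obj a).X 0
  map_e : ∀ {a b : A} (f : a ⟶ b), (map f).f 0 (e b) = e a

/-- A family of chain maps out of the system, indexed naturally by the elements of `P`. -/
structure SysCone (T : Sys A) (P : Sh A) (L : Cx.{u}) : Type u where
  app : ∀ {b : A}, P.obj b → CxHom (T.obj b) L
  nat : ∀ {b c : A} (f : b ⟶ c) (x : P.obj b) n (z : (T.obj c).X n),
    (app (P.map f x)).f n z = (app x).f n ((T.map f).f n z)

namespace Sys

variable (T : Sys A)

/-- The tautological cone over a representable. -/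
def taut (a : A) : SysCone T (hom a) (T.obj a) where
  app f := T.map f
  nat g f n z := T.map_comp f g n z

/-- The universal generator. -/
noncomputable def gen (b : A) {k : ℕ} (s : Seq A k (hom b)) : CX (k + 1) (hom b) :=
  Finsupp.single (Seq.cons b (𝟙 b) s) 1

theorem mapL_yon_gen {P : Sh A} {b : A} (x : P.obj b) {k : ℕ} (s : Seq A k (hom b)) :
    mapL (ShHom.yon P x) (k + 1) (gen b s) = Finsupp.single (Seq.cons b x s) 1 := by
  rw [gen, mapL_single, Seq.map_cons]
  show Finsupp.single (Seq.cons b (P.map (𝟙 b) x) s) 1 = _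
  rw [P.map_id]

/-- Values on universal generators in every degree, extended linearly over any cone. -/
noncomputable def extendF (w : ∀ {k : ℕ} (b : A), Seq A k (hom b) → (T.obj b).X (k + 1))
    {P : Sh A} {L : Cx.{u}} (ρ : SysCone T P L) (e : L.X 0) : ∀ n, CX n P →+ L.X n
  | 0 => lin fun _ => e
  | k + 1 => lin fun s => (ρ.app s.2.1).f (k + 1) (w s.1 s.2.2)

variable (hT : ∀ a n, (T.obj a).Exact n)

include hT in
theorem exists_fill {b : A} {k : ℕ} (z : (T.obj b).X k) (hz : z ∈ (T.obj b).cyc k) :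
    ∃ w, (T.obj b).d k w = z :=
  hT b k z hz

open Classical in
/-- A filler. -/
noncomputable def fill {b : A} {k : ℕ} (z : (T.obj b).X k) : (T.obj b).X (k + 1) :=
  if h : ∃ w, (T.obj b).d k w = z then h.choose else 0

theorem d_fill {b : A} {k : ℕ} (z : (T.obj b).X k) (h : ∃ w, (T.obj b).d k w = z) :
    (T.obj b).d k (T.fill z) = z := by
  rw [fill, dif_pos h]
  exact h.choose_spec

/-- The natural map on representables, degree by degree. -/
noncomputable def tauF : ∀ (k : ℕ) (a : A), CX k (hom a) →+ (T.obj a).X k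
  | 0, a => lin fun _ => T.e a
  | k + 1, a => lin fun s => (T.map s.2.1).f (k + 1)
      (T.fill (tauF k s.1 (bd k (hom s.1) (gen s.1 s.2.2))))

theorem tauF_single (k : ℕ) (a b : A) (f : a ⟶ b) (s : Seq A k (hom b)) :
    T.tauF (k + 1) a (Finsupp.single (Seq.cons b f s) 1) =
      (T.map f).f (k + 1) (T.fill (T.tauF k b (bd k (hom b) (gen b s)))) := by
  rw [tauF]
  exact (lin_single _ _ _).trans (one_smul _ _)

theorem tauF_nat : ∀ (k : ℕ) {a b : A} (f : a ⟶ b) (z : CX k (hom b)),
    T.tauF k a (mapL (ShHom.yon (hom a) f) k z) = (T.map f).f k (T.tauF k b z) := by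
  intro k a b f z
  refine hom_ext (f := (T.tauF k a).comp (mapL (ShHom.yon (hom a) f) k))
    (g := ((T.map f).f k).comp (T.tauF k b)) ?_ z
  intro s
  simp only [AddMonoidHom.comp_apply, mapL_single]
  cases k with
  | zero =>
      simp only [tauF, lin_single, one_smul, T.map_e]
  | succ k =>
      obtain ⟨c, g, t, rfl⟩ := Seq.exists_cons s
      rw [Seq.map_cons, tauF_single, tauF_single, ← T.map_comp]
      rfl

include hT in
theorem tauF_bd : ∀ (k : ℕ) (a : A) (z : CX (k + 1) (hom a)),
    T.tauF k a (bd k (hom a) z) = (T.obj a).d k (T.tauF (k + 1) a z) := by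
  intro k
  induction k with
  | zero =>
      intro a z
      refine hom_ext (f := (T.tauF 0 a).comp (bd 0 (hom a)))
        (g := ((T.obj a).d 0).comp (T.tauF 1 a)) ?_ z
      intro s
      obtain ⟨b, f, t, rfl⟩ := Seq.exists_cons s
      simp only [AddMonoidHom.comp_apply, tauF_single]
      rw [← (T.map f).comm, T.d_fill _ (exists_fill T hT _ (Cx.mem_cyc_zero _ _)), ← T.tauF_nat,
        bd_nat, mapL_yon_gen]
  | succ k ih =>
      intro a z
      refine hom_ext (f := (T.tauF (k + 1) a).comp (bd (k + 1) (hom a)))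
        (g := ((T.obj a).d (k + 1)).comp (T.tauF (k + 1 + 1) a)) ?_ z
      intro s
      obtain ⟨b, f, t, rfl⟩ := Seq.exists_cons s
      simp only [AddMonoidHom.comp_apply, tauF_single]
      have hc : T.tauF (k + 1) b (bd (k + 1) (hom b) (gen b t)) ∈ (T.obj b).cyc (k + 1) := by
        rw [Cx.mem_cyc_succ, ← ih, bd_bd, map_zero]
      rw [← (T.map f).comm, T.d_fill _ (exists_fill T hT _ hc), ← T.tauF_nat,
        bd_nat, mapL_yon_gen]

/-- The natural chain map. -/
noncomputable def tau (a : A) : CxHom (chains (hom a)) (T.obj a) :=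
  ⟨fun k => T.tauF k a, fun k => T.tauF_bd hT k a⟩

end Sys

variable {T : Sys A} {P : Sh A} {L : Cx.{u}}

/-- A natural family on generators extended over a cone. -/
noncomputable def coneMap (τ : ∀ a n, CX n (hom a) →+ (T.obj a).X n) (ρ : SysCone T P L)
    (e : L.X 0) : ∀ n, CX n P →+ L.X n :=
  T.extendF (fun b s => τ b _ (Sys.gen b s)) ρ e

theorem coneMap_single (τ : ∀ a n, CX n (hom a) →+ (T.obj a).X n) (ρ : SysCone T P L)
    (e : L.X 0) {k : ℕ} (b : A) (x : P.obj b) (s : Seq A k (hom b)) :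
    coneMap τ ρ e (k + 1) (Finsupp.single (Seq.cons b x s) 1) =
      (ρ.app x).f (k + 1) (τ b (k + 1) (Sys.gen b s)) := by
  rw [coneMap, Sys.extendF]
  exact (lin_single _ _ _).trans (one_smul _ _)

/-- On a representable over an element of `P`, the extension is the given family. -/
theorem coneMap_yon (τ : ∀ a n, CX n (hom a) →+ (T.obj a).X n) (ρ : SysCone T P L) (e : L.X 0)
    (he : ∀ {a} (x : P.obj a) (s : Seq A 0 (hom a)),
      (ρ.app x).f 0 (τ a 0 (Finsupp.single s 1)) = e)
    (hτ : ∀ {a b : A} (f : a ⟶ b) n z,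
      τ a n (mapL (ShHom.yon (hom a) f) n z) = (T.map f).f n (τ b n z))
    (n : ℕ) {a : A} (x : P.obj a) (z : CX n (hom a)) :
    coneMap τ ρ e n (mapL (ShHom.yon P x) n z) = (ρ.app x).f n (τ a n z) := by
  refine hom_ext (f := (coneMap τ ρ e n).comp (mapL (ShHom.yon P x) n))
    (g := ((ρ.app x).f n).comp (τ a n)) ?_ z
  intro s
  simp only [AddMonoidHom.comp_apply, mapL_single]
  cases n with
  | zero =>
      rw [he]
      rw [coneMap, Sys.extendF]
      exact (lin_single _ _ _).trans (one_smul _ _)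
  | succ k =>
      obtain ⟨b, f, t, rfl⟩ := Seq.exists_cons s
      rw [Seq.map_cons, coneMap_single]
      show (ρ.app (P.map f x)).f (k + 1) _ = _
      rw [ρ.nat, ← hτ, Sys.mapL_yon_gen]

/-- A natural chain map on representables extended over a cone is a chain map. -/
theorem coneMap_bd (τ : ∀ a n, CX n (hom a) →+ (T.obj a).X n) (ρ : SysCone T P L) (e : L.X 0)
    (he : ∀ {a} (x : P.obj a) (s : Seq A 0 (hom a)),
      (ρ.app x).f 0 (τ a 0 (Finsupp.single s 1)) = e)
    (hτ : ∀ {a b : A} (f : a ⟶ b) n z,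
      τ a n (mapL (ShHom.yon (hom a) f) n z) = (T.map f).f n (τ b n z))
    (hd : ∀ a n z, τ a n (bd n (hom a) z) = (T.obj a).d n (τ a (n + 1) z))
    (n : ℕ) (z : CX (n + 1) P) :
    coneMap τ ρ e n (bd n P z) = L.d n (coneMap τ ρ e (n + 1) z) := by
  refine hom_ext (f := (coneMap τ ρ e n).comp (bd n P))
    (g := (L.d n).comp (coneMap τ ρ e (n + 1))) ?_ z
  intro s
  obtain ⟨b, x, t, rfl⟩ := Seq.exists_cons s
  simp only [AddMonoidHom.comp_apply]
  rw [← Sys.mapL_yon_gen x t, ← bd_nat, coneMap_yon τ ρ e he hτ, coneMap_yon τ ρ e he hτ, hd]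
  exact (ρ.app x).comm n _

namespace Sys

variable (T) (hT : ∀ a n, (T.obj a).Exact n)

/-- Two natural chain maps out of the chains of representables, equal in degree `0`. -/
structure Pair : Type u where
  F : ∀ a, CxHom (chains (hom a)) (T.obj a)
  G : ∀ a, CxHom (chains (hom a)) (T.obj a)
  F_nat : ∀ {a b : A} (f : a ⟶ b) n z,
    (F a).f n (mapL (ShHom.yon (hom a) f) n z) = (T.map f).f n ((F b).f n z)
  G_nat : ∀ {a b : A} (f : a ⟶ b) n z,
    (G a).f n (mapL (ShHom.yon (hom a) f) n z) = (T.map f).f n ((G b).f n z)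
  zero : ∀ a z, (F a).f 0 z = (G a).f 0 z

variable {T} (p : T.Pair)

/-- The natural homotopy between two natural chain maps. -/
noncomputable def htpy : ∀ (k : ℕ) (a : A), CX k (hom a) →+ (T.obj a).X (k + 1)
  | 0, _ => 0
  | k + 1, a => lin fun s => (T.map s.2.1).f (k + 1 + 1)
      (T.fill ((p.F s.1).f (k + 1) (gen s.1 s.2.2) - (p.G s.1).f (k + 1) (gen s.1 s.2.2) -
        htpy k s.1 (bd k (hom s.1) (gen s.1 s.2.2))))

theorem htpy_single (k : ℕ) (a b : A) (f : a ⟶ b) (s : Seq A k (hom b)) :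
    htpy p (k + 1) a (Finsupp.single (Seq.cons b f s) 1) = (T.map f).f (k + 1 + 1)
      (T.fill ((p.F b).f (k + 1) (gen b s) - (p.G b).f (k + 1) (gen b s) -
        htpy p k b (bd k (hom b) (gen b s)))) := by
  rw [htpy]
  exact (lin_single _ _ _).trans (one_smul _ _)

theorem htpy_nat : ∀ (k : ℕ) {a b : A} (f : a ⟶ b) (z : CX k (hom b)),
    htpy p k a (mapL (ShHom.yon (hom a) f) k z) = (T.map f).f (k + 1) (htpy p k b z) := by
  intro k a b f z
  refine hom_ext (f := (htpy p k a).comp (mapL (ShHom.yon (hom a) f) k))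
    (g := ((T.map f).f (k + 1)).comp (htpy p k b)) ?_ z
  intro s
  simp only [AddMonoidHom.comp_apply, mapL_single]
  cases k with
  | zero => simp [htpy]
  | succ k =>
      obtain ⟨c, g, t, rfl⟩ := Seq.exists_cons s
      rw [Seq.map_cons, htpy_single, htpy_single, ← T.map_comp]
      rfl

include hT in
theorem htpy_bd : ∀ (k : ℕ) (a : A) (z : CX (k + 1) (hom a)),
    (T.obj a).d (k + 1) (htpy p (k + 1) a z) =
      (p.F a).f (k + 1) z - (p.G a).f (k + 1) z - htpy p k a (bd k (hom a) z) := by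
  intro k
  induction k with
  | zero =>
      intro a z
      refine hom_ext (f := ((T.obj a).d 1).comp (htpy p 1 a))
        (g := (p.F a).f 1 - (p.G a).f 1 - (htpy p 0 a).comp (bd 0 (hom a))) ?_ z
      intro s
      obtain ⟨b, f, t, rfl⟩ := Seq.exists_cons s
      simp only [AddMonoidHom.comp_apply, AddMonoidHom.sub_apply, htpy_single]
      have hc : (p.F b).f 1 (gen b t) - (p.G b).f 1 (gen b t) -
          htpy p 0 b (bd 0 (hom b) (gen b t)) ∈ (T.obj b).cyc 1 := by
        rw [Cx.mem_cyc_succ, htpy]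
        simp only [AddMonoidHom.zero_apply, sub_zero, map_sub]
        rw [sub_eq_zero, ← (p.F b).comm, ← (p.G b).comm]
        exact p.zero b _
      rw [← (T.map f).comm, T.d_fill _ (exists_fill T hT _ hc), map_sub, map_sub, ← p.F_nat,
        ← p.G_nat, ← htpy_nat, bd_nat, mapL_yon_gen]
  | succ k ih =>
      intro a z
      refine hom_ext (f := ((T.obj a).d (k + 1 + 1)).comp (htpy p (k + 1 + 1) a))
        (g := (p.F a).f (k + 1 + 1) - (p.G a).f (k + 1 + 1) -
          (htpy p (k + 1) a).comp (bd (k + 1) (hom a))) ?_ z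
      intro s
      obtain ⟨b, f, t, rfl⟩ := Seq.exists_cons s
      simp only [AddMonoidHom.comp_apply, AddMonoidHom.sub_apply, htpy_single]
      have hc : (p.F b).f (k + 1 + 1) (gen b t) - (p.G b).f (k + 1 + 1) (gen b t) -
          htpy p (k + 1) b (bd (k + 1) (hom b) (gen b t)) ∈ (T.obj b).cyc (k + 1 + 1) := by
        rw [Cx.mem_cyc_succ, map_sub, map_sub, ih, bd_bd, map_zero, ← CxHom.comm, ← CxHom.comm,
          sub_zero, sub_self]
      rw [← (T.map f).comm, T.d_fill _ (exists_fill T hT _ hc), map_sub, map_sub, ← p.F_nat,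
        ← p.G_nat, ← htpy_nat, bd_nat, mapL_yon_gen]

end Sys

namespace Sys

variable {P : Sh A} {L : Cx.{u}} (p : T.Pair) (hT : ∀ a n, (T.obj a).Exact n)

/-- The natural homotopy extended over a cone. -/
noncomputable def coneHtpy (ρ : SysCone T P L) : ∀ n, CX n P →+ L.X (n + 1)
  | 0 => 0
  | k + 1 => lin fun s => (ρ.app s.2.1).f (k + 1 + 1)
      (htpy p (k + 1) s.1 (gen s.1 s.2.2))

theorem coneHtpy_single (ρ : SysCone T P L) {k : ℕ} (b : A) (x : P.obj b)
    (s : Seq A k (hom b)) :
    coneHtpy p ρ (k + 1) (Finsupp.single (Seq.cons b x s) 1) =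
      (ρ.app x).f (k + 1 + 1) (htpy p (k + 1) b (gen b s)) := by
  rw [coneHtpy]
  exact (lin_single _ _ _).trans (one_smul _ _)

theorem coneHtpy_yon (ρ : SysCone T P L) (n : ℕ) {a : A} (x : P.obj a) (z : CX n (hom a)) :
    coneHtpy p ρ n (mapL (ShHom.yon P x) n z) = (ρ.app x).f (n + 1) (htpy p n a z) := by
  refine hom_ext (f := (coneHtpy p ρ n).comp (mapL (ShHom.yon P x) n))
    (g := ((ρ.app x).f (n + 1)).comp (htpy p n a)) ?_ z
  intro s
  simp only [AddMonoidHom.comp_apply, mapL_single]
  cases n with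
  | zero => simp [coneHtpy, htpy]
  | succ k =>
      obtain ⟨b, f, t, rfl⟩ := Seq.exists_cons s
      rw [Seq.map_cons, coneHtpy_single]
      show (ρ.app (P.map f x)).f (k + 1 + 1) _ = _
      rw [ρ.nat, ← htpy_nat, mapL_yon_gen]

include hT in
/-- **Acyclic models**: the two extensions over a cone of a pair of natural maps differ, on a
cycle, by a boundary. -/
theorem coneMap_sub_mem_range (ρ : SysCone T P L) (e : L.X 0) {k : ℕ} (z : CX (k + 1) P)
    (hz : bd k P z = 0) :
    ∃ w, L.d (k + 1) w = coneMap (fun a n => (p.F a).f n) ρ e (k + 1) z -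
      coneMap (fun a n => (p.G a).f n) ρ e (k + 1) z := by
  refine ⟨coneHtpy p ρ (k + 1) z, ?_⟩
  have key : ∀ y : CX (k + 1) P, L.d (k + 1) (coneHtpy p ρ (k + 1) y) =
      coneMap (fun a n => (p.F a).f n) ρ e (k + 1) y -
        coneMap (fun a n => (p.G a).f n) ρ e (k + 1) y - coneHtpy p ρ k (bd k P y) := by
    intro y
    refine hom_ext (f := (L.d (k + 1)).comp (coneHtpy p ρ (k + 1)))
      (g := coneMap (fun a n => (p.F a).f n) ρ e (k + 1) -
        coneMap (fun a n => (p.G a).f n) ρ e (k + 1) - (coneHtpy p ρ k).comp (bd k P)) ?_ y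
    intro s
    obtain ⟨b, x, t, rfl⟩ := Seq.exists_cons s
    simp only [AddMonoidHom.comp_apply, AddMonoidHom.sub_apply, coneHtpy_single, coneMap_single]
    rw [← (ρ.app x).comm, htpy_bd hT p, map_sub, map_sub, ← coneHtpy_yon, bd_nat, mapL_yon_gen]
  rw [key, hz, map_zero, sub_zero]

end Sys

end Vale.Agent.P259.Free
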