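import Vale.Agent.P259.Free.Reflect

/-!
# P259, module D: attaching cells in a reflective category of presheaves

A family of cells with prescribed restrictions is attached to a presheaf, universally among local
presheaves.
-/

universe u

open CategoryTheory

namespace Vale.Agent.P259.Free

variable {C : Type u} [SmallCategory C]

/-- Cells to be attached to `X`, with their prescribed restrictions. -/
structure CellData (X : Cᵒᵖ ⥤ Type u) : Type (u + 1) where
  I : Type u
  cell : I → C
  R : I → Type u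
  obj : ∀ i, R i → C
  hom : ∀ i r, obj i r ⟶ cell i
  val : ∀ i r, X.obj (Opposite.op (obj i r))

namespace CellData

variable {X : Cᵒᵖ ⥤ Type u} (K : CellData X)

/-- Fillers of the cells over a map out of `X`. -/
def Fillers {Z : Cᵒᵖ ⥤ Type u} (g : X ⟶ Z) : Type u :=
  { z : ∀ i, Z.obj (Opposite.op (K.cell i)) //
    ∀ i r, Z.map (K.hom i r).op (z i) = g.app _ (K.val i r) }

/-- Elements before identification. -/
def Pre (T : C) : Type u :=
  X.obj (Opposite.op T) ⊕ Σ i, (T ⟶ K.cell i)

/-- The identifications. -/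
inductive Rel (T : C) : K.Pre T → K.Pre T → Prop
  | glue (i : K.I) (r : K.R i) (g : T ⟶ K.obj i r) :
      Rel T (Sum.inr ⟨i, g ≫ K.hom i r⟩) (Sum.inl (X.map g.op (K.val i r)))

/-- Restriction before identification. -/
def preMap {S T : C} (f : S ⟶ T) : K.Pre T → K.Pre S
  | Sum.inl x => Sum.inl (X.map f.op x)
  | Sum.inr ⟨i, g⟩ => Sum.inr ⟨i, f ≫ g⟩

theorem preMap_rel {S T : C} (f : S ⟶ T) {a b : K.Pre T} (h : K.Rel T a b) :
    K.Rel S (K.preMap f a) (K.preMap f b) := by
  cases h with
  | glue i r g =>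
      have h2 := Rel.glue (K := K) i r (f ≫ g)
      simp only [Category.assoc, op_comp, Functor.map_comp] at h2
      exact h2

/-- The presheaf obtained by attaching the cells. -/
def pre : Cᵒᵖ ⥤ Type u where
  obj T := Quot (K.Rel T.unop)
  map {T S} f := ↾(Quot.map (K.preMap f.unop) fun _ _ h => K.preMap_rel f.unop h)
  map_id T := by
    ext a
    induction a using Quot.ind with
    | mk a =>
        rcases a with x | ⟨i, g⟩
        · show Quot.mk _ (Sum.inl (X.map (𝟙 T.unop).op x)) = Quot.mk _ (Sum.inl x)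
          simp
        · show Quot.mk (K.Rel T.unop) (Sum.inr ⟨i, 𝟙 T.unop ≫ g⟩) =
            Quot.mk (K.Rel T.unop) (Sum.inr ⟨i, g⟩)
          simp
  map_comp {T S U} f f' := by
    ext a
    induction a using Quot.ind with
    | mk a =>
        rcases a with x | ⟨i, g⟩
        · show Quot.mk _ (Sum.inl (X.map (f'.unop ≫ f.unop).op x)) =
            Quot.mk _ (Sum.inl (X.map f'.unop.op (X.map f.unop.op x)))
          simp
        · show Quot.mk (K.Rel U.unop) (Sum.inr ⟨i, (f'.unop ≫ f.unop) ≫ g⟩) =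
            Quot.mk (K.Rel U.unop) (Sum.inr ⟨i, f'.unop ≫ f.unop ≫ g⟩)
          simp

/-- The inclusion of `X`. -/
def preIncl : X ⟶ K.pre where
  app T := ↾(fun x => Quot.mk _ (Sum.inl x))
  naturality _ _ _ := rfl

/-- The map out of the attached presheaf given by fillers. -/
def preDesc {Z : Cᵒᵖ ⥤ Type u} (g : X ⟶ Z) (z : K.Fillers g) : K.pre ⟶ Z where
  app T := ↾(Quot.lift
    (fun a => match a with
      | Sum.inl x => g.app T x
      | Sum.inr ⟨i, f⟩ => Z.map f.op (z.1 i))
    (fun a b h => by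
      cases h with
      | glue i r f =>
          show Z.map (f ≫ K.hom i r).op (z.1 i) = g.app T (X.map f.op (K.val i r))
          rw [op_comp, Functor.map_comp]
          show Z.map f.op (Z.map (K.hom i r).op (z.1 i)) = _
          rw [z.2 i r]
          exact (NatTrans.naturality_apply g f.op (K.val i r)).symm))
  naturality {T S} f := by
    ext a
    induction a using Quot.ind with
    | mk a =>
        rcases a with x | ⟨i, h⟩
        · exact NatTrans.naturality_apply g f x
        · show Z.map (f.unop ≫ h).op (z.1 i) = Z.map f (Z.map h.op (z.1 i))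
          simp

/-- The cell itself. -/
def preCell (i : K.I) : K.pre.obj (Opposite.op (K.cell i)) :=
  Quot.mk _ (Sum.inr ⟨i, 𝟙 _⟩)

theorem preCell_spec (i : K.I) (r : K.R i) :
    K.pre.map (K.hom i r).op (K.preCell i) = K.preIncl.app _ (K.val i r) := by
  refine Quot.sound ?_
  have h := Rel.glue (K := K) i r (𝟙 _)
  simp only [Category.id_comp, op_id, CategoryTheory.Functor.map_id] at h
  show K.Rel _ (Sum.inr ⟨i, K.hom i r ≫ 𝟙 _⟩) (Sum.inl (K.val i r))
  simp only [Category.comp_id]
  exact h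

theorem pre_ext {Z : Cᵒᵖ ⥤ Type u} {f g : K.pre ⟶ Z} (h : K.preIncl ≫ f = K.preIncl ≫ g)
    (hc : ∀ i, f.app _ (K.preCell i) = g.app _ (K.preCell i)) : f = g := by
  ext T a
  induction a using Quot.ind with
  | mk a =>
      rcases a with x | ⟨i, u⟩
      · exact congrArg (fun k => k.app T x) h
      · have e : (Quot.mk _ (Sum.inr ⟨i, u⟩) : K.pre.obj T) = K.pre.map u.op (K.preCell i) := by
          show Quot.mk (K.Rel T.unop) (Sum.inr ⟨i, u⟩) =
            Quot.mk (K.Rel T.unop) (Sum.inr ⟨i, u ≫ 𝟙 _⟩)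
          rw [Category.comp_id]
        rw [e]
        exact ((NatTrans.naturality_apply f u.op _).trans
          (congrArg (fun y => Z.map u.op y) (hc i))).trans
            (NatTrans.naturality_apply g u.op _).symm

end CellData

variable {ι : Type u} {A B : ι → (Cᵒᵖ ⥤ Type u)} {w : ∀ i, A i ⟶ B i}

/-- A presheaf obtained from `X` by attaching the cells, universally among local presheaves. -/
structure Attached (w : ∀ i, A i ⟶ B i) {X : Cᵒᵖ ⥤ Type u} (K : CellData X) : Type (u + 1) where
  obj : Cᵒᵖ ⥤ Type u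
  loc : IsLoc w obj
  incl : X ⟶ obj
  cell : ∀ i, obj.obj (Opposite.op (K.cell i))
  cell_spec : ∀ i r, obj.map (K.hom i r).op (cell i) = incl.app _ (K.val i r)
  desc : ∀ {Z : Cᵒᵖ ⥤ Type u}, IsLoc w Z → ∀ g : X ⟶ Z, K.Fillers g → (obj ⟶ Z)
  incl_desc : ∀ {Z : Cᵒᵖ ⥤ Type u} (hZ : IsLoc w Z) (g : X ⟶ Z) (z : K.Fillers g),
    incl ≫ desc hZ g z = g
  desc_cell : ∀ {Z : Cᵒᵖ ⥤ Type u} (hZ : IsLoc w Z) (g : X ⟶ Z) (z : K.Fillers g) (i : K.I),
    (desc hZ g z).app _ (cell i) = z.1 i
  hom_ext : ∀ {Z : Cᵒᵖ ⥤ Type u}, IsLoc w Z → ∀ {f g : obj ⟶ Z}, incl ≫ f = incl ≫ g →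
    (∀ i, f.app _ (cell i) = g.app _ (cell i)) → f = g

/-- Cells can always be attached. -/
theorem nonempty_attached {X : Cᵒᵖ ⥤ Type u} (K : CellData X) : Nonempty (Attached w K) := by
  obtain ⟨L, η, hL, hu⟩ := exists_reflection w K.pre
  refine ⟨{
    obj := L
    loc := hL
    incl := K.preIncl ≫ η
    cell := fun i => η.app _ (K.preCell i)
    cell_spec := fun i r => ?_
    desc := fun hZ g z => ((hu _ hZ).2 (K.preDesc g z)).choose
    incl_desc := fun hZ g z => ?_
    desc_cell := fun hZ g z i => ?_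
    hom_ext := fun {Z} hZ {f g} h hc => ?_ }⟩
  · rw [← NatTrans.naturality_apply η (K.hom i r).op (K.preCell i), K.preCell_spec]
    rfl
  · refine ((Category.assoc _ _ _).trans
      (congrArg (K.preIncl ≫ ·) ((hu _ hZ).2 (K.preDesc g z)).choose_spec)).trans ?_
    rfl
  · have h := congrArg (fun k => k.app _ (K.preCell i))
      ((hu _ hZ).2 (K.preDesc g z)).choose_spec
    refine h.trans ?_
    rename_i Z
    show Z.map (𝟙 (K.cell i)).op (z.1 i) = z.1 i
    simp
  · refine (hu _ hZ).1 (K.pre_ext ?_ fun i => ?_)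
    · simpa only [Category.assoc] using h
    · exact hc i

end Vale.Agent.P259.Free
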