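import Vale.Agent.P259.Free.CellsAdd

/-!
# P259, module D: acyclic carriers

Two chain maps out of a based complex which are carried by acyclic subgroups agree on homology;
used for contiguous maps of ordered complexes.
-/

universe u

open CategoryTheory

namespace Vale.Agent.P259.Free

open Vale.Agent.P259.Cat

variable {A : Cells.{u}} {L : Cx.{u}}

/-- An acyclic carrier of a pair of chain maps. -/
structure Carrier (f g : CxHom A.cx L) : Type u where
  S : ∀ n, A.σ n → ∀ k, AddSubgroup (L.X k)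
  mem_f : ∀ n c, f.f n (Finsupp.single c 1) ∈ S n c n
  mem_g : ∀ n c, g.f n (Finsupp.single c 1) ∈ S n c n
  face : ∀ n c, ∀ c' ∈ (A.bdy n c).support, ∀ k, S n c' k ≤ S (n + 1) c k
  fill : ∀ n c x, x ∈ S n c n → x ∈ L.cyc n → ∃ w ∈ S n c (n + 1), L.d n w = x

namespace Carrier

variable {f g : CxHom A.cx L} (C : Carrier f g)
  (h0 : ∀ c : A.σ 0, f.f 0 (Finsupp.single c 1) = g.f 0 (Finsupp.single c 1))

open Classical in
/-- A filler inside the carrier. -/
noncomputable def fillIn (n : ℕ) (c : A.σ n) (x : L.X n) : L.X (n + 1) :=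
  if h : ∃ w ∈ C.S n c (n + 1), L.d n w = x then h.choose else 0

theorem fillIn_mem (n : ℕ) (c : A.σ n) (x : L.X n) : C.fillIn n c x ∈ C.S n c (n + 1) := by
  rw [fillIn]
  split
  · next h => exact h.choose_spec.1
  · exact zero_mem _

theorem d_fillIn (n : ℕ) (c : A.σ n) (x : L.X n) (h : ∃ w ∈ C.S n c (n + 1), L.d n w = x) :
    L.d n (C.fillIn n c x) = x := by
  rw [fillIn, dif_pos h]
  exact h.choose_spec.2

/-- The homotopy on generators. -/
noncomputable def htpy : ∀ n, A.σ n → L.X (n + 1)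
  | 0 => fun _ => 0
  | n + 1 => fun c => C.fillIn (n + 1) c (f.f (n + 1) (Finsupp.single c 1) -
      g.f (n + 1) (Finsupp.single c 1) - lin (htpy n) (A.bdy n c))

theorem htpy_mem : ∀ n c, C.htpy n c ∈ C.S n c (n + 1)
  | 0, _ => zero_mem _
  | n + 1, c => by
      rw [htpy]
      exact C.fillIn_mem _ _ _

theorem lin_htpy_mem (n : ℕ) (c : A.σ (n + 1)) :
    lin (C.htpy n) (A.bdy n c) ∈ C.S (n + 1) c (n + 1) := by
  simp only [lin, Finsupp.liftAddHom_apply, Finsupp.sum]
  refine AddSubgroup.sum_mem _ fun c' hc' => ?_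
  rw [zmultiplesHom_apply]
  exact AddSubgroup.zsmul_mem _ (C.face n c c' hc' _ (C.htpy_mem n c')) _

include h0 in
theorem d_htpy : ∀ n c, L.d (n + 1) (C.htpy (n + 1) c) = f.f (n + 1) (Finsupp.single c 1) -
    g.f (n + 1) (Finsupp.single c 1) - lin (C.htpy n) (A.bdy n c) := by
  intro n
  induction n with
  | zero =>
      intro c
      conv_lhs => rw [htpy]
      refine C.d_fillIn _ _ _ (C.fill _ _ _ (sub_mem (sub_mem (C.mem_f _ _) (C.mem_g _ _))
        (C.lin_htpy_mem 0 c)) ?_)
      rw [Cx.mem_cyc_succ, show lin (C.htpy 0) (A.bdy 0 c) = 0 from ?_, sub_zero, map_sub,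
        ← f.comm, ← g.comm, sub_eq_zero]
      · exact hom_ext (f := f.f 0) (g := g.f 0) h0 _
      · exact hom_ext (f := lin (C.htpy 0)) (g := 0) (fun c => by simp [lin_single, htpy]) _
  | succ n ih =>
      intro c
      conv_lhs => rw [htpy]
      refine C.d_fillIn _ _ _ (C.fill _ _ _ (sub_mem (sub_mem (C.mem_f _ _) (C.mem_g _ _))
        (C.lin_htpy_mem _ c)) ?_)
      have key : ∀ y : A.cx.X (n + 1), L.d (n + 1) (lin (C.htpy (n + 1)) y) =
          f.f (n + 1) y - g.f (n + 1) y - lin (C.htpy n) (lin (A.bdy n) y) := fun y => by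
        refine hom_ext (f := (L.d (n + 1)).comp (lin (C.htpy (n + 1))))
          (g := f.f (n + 1) - g.f (n + 1) - (lin (C.htpy n)).comp (lin (A.bdy n))) ?_ y
        intro c'
        simp [lin_single, ih]
      rw [Cx.mem_cyc_succ, map_sub, map_sub, ← f.comm, ← g.comm, key, A.bdd, map_zero, sub_zero]
      show f.f (n + 1) (lin (A.bdy (n + 1)) _) - g.f (n + 1) (lin (A.bdy (n + 1)) _) - _ = 0
      rw [lin_single, one_smul, sub_self]

include C h0 in
/-- **Carrier theorem**: the maps differ by boundaries on cycles. -/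
theorem sub_mem_range (n : ℕ) (y : A.cx.X (n + 1)) (hy : A.cx.d n y = 0) :
    ∃ w, L.d (n + 1) w = f.f (n + 1) y - g.f (n + 1) y := by
  refine ⟨lin (C.htpy (n + 1)) y, ?_⟩
  have key : L.d (n + 1) (lin (C.htpy (n + 1)) y) =
      f.f (n + 1) y - g.f (n + 1) y - lin (C.htpy n) (lin (A.bdy n) y) := by
    refine hom_ext (f := (L.d (n + 1)).comp (lin (C.htpy (n + 1))))
      (g := f.f (n + 1) - g.f (n + 1) - (lin (C.htpy n)).comp (lin (A.bdy n))) ?_ y
    intro c'
    simp [lin_single, C.d_htpy h0]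
  rw [key, show lin (A.bdy n) y = 0 from hy, map_zero, sub_zero]

end Carrier

end Vale.Agent.P259.Free
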