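import Vale.Agent.P259.Free.Cellular

/-!
# P259, module D: adjoining cells to a based complex

New cells in one degree, with cycles as boundaries, and the universal property of the result.
-/

universe u

open CategoryTheory

namespace Vale.Agent.P259.Free

open Vale.Agent.P259.Cat

namespace Cells

variable (A : Cells.{u}) (m : ℕ) (I : Type u) (z : I → (A.σ m →₀ ℤ))

/-- The inclusion of the old generators. -/
noncomputable def addIncl (n : ℕ) :
    (A.σ n →₀ ℤ) →+ ((A.σ n ⊕ (PLift (n = m + 1) × I)) →₀ ℤ) :=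
  Finsupp.mapDomain.addMonoidHom Sum.inl

theorem addIncl_single (n : ℕ) (c : A.σ n) :
    A.addIncl m I n (Finsupp.single c 1) = Finsupp.single (Sum.inl c) 1 :=
  Finsupp.mapDomain_single

/-- The boundary after adjoining. -/
noncomputable def addBdy (n : ℕ) :
    A.σ (n + 1) ⊕ (PLift (n + 1 = m + 1) × I) → ((A.σ n ⊕ (PLift (n = m + 1) × I)) →₀ ℤ)
  | Sum.inl c => A.addIncl m I n (A.bdy n c)
  | Sum.inr ⟨h, i⟩ => A.addIncl m I n ((Nat.succ.inj h.down).symm ▸ z i)

theorem lin_addBdy (n : ℕ) (x : A.σ (n + 1) →₀ ℤ) :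
    lin (A.addBdy m I z n) (A.addIncl m I (n + 1) x) = A.addIncl m I n (lin (A.bdy n) x) := by
  refine hom_ext (f := (lin (A.addBdy m I z n)).comp (A.addIncl m I (n + 1)))
    (g := (A.addIncl m I n).comp (lin (A.bdy n))) ?_ x
  intro c
  simp [addIncl_single, lin_single, addBdy]

variable (hz : ∀ i, z i ∈ A.cx.cyc m)

/-- The complex with the cells adjoined. -/
noncomputable def add : Cells.{u} where
  σ n := A.σ n ⊕ (PLift (n = m + 1) × I)
  bdy := A.addBdy m I z
  bdd n c := by
    rcases c with c | ⟨h, i⟩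
    · show lin (A.addBdy m I z n) (A.addIncl m I (n + 1) (A.bdy (n + 1) c)) = 0
      rw [lin_addBdy, A.bdd, map_zero]
    · obtain ⟨h⟩ := h
      obtain rfl : n + 1 = m := Nat.succ.inj h
      show lin (A.addBdy (n + 1) I z n) (A.addIncl (n + 1) I (n + 1) (z i)) = 0
      rw [lin_addBdy, show lin (A.bdy n) (z i) = 0 from hz i, map_zero]

/-- The new cell. -/
def newCell (i : I) : (A.add m I z hz).σ (m + 1) := Sum.inr ⟨⟨rfl⟩, i⟩

/-- The inclusion chain map. -/
noncomputable def addHom : CxHom A.cx (A.add m I z hz).cx :=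
  ⟨fun n => A.addIncl m I n, fun n x => (A.lin_addBdy m I z n x).symm⟩

theorem d_newCell (i : I) :
    (A.add m I z hz).cx.d m (Finsupp.single (A.newCell m I z hz i) 1) =
      (A.addHom m I z hz).f m (z i) := by
  show lin (A.addBdy m I z m) _ = _
  refine ((lin_single _ _ _).trans (one_smul _ _)).trans ?_
  rfl

variable {A m I z hz} {L : Cx.{u}}

/-- Values on generators after adjoining. -/
noncomputable def addVal (f : CxHom A.cx L) (v : I → L.X (m + 1)) :
    ∀ n, A.σ n ⊕ (PLift (n = m + 1) × I) → L.X n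
  | n, Sum.inl c => f.f n (Finsupp.single c 1)
  | _, Sum.inr ⟨⟨h⟩, i⟩ => h.symm ▸ v i

theorem lin_addVal (f : CxHom A.cx L) (v : I → L.X (m + 1)) (n : ℕ) (x : A.σ n →₀ ℤ) :
    lin (addVal f v n) (A.addIncl m I n x) = f.f n x := by
  refine hom_ext (f := (lin (addVal f v n)).comp (A.addIncl m I n)) (g := f.f n) ?_ x
  intro c
  simp [addIncl_single, lin_single, addVal]

/-- The chain map extending `f` by values on the new cells. -/
noncomputable def addDesc (f : CxHom A.cx L) (v : I → L.X (m + 1))
    (hv : ∀ i, L.d m (v i) = f.f m (z i)) : CxHom (A.add m I z hz).cx L :=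
  toHom (addVal f v) fun n c => by
    rcases c with c | ⟨h, i⟩
    · show lin (addVal f v n) (A.addIncl m I n (A.bdy n c)) = _
      rw [lin_addVal]
      refine Eq.trans ?_ (f.comm n (Finsupp.single c 1))
      simp [lin_single]
    · obtain ⟨h⟩ := h
      obtain rfl : n = m := Nat.succ.inj h
      show lin (addVal f v n) (A.addIncl n I n (z i)) = L.d n (v i)
      rw [lin_addVal, hv]

theorem addDesc_incl (f : CxHom A.cx L) (v : I → L.X (m + 1))
    (hv : ∀ i, L.d m (v i) = f.f m (z i)) (n : ℕ) (x : A.cx.X n) :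
    (addDesc (hz := hz) f v hv).f n ((A.addHom m I z hz).f n x) = f.f n x :=
  lin_addVal f v n x

theorem addDesc_newCell (f : CxHom A.cx L) (v : I → L.X (m + 1))
    (hv : ∀ i, L.d m (v i) = f.f m (z i)) (i : I) :
    (addDesc (hz := hz) f v hv).f (m + 1) (Finsupp.single (A.newCell m I z hz i) 1) = v i :=
  toHom_single _ _ _ _

/-- Maps out are determined on the old complex and the new cells. -/
theorem add_hom_ext {f g : CxHom (A.add m I z hz).cx L}
    (h : ∀ n x, f.f n ((A.addHom m I z hz).f n x) = g.f n ((A.addHom m I z hz).f n x))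
    (hc : ∀ i, f.f (m + 1) (Finsupp.single (A.newCell m I z hz i) 1) =
      g.f (m + 1) (Finsupp.single (A.newCell m I z hz i) 1)) : f = g := by
  refine hom_eq fun n c => ?_
  rcases c with c | ⟨⟨h'⟩, i⟩
  · have := h n (Finsupp.single c 1)
    rwa [show (A.addHom m I z hz).f n (Finsupp.single c 1) = _ from addIncl_single A m I n c]
      at this
  · subst h'
    exact hc i

end Cells

end Vale.Agent.P259.Free
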