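import Vale.Agent.P259.Free.Acyclic

/-!
# P259, module D: complexes of cells and mapping cylinders

A complex of cells is a complex of free abelian groups with chosen bases; the mapping cylinder of
a chain map out of it has free relative part, and is exact when the target is.
-/

universe u

open CategoryTheory

namespace Vale.Agent.P259.Free

open Vale.Agent.P259.Cat

/-- A based complex of free abelian groups. -/
structure Cells : Type (u + 1) where
  σ : ℕ → Type u
  bdy : ∀ n, σ (n + 1) → (σ n →₀ ℤ)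
  bdd : ∀ n c, lin (bdy n) (bdy (n + 1) c) = 0

namespace Cells

variable (A : Cells.{u})

/-- The complex. -/
noncomputable abbrev cx : Cx.{u} :=
  ⟨fun n => A.σ n →₀ ℤ, fun _ => inferInstance, fun n => lin (A.bdy n), fun n x => by
    refine hom_ext (f := (lin (A.bdy n)).comp (lin (A.bdy (n + 1)))) (g := 0) ?_ x
    intro c
    simp [lin_single, A.bdd]⟩

variable {A} {L : Cx.{u}}

/-- The chain map given by values on cells. -/
noncomputable def toHom (v : ∀ n, A.σ n → L.X n)
    (hv : ∀ n c, lin (v n) (A.bdy n c) = L.d n (v (n + 1) c)) : CxHom A.cx L :=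
  ⟨fun n => lin (v n), fun n x => by
    refine hom_ext (f := (lin (v n)).comp (lin (A.bdy n))) (g := (L.d n).comp (lin (v (n + 1)))) ?_ x
    intro c
    simp [lin_single, hv]⟩

theorem toHom_single (v : ∀ n, A.σ n → L.X n)
    (hv : ∀ n c, lin (v n) (A.bdy n c) = L.d n (v (n + 1) c)) (n : ℕ) (c : A.σ n) :
    (toHom v hv).f n (Finsupp.single c 1) = v n c := by
  simp [toHom, lin_single]

/-- A chain map is determined by its values on cells. -/
theorem hom_eq {f g : CxHom A.cx L}
    (h : ∀ n c, f.f n (Finsupp.single c 1) = g.f n (Finsupp.single c 1)) : f = g :=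
  cxHom_ext fun n x => hom_ext (f := f.f n) (g := g.f n) (h n) x

end Cells

/-- Degree shifted by one, with zero in degree `0`. -/
def Prev (A : Cx.{u}) : ℕ → Type u
  | 0 => PUnit
  | n + 1 => A.X n

instance instPrev (A : Cx.{u}) : ∀ n, AddCommGroup (Prev A n)
  | 0 => inferInstanceAs (AddCommGroup PUnit)
  | n + 1 => inferInstanceAs (AddCommGroup (A.X n))

/-- The differential of the shift. -/
def prevD (A : Cx.{u}) : ∀ n, Prev A (n + 1) →+ Prev A n
  | 0 => 0
  | n + 1 => A.d n

/-- The shifted part, read in the unshifted complex. -/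
def prevIncl (A : Cx.{u}) (n : ℕ) : Prev A (n + 1) →+ A.X n := AddMonoidHom.id _

variable {A K L : Cx.{u}} (ι : CxHom A K)

/-- The mapping cylinder of `ι`. -/
noncomputable abbrev cyl : Cx.{u} where
  X n := K.X n × A.X n × Prev A n
  grp _ := inferInstance
  d n :=
    { toFun := fun x => (K.d n x.1 - ι.f n (prevIncl A n x.2.2),
        A.d n x.2.1 + prevIncl A n x.2.2, -prevD A n x.2.2)
      map_zero' := by simp
      map_add' := fun x y => by
        simp only [Prod.fst_add, Prod.snd_add, map_add, Prod.mk_add_mk]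
        ext <;> simp <;> abel }
  dd n x := by
    obtain ⟨k, a, b⟩ := x
    change A.X (n + 1) at b
    refine Prod.ext ?_ (Prod.ext ?_ ?_)
    · show K.d n (K.d (n + 1) k - ι.f (n + 1) b) - ι.f n (-(A.d n b)) = 0
      rw [map_sub, K.dd, map_neg, ι.comm]
      abel
    · show A.d n (A.d (n + 1) a + b) + -(A.d n b) = 0
      rw [map_add, A.dd]
      abel
    · cases n with
      | zero => rfl
      | succ n =>
          show -(A.d n (-(A.d (n + 1) b))) = 0
          rw [map_neg, A.dd, neg_zero, neg_zero]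

/-- The inclusion of the target. -/
noncomputable def cylK : CxHom K (cyl ι) where
  f n := (AddMonoidHom.inl (K.X n) (A.X n × Prev A n))
  comm n x := by
    show (K.d n x, (0 : A.X n × Prev A n)) =
      (K.d n x - ι.f n (prevIncl A n 0), A.d n 0 + prevIncl A n 0, -prevD A n 0)
    simp [Prod.zero_eq_mk]

/-- The inclusion of the source. -/
noncomputable def cylA : CxHom A (cyl ι) where
  f n := (AddMonoidHom.inr (K.X n) (A.X n × Prev A n)).comp (AddMonoidHom.inl _ _)
  comm n x := by
    show ((0 : K.X n), A.d n x, (0 : Prev A n)) =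
      (K.d n 0 - ι.f n (prevIncl A n 0), A.d n x + prevIncl A n 0, -prevD A n 0)
    simp

/-- The prism over the source. -/
noncomputable def cylH (n : ℕ) : A.X n →+ (cyl ι).X (n + 1) :=
  (AddMonoidHom.inr (K.X (n + 1)) (A.X (n + 1) × Prev A (n + 1))).comp
    (AddMonoidHom.inr _ _)

theorem d_cylH (n : ℕ) (a : A.X (n + 1)) :
    (cyl ι).d (n + 1) (cylH ι (n + 1) a) =
      (cylA ι).f (n + 1) a - (cylK ι).f (n + 1) (ι.f (n + 1) a) - cylH ι n (A.d n a) := by
  refine Prod.ext ?_ (Prod.ext ?_ ?_)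
  · show K.d (n + 1) 0 - ι.f (n + 1) a = (0 : K.X (n + 1)) - ι.f (n + 1) a - 0
    simp
  · show A.d (n + 1) 0 + a = a - 0 - 0
    simp
  · show -A.d n a = (0 : A.X n) - 0 - A.d n a
    simp

theorem d_cylH_zero (a : A.X 0) :
    (cyl ι).d 0 (cylH ι 0 a) = (cylA ι).f 0 a - (cylK ι).f 0 (ι.f 0 a) := by
  refine Prod.ext ?_ (Prod.ext ?_ rfl)
  · show K.d 0 0 - ι.f 0 a = (0 : K.X 0) - ι.f 0 a
    simp
  · show A.d 0 0 + a = a - 0
    simp

theorem cyl_split (n : ℕ) (x : (cyl ι).X (n + 1)) :
    x = (cylK ι).f (n + 1) x.1 + (cylA ι).f (n + 1) x.2.1 + cylH ι n (prevIncl A n x.2.2) := by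
  refine Prod.ext ?_ (Prod.ext ?_ ?_)
  · show x.1 = x.1 + 0 + 0
    simp
  · show x.2.1 = 0 + x.2.1 + 0
    simp
  · show prevIncl A n x.2.2 = (0 : A.X n) + 0 + prevIncl A n x.2.2
    simp

theorem cyl_split_zero (x : (cyl ι).X 0) :
    x = (cylK ι).f 0 x.1 + (cylA ι).f 0 x.2.1 := by
  refine Prod.ext ?_ (Prod.ext ?_ (Subsingleton.elim (α := PUnit) _ _))
  · show x.1 = x.1 + 0
    simp
  · show x.2.1 = 0 + x.2.1
    simp

/-- The cylinder is exact where the target is. -/
theorem cyl_exact (n : ℕ) (hK : K.Exact n) : (cyl ι).Exact n := by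
  intro x hx
  have h0 : ∃ k : K.X n, k ∈ K.cyc n ∧
      x = (cylK ι).f n k + (cyl ι).d n (cylH ι n x.2.1) := by
    cases n with
    | zero =>
        refine ⟨x.1 + ι.f 0 x.2.1, trivial, ?_⟩
        conv_lhs => rw [cyl_split_zero ι x]
        rw [d_cylH_zero, map_add]
        abel
    | succ n =>
        have h1 : A.d n x.2.1 + prevIncl A n x.2.2 = 0 := congrArg (fun z => z.2.1) hx
        have h2 : K.d n x.1 - ι.f n (prevIncl A n x.2.2) = 0 := congrArg (fun z => z.1) hx
        have h3 : prevIncl A n x.2.2 = -A.d n x.2.1 :=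
          eq_neg_of_add_eq_zero_right h1
        refine ⟨x.1 + ι.f (n + 1) x.2.1, ?_, ?_⟩
        · rw [Cx.mem_cyc_succ, map_add, ← ι.comm]
          rw [h3, map_neg, sub_neg_eq_add] at h2
          exact h2
        · conv_lhs => rw [cyl_split ι n x]
          rw [d_cylH, map_add]
          have h4 : cylH ι n (prevIncl A n x.2.2) = -cylH ι n (A.d n x.2.1) := by
            rw [← map_neg, ← h3]
          rw [h4]
          abel
  obtain ⟨k, hk, hx'⟩ := h0
  obtain ⟨w, hw⟩ := hK k hk
  refine ⟨(cylK ι).f (n + 1) w + cylH ι n x.2.1, ?_⟩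
  rw [map_add, ← (cylK ι).comm, hw, ← hx']

/-- The map on the shifted part given by a degree raising family. -/
def prevMap {L : Cx.{u}} (H : ∀ n, A.X n →+ L.X (n + 1)) : ∀ n, Prev A n →+ L.X n
  | 0 => 0
  | n + 1 => H n

/-- A map out of the cylinder from its restrictions and a homotopy. -/
noncomputable def cylDesc (φK : CxHom K L) (φA : CxHom A L) (H : ∀ n, A.X n →+ L.X (n + 1))
    (hH0 : ∀ a, L.d 0 (H 0 a) = φA.f 0 a - φK.f 0 (ι.f 0 a))
    (hH : ∀ n a, L.d (n + 1) (H (n + 1) a) =
      φA.f (n + 1) a - φK.f (n + 1) (ι.f (n + 1) a) - H n (A.d n a)) : CxHom (cyl ι) L where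
  f n :=
    { toFun := fun x => φK.f n x.1 + φA.f n x.2.1 + prevMap H n x.2.2
      map_zero' := by simp
      map_add' := fun x y => by
        simp only [Prod.fst_add, Prod.snd_add, map_add]
        abel }
  comm n x := by
    obtain ⟨k, a, b⟩ := x
    change A.X n at b
    show φK.f n (K.d n k - ι.f n b) + φA.f n (A.d n a + b) + prevMap H n (-prevD A n b) =
      L.d n (φK.f (n + 1) k + φA.f (n + 1) a + H n b)
    rw [map_sub, map_add, map_add, map_add, ← φK.comm, ← φA.comm]
    cases n with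
    | zero =>
        rw [hH0]
        show _ + _ + (0 : L.X 0) = _
        abel
    | succ n =>
        rw [hH]
        show _ + _ + H n (-A.d n b) = _
        rw [map_neg]
        abel

variable {ι}

/-- Maps out of the cylinder are determined by the restrictions and the prism values. -/
theorem cyl_hom_ext {f g : CxHom (cyl ι) L}
    (hK : ∀ n x, f.f n ((cylK ι).f n x) = g.f n ((cylK ι).f n x))
    (hA : ∀ n x, f.f n ((cylA ι).f n x) = g.f n ((cylA ι).f n x))
    (hH : ∀ n x, f.f (n + 1) (cylH ι n x) = g.f (n + 1) (cylH ι n x)) : f = g := by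
  refine cxHom_ext fun n x => ?_
  cases n with
  | zero => rw [cyl_split_zero ι x, map_add, map_add, hK, hA]
  | succ n => rw [cyl_split ι n x, map_add, map_add, map_add, map_add, hK, hA, hH]

section DescLemmas

variable (φK : CxHom K L) (φA : CxHom A L) (H : ∀ n, A.X n →+ L.X (n + 1))

theorem cylDesc_K (hH0) (hH) (n : ℕ) (x : K.X n) :
    (cylDesc ι φK φA H hH0 hH).f n ((cylK ι).f n x) = φK.f n x := by
  show φK.f n x + φA.f n 0 + prevMap H n 0 = φK.f n x
  simp

theorem cylDesc_A (hH0) (hH) (n : ℕ) (x : A.X n) :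
    (cylDesc ι φK φA H hH0 hH).f n ((cylA ι).f n x) = φA.f n x := by
  show φK.f n 0 + φA.f n x + prevMap H n 0 = φA.f n x
  simp

theorem cylDesc_H (hH0) (hH) (n : ℕ) (x : A.X n) :
    (cylDesc ι φK φA H hH0 hH).f (n + 1) (cylH ι n x) = H n x := by
  show φK.f (n + 1) 0 + φA.f (n + 1) 0 + H n x = H n x
  simp

end DescLemmas

end Vale.Agent.P259.Free
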