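import Vale.Agent.P259.Free.ConeExact

/-!
# P259, module D: zigzag contractible posets have exact chains
-/

namespace Vale.Agent.P259.Free

open Vale.Agent.P259.Cat

noncomputable section

variable {P : Type} [PartialOrder P]

open Classical in
/-- The image of a tuple, zero when degenerate. -/
def nT (f : P →o P) (n : ℕ) (t : Tup P n) : Tup P n →₀ ℤ :=
  if StrictMono (f ∘ t) then Finsupp.single (f ∘ t) 1 else 0

open Classical in
/-- Prepend below all the entries, zero otherwise. -/
def nCons (b : P) (n : ℕ) (s : Tup P n) : Tup P (n + 1) →₀ ℤ :=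
  if StrictMono (Fin.cons b s : Tup P (n + 1)) then Finsupp.single (Fin.cons b s) 1 else 0

theorem strictMono_of_cons {b : P} {n : ℕ} {s : Tup P n}
    (h : StrictMono (Fin.cons b s : Tup P (n + 1))) : StrictMono s := fun i i' hii => by
  have := h (Fin.succ_lt_succ_iff.2 hii)
  simpa using this

theorem nT_cons (f : P →o P) (a : P) (n : ℕ) (x : Tup P n →₀ ℤ) :
    lin (nT f (n + 1)) (consT a n x) = lin (nCons (f a) n) (lin (nT f n) x) := by
  refine hom_ext (f := (lin (nT f (n + 1))).comp (consT a n))
    (g := (lin (nCons (f a) n)).comp (lin (nT f n))) ?_ x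
  intro s
  show lin (nT f (n + 1)) (consT a n (Finsupp.single s 1)) =
    lin (nCons (f a) n) (lin (nT f n) (Finsupp.single s 1))
  rw [consT_single, lin_single, lin_single, one_smul, one_smul, nT, nT, Fin.comp_cons]
  by_cases hs : StrictMono (f ∘ s)
  · rw [if_pos hs, lin_single, one_smul, nCons]
  · rw [if_neg hs, map_zero, if_neg fun h => hs (strictMono_of_cons h)]

/-- A degenerate tuple has degenerate boundary. -/
theorem nT_dT_zero (f : P →o P) : ∀ (n : ℕ) (t : Tup P (n + 1)), StrictMono t →
    ¬StrictMono (f ∘ t) → lin (nT f n) (dT n t) = 0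
  | 0, t, _, h => absurd (Subsingleton.strictMono (α := Fin 1) _) h
  | n + 1, t, ht, h => by
    obtain ⟨a, y, rfl⟩ : ∃ a y, t = Fin.cons a y :=
      ⟨t 0, Fin.tail t, (Fin.cons_self_tail t).symm⟩
    have hy : StrictMono y := strictMono_of_cons ht
    have hay : a < y 0 := by
      have := ht (Fin.succ_pos (0 : Fin (n + 1)))
      simpa using this
    rw [dT_cons, map_sub, lin_single, one_smul, nT_cons]
    by_cases he : f a = f (y 0)
    · cases n with
      | zero =>
        show nT f 1 y - lin (nCons (f a) 0) (lin (nT f 0) (Finsupp.single Fin.elim0 1)) = 0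
        have hsm : ∀ u : Tup P 1, StrictMono u := fun u => Subsingleton.strictMono (α := Fin 1) u
        have hz : StrictMono (f ∘ (Fin.elim0 : Tup P 0)) := fun i => i.elim0
        rw [lin_single, one_smul, nT, nT, if_pos (hsm _), if_pos hz, lin_single,
          one_smul, nCons, if_pos (hsm _), sub_eq_zero]
        refine congrArg (fun u : Tup P 1 => (Finsupp.single u 1 : Tup P 1 →₀ ℤ)) (funext fun i => ?_)
        rw [Subsingleton.elim (α := Fin 1) i 0, Fin.cons_zero]
        exact he.symm
      | succ m =>
        obtain ⟨b, z, rfl⟩ : ∃ b z, y = Fin.cons b z :=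
          ⟨y 0, Fin.tail y, (Fin.cons_self_tail y).symm⟩
        rw [Fin.cons_zero] at he
        rw [dT_cons, map_sub, map_sub, lin_single, one_smul, nT_cons]
        have h0 : ∀ w : Tup P m →₀ ℤ,
            lin (nCons (f a) (m + 1)) (lin (nCons (f b) m) w) = 0 := fun w => by
          refine hom_ext (f := (lin (nCons (f a) (m + 1))).comp (lin (nCons (f b) m))) (g := 0) ?_ w
          intro s
          show lin (nCons (f a) (m + 1)) (lin (nCons (f b) m) (Finsupp.single s 1)) = 0
          rw [lin_single, one_smul, nCons]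
          split_ifs
          · rw [lin_single, one_smul, nCons, if_neg]
            intro hh
            have := hh (Fin.succ_pos (0 : Fin (m + 1)))
            simp [he] at this
          · exact map_zero _
        rw [h0, sub_zero, sub_eq_zero, nT, nT, Fin.comp_cons, ← he]
        by_cases hz : StrictMono (f ∘ z)
        · rw [if_pos hz, lin_single, one_smul, nCons]
        · rw [if_neg hz, if_neg fun hh => hz (strictMono_of_cons hh), map_zero]
    · have hlt : f a < f (y 0) := lt_of_le_of_ne (f.monotone hay.le) he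
      have hy' : ¬StrictMono (f ∘ y) := fun hfy => h (by
        rw [Fin.comp_cons, Fin.strictMono_iff_lt_succ]
        intro i
        induction i using Fin.cases with
        | zero => simpa using hlt
        | succ i => simpa using hfy i.castSucc_lt_succ)
      rw [nT_dT_zero f n y hy hy', map_zero, sub_zero, nT, if_neg hy']

/-- The image is a chain map. -/
theorem nT_dT (f : P →o P) (n : ℕ) (t : Tup P (n + 1)) (ht : StrictMono t) :
    lin (nT f n) (dT n t) = lin (dT n) (nT f (n + 1) t) := by
  classical
  by_cases h : StrictMono (f ∘ t)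
  · rw [nT, if_pos h, lin_single, one_smul, ← pushT_dT (⇑f) n t]
    have e : ∀ x : Tup P n →₀ ℤ, (∀ s ∈ x.support, StrictMono (f ∘ s)) →
        lin (nT f n) x = pushT (⇑f) n x := fun x hx => by
      simp only [lin, Finsupp.liftAddHom_apply, Finsupp.sum]
      conv_rhs => rw [← x.sum_single, Finsupp.sum, map_sum]
      refine Finset.sum_congr rfl fun s hs => ?_
      rw [zmultiplesHom_apply, nT, if_pos (hx s hs), pushT_single, Finsupp.smul_single]
      simp
    refine e _ fun s hs => ?_
    obtain ⟨i, rfl⟩ := mem_support_dT n t s hs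
    exact h.comp (Fin.strictMono_succAbove i)
  · rw [nT_dT_zero f n t ht h, nT, if_neg h, map_zero]

theorem ok_chains : ∀ {n : ℕ} {t : Tup P n}, StrictMono t → Ok (OCx.chains P) n t
  | 0, _, _ => trivial
  | _ + 1, _, h => h

open Classical in
/-- The image of a generator. -/
def nGen (f : P →o P) (n : ℕ) (c : CGen (OCx.chains P) n) : (ch (OCx.chains P)).X n :=
  if h : StrictMono (f ∘ c.1) then
    @Finsupp.single (CGen (OCx.chains P) n) ℤ _ ⟨f ∘ c.1, ok_chains h⟩ 1
  else (0 : CGen (OCx.chains P) n →₀ ℤ)

theorem nGen_pos (f : P →o P) (n : ℕ) (c : CGen (OCx.chains P) n) (h : StrictMono (f ∘ c.1)) :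
    nGen f n c = @Finsupp.single (CGen (OCx.chains P) n) ℤ _ ⟨f ∘ c.1, ok_chains h⟩ 1 :=
  dif_pos h

theorem nGen_neg (f : P →o P) (n : ℕ) (c : CGen (OCx.chains P) n) (h : ¬StrictMono (f ∘ c.1)) :
    nGen f n c = (0 : CGen (OCx.chains P) n →₀ ℤ) :=
  dif_neg h

theorem embT_nGen (f : P →o P) (n : ℕ) (c : CGen (OCx.chains P) n) :
    embT (OCx.chains P) n (nGen f n c) = nT f n c.1 := by
  by_cases h : StrictMono (f ∘ c.1)
  · exact ((congrArg (embT (OCx.chains P) n) (nGen_pos f n c h)).trans
      (embT_single _ _ _ _)).trans (if_pos h).symm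
  · exact ((congrArg (embT (OCx.chains P) n) (nGen_neg f n c h)).trans (map_zero _)).trans
      (if_neg h).symm

theorem embT_lin_nGen (f : P →o P) (n : ℕ) (x : CGen (OCx.chains P) n →₀ ℤ) :
    embT (OCx.chains P) n (lin (nGen f n) x) = lin (nT f n) (embT (OCx.chains P) n x) := by
  refine hom_ext (f := (embT (OCx.chains P) n).comp (lin (nGen f n)))
    (g := (lin (nT f n)).comp (embT (OCx.chains P) n)) ?_ x
  intro c
  show embT _ n (lin (nGen f n) (Finsupp.single c 1)) = lin (nT f n) (embT _ n (Finsupp.single c 1))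
  rw [lin_single, one_smul, embT_nGen, embT_single]
  exact ((lin_single _ _ _).trans (one_smul _ _)).symm

/-- The normalised chain map of a monotone map. -/
def nMap (f : P →o P) : CxHom (ch (OCx.chains P)) (ch (OCx.chains P)) :=
  Cells.toHom (A := chCells (OCx.chains P)) (nGen f) fun n c => embT_injective _ n (by
    refine (embT_lin_nGen f n _).trans ((congrArg (lin (nT f n)) (embT_chBdy _ n c)).trans ?_)
    refine (nT_dT f n c.1 (ok_strictMono c.2)).trans (Eq.symm ?_)
    exact (embT_d _ n _).trans (congrArg (lin (dT n)) (embT_nGen f (n + 1) c)))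

theorem nMap_gen (f : P →o P) (n : ℕ) (c : CGen (OCx.chains P) n) :
    (nMap f).f n (Finsupp.single c 1) = nGen f n c :=
  Cells.toHom_single (A := chCells (OCx.chains P)) _ _ n c

theorem nGen_zero (f g : P →o P) (c : CGen (OCx.chains P) 0) : nGen f 0 c = nGen g 0 c := by
  have h : ∀ u : Tup P 0, StrictMono u := fun u i => i.elim0
  rw [nGen_pos f 0 c (h _), nGen_pos g 0 c (h _)]
  exact congrArg (fun d => @Finsupp.single (CGen (OCx.chains P) 0) ℤ _ d 1)
    ((cgen_zero_eq _).trans (cgen_zero_eq _).symm)

/-- Two maps agree on homology. -/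
def SameH (f g : P →o P) : Prop :=
  ∀ n (y : (ch (OCx.chains P)).X (n + 1)), (ch (OCx.chains P)).d n y = 0 →
    ∃ w, (ch (OCx.chains P)).d (n + 1) w = (nMap f).f (n + 1) y - (nMap g).f (n + 1) y

theorem strictMono_snoc {k : ℕ} {v : Fin (k + 1) → P} {j : P} (hv : StrictMono v)
    (hj : ∀ i, v i < j) : StrictMono (Fin.snoc v j : Fin (k + 2) → P) := by
  rw [Fin.strictMono_iff_lt_succ]
  intro i
  induction i using Fin.lastCases with
  | last =>
    rw [Fin.succ_last, Fin.snoc_last, Fin.snoc_castSucc]
    exact hj _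
  | cast i =>
    rw [Fin.succ_castSucc, Fin.snoc_castSucc, Fin.snoc_castSucc]
    exact hv i.castSucc_lt_succ

theorem sameH_of_le (f g : P →o P) (hfg : f ≤ g) : SameH f g := by
  classical
  let Q := OCx.chains P
  let D : CxHom (chCells Q).cx (ch Q) :=
    ⟨fun n => (nMap f).f n - (nMap g).f n, fun n x => by
      simp only [AddMonoidHom.sub_apply, map_sub]
      exact congrArg₂ (· - ·) ((nMap f).comm n x) ((nMap g).comm n x)⟩
  let Z : CxHom (chCells Q).cx (ch Q) := ⟨fun _ => 0, fun n _ => (map_zero ((ch Q).d n)).symm⟩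
  have hD0 : ∀ c : CGen Q 0, D.f 0 (Finsupp.single c 1) = 0 := fun c => by
    show (nMap f).f 0 (Finsupp.single c 1) - (nMap g).f 0 (Finsupp.single c 1) = 0
    rw [nMap_gen, nMap_gen, nGen_zero f g, sub_self]
  let U : ∀ n, CGen Q (n + 1) → Set P := fun n c => Set.range (f ∘ c.1) ∪ Set.range (g ∘ c.1)
  have hmem : ∀ (k : P →o P) n (c : CGen Q (n + 1)), (k = f ∨ k = g) →
      nGen k (n + 1) c ∈ inSet Q (U n c) (n + 1) := by
    intro k n c hk
    by_cases h : StrictMono (k ∘ c.1)
    · rw [nGen_pos k (n + 1) c h]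
      intro c' hc' i
      obtain rfl := Finset.mem_singleton.1 (Finsupp.support_single_subset hc')
      rcases hk with rfl | rfl
      · exact Or.inl ⟨i, rfl⟩
      · exact Or.inr ⟨i, rfl⟩
    · rw [nGen_neg k (n + 1) c h]
      exact zero_mem _
  let S : ∀ n, CGen Q n → ∀ k, AddSubgroup ((ch Q).X k) := fun n => match n with
    | 0 => fun _ _ => ⊥
    | n + 1 => fun c k => inSet Q (U n c) k
  let C : Carrier D Z :=
    { S := S
      mem_f := fun n c => by
        cases n with
        | zero => exact hD0 c
        | succ n =>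
          exact (congrArg (· ∈ S (n + 1) c (n + 1)) (congrArg₂ (· - ·) (nMap_gen f (n + 1) c)
            (nMap_gen g (n + 1) c))).mpr (sub_mem (hmem f n c (Or.inl rfl)) (hmem g n c (Or.inr rfl)))
      mem_g := fun n c => zero_mem _
      face := fun n c c' hc' k x hx => by
        cases n with
        | zero =>
          obtain rfl : x = 0 := hx
          exact zero_mem _
        | succ n =>
          intro c'' hc'' i
          refine Set.union_subset_union ?_ ?_ (hx c'' hc'' i) <;>
          · have hs : c'.1 ∈ (embT Q (n + 1) ((chCells Q).bdy (n + 1) c)).support :=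
              mem_support_embT (Q := Q) _ hc'
            rw [show embT Q (n + 1) ((chCells Q).bdy (n + 1) c) = dT (n + 1) c.1 from
              embT_chBdy Q (n + 1) c] at hs
            obtain ⟨i, hi⟩ := mem_support_dT (n + 1) c.1 _ hs
            rintro u ⟨a, rfl⟩
            exact ⟨i.succAbove a, (congrArg _ (congrFun hi a)).symm⟩
      fill := fun n c x hx hc => by
        cases n with
        | zero =>
          obtain rfl : x = 0 := hx
          exact ⟨0, zero_mem _, map_zero _⟩
        | succ n =>
          let j : P := g (c.1 (Fin.last n))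
          have hm : Monotone c.1 := (ok_strictMono c.2).monotone
          have hle : ∀ u ∈ U n c, u ≤ j := by
            rintro u (⟨i, rfl⟩ | ⟨i, rfl⟩)
            · exact (hfg _).trans (g.monotone (hm (Fin.le_last i)))
            · exact g.monotone (hm (Fin.le_last i))
          refine exact_inSet Q (U n c) j ⟨⟨fun _ => j, Subsingleton.strictMono (α := Fin 1) _⟩, rfl⟩
            (Or.inr ⟨Fin.last n, rfl⟩) (fun {k} v hv => ?_) (n + 1) x hx hc
          by_cases hjv : j ∈ Set.range v.1
          · exact ⟨k, v, (Set.insert_eq_of_mem hjv).symm⟩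
          · exact ⟨k + 1, ⟨Fin.snoc v.1 j, strictMono_snoc (v.2 : StrictMono v.1) fun i =>
              lt_of_le_of_ne (hle _ (hv ⟨i, rfl⟩)) fun h => hjv ⟨i, h⟩⟩, Fin.range_snoc v.1 j⟩ }
  intro n y hy
  obtain ⟨w, hw⟩ := C.sub_mem_range (fun c => hD0 c) n y hy
  exact ⟨w, hw.trans (sub_zero _)⟩

theorem sameH_of_eqv {f g : P →o P} (h : Relation.EqvGen (fun f g : P →o P => f ≤ g) f g) :
    SameH f g := by
  induction h with
  | rel a b hab => exact sameH_of_le a b hab
  | refl a => exact fun n y _ => ⟨0, by rw [map_zero, sub_self]⟩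
  | symm a b _ ih =>
    intro n y hy
    obtain ⟨w, hw⟩ := ih n y hy
    exact ⟨-w, by rw [map_neg, hw, neg_sub]⟩
  | trans a b c _ _ ih ih' =>
    intro n y hy
    obtain ⟨w, hw⟩ := ih n y hy
    obtain ⟨w', hw'⟩ := ih' n y hy
    exact ⟨w + w', by rw [map_add, hw, hw', sub_add_sub_cancel]⟩

set_option linter.unusedVariables false in
/-- **Zigzag contractible posets have exact chains.** -/
theorem zig_exact (P : Type) [PartialOrder P] [Finite P] (h : OCx.IsZig P) :
    ∀ n, (ch (OCx.chains P)).Exact n := by
  classical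
  obtain ⟨p, hp⟩ := h
  let v₀ : (OCx.chains P).Simp 0 := ⟨fun _ => p, Subsingleton.strictMono (α := Fin 1) _⟩
  intro n
  cases n with
  | zero =>
    intro x _
    refine ⟨lin (fun _ => chGen v₀) x, ?_⟩
    refine hom_ext (f := ((ch (OCx.chains P)).d 0).comp (lin fun _ => chGen v₀))
      (g := AddMonoidHom.id _) ?_ x
    intro c
    show (ch (OCx.chains P)).d 0 (lin (fun _ => chGen v₀) (Finsupp.single c 1)) =
      Finsupp.single c 1
    rw [lin_single, one_smul, d_chGen_zero]
    exact congrArg (fun c => @Finsupp.single (CGen (OCx.chains P) 0) ℤ _ c 1) (cgen_zero_eq c).symm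
  | succ n =>
    intro x hx
    obtain ⟨w, hw⟩ := sameH_of_eqv hp n x hx
    refine ⟨w, hw.trans ?_⟩
    have hid : (nMap (OrderHom.id : P →o P)).f (n + 1) x = x :=
      hom_ext (f := (nMap (OrderHom.id : P →o P)).f (n + 1)) (g := AddMonoidHom.id _)
        (fun c => (nMap_gen _ _ c).trans (dif_pos (ok_strictMono c.2))) x
    have hconst : (nMap (OrderHom.const P p)).f (n + 1) x = 0 := by
      cases n with
      | zero =>
        have e : (nMap (OrderHom.const P p)).f 1 x =
            lin (fun _ => chGen v₀) ((ch (OCx.chains P)).d 0 x) :=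
          hom_ext (f := (nMap (OrderHom.const P p)).f 1)
            (g := (lin fun _ => chGen v₀).comp ((ch (OCx.chains P)).d 0)) (fun c => by
              refine (nMap_gen _ _ c).trans ?_
              show _ = lin (fun _ => chGen v₀)
                ((ch (OCx.chains P)).d 0 (chGen (⟨c.1, c.2⟩ : (OCx.chains P).Simp 0)))
              rw [d_chGen_zero]
              refine Eq.trans ?_ ((lin_single (fun _ : CGen (OCx.chains P) 0 => chGen v₀) _ 1).trans
                (one_smul _ _)).symm
              exact dif_pos (Subsingleton.strictMono (α := Fin 1) _)) x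
        rw [e, show (ch (OCx.chains P)).d 0 x = 0 from hx, map_zero]
      | succ m =>
        exact hom_ext (f := (nMap (OrderHom.const P p)).f (m + 2)) (g := 0) (fun c =>
          (nMap_gen _ _ c).trans (dif_neg fun hs =>
            lt_irrefl p (hs (Fin.succ_pos (0 : Fin (m + 1)))))) x
    rw [hid, hconst, sub_zero]

end

end Vale.Agent.P259.Free
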