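import Vale.Agent.P259.Free.OneConn
import Vale.Agent.P259.Free.ZigExact
import Vale.Agent.P259.Glob.CtrOfAcyclic

/-!
# P259, module D: free models on cones and on zigzag contractible posets are contractible
-/

namespace Vale.Agent.P259.Free

open CategoryTheory

noncomputable section

theorem dimLE_card (Q : OCx) (hQ : Finite Q.V) : DimLE Q (Nat.card Q.V) := fun k v => by
  have h := Nat.card_le_card_of_injective v.1 (Q.strictMono v.2).injective
  rw [Nat.card_eq_fintype_card, Fintype.card_fin] at h
  omega

/-- Acyclic and one connected free models are contractible. -/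
theorem ctr_of_gauge {C : Coherator} {N : ℕ} (A : Semi C.C N) {Q : OCx} (hQ : DimLE Q N)
    (R : A.SRep Q) (hex : ∀ n, (ch Q).Exact n) (v₀ : Q.Simp 0)
    (U : ∀ a, pobj C.C_contractible (vtx A R v₀) ⟶ pobj C.C_contractible (vtx A R a))
    (hU : ∀ a b h, U b ≫ edgeArr A R hQ a b h = U a) : C.C.Ctr R.G.obj :=
  ctrOfAcyclic C.C C.C_contractible R.G (oneConn_of_gauge A R hQ v₀ U hU)
    (rep_acyclic C A hQ R hex)

/-- **Free models on finite cones are contractible**, with faces only and up to a dimension. -/
theorem semiCtrCone : SemiCtrCone := by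
  intro C N A Q j _ hd hj hcone R
  obtain ⟨v₀, hv₀⟩ := hj
  subst hv₀
  obtain ⟨U, hU⟩ := exists_gauge_cone (edgeArrows A R hd) v₀ hcone
  exact ctr_of_gauge A hd R (cone_exact Q _ ⟨v₀, rfl⟩ hcone) v₀ U hU

/-- **Free models on finite cones are contractible.** -/
theorem repCtrCone : Spec.RepCtrCone := by
  intro C S Q j hfin hj hcone R
  exact semiCtrCone C (Nat.card Q.V) (semiOf S _) Q j hfin (dimLE_card Q hfin) hj hcone (repOf R)

/-- **Free models on zigzag contractible finite posets are contractible.** -/
theorem repCtrZig : Spec.RepCtrZig := by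
  intro C S P _ hfin hzig R
  obtain ⟨p, U, hU⟩ := exists_gauge_zig
    (edgeArrows (semiOf S (Nat.card (OCx.chains P).V)) (repOf R) (dimLE_card (OCx.chains P) hfin))
    hzig
  exact ctr_of_gauge (semiOf S (Nat.card (OCx.chains P).V)) (dimLE_card (OCx.chains P) hfin)
    (repOf R) (zig_exact P hzig) (pv p) U hU

end

end Vale.Agent.P259.Free
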