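import Vale.Agent.P259.Free.OCxChains
import Vale.Agent.P259.Free.Carrier

/-!
# P259, module D: cones have exact chains
-/

namespace Vale.Agent.P259.Free

open Vale.Agent.P259.Cat

noncomputable section

variable {Q : OCx}

/-- The chains supported in a set of vertices. -/
def inSet (Q : OCx) (U : Set Q.V) (n : ℕ) : AddSubgroup ((ch Q).X n) where
  carrier := {x | ∀ c ∈ x.support, ∀ i, c.1 i ∈ U}
  zero_mem' := by
    intro c hc
    simp at hc
  add_mem' {x y} hx hy c hc := by
    classical
    rcases Finset.mem_union.1 (Finsupp.support_add hc) with h | h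
    exacts [hx c h, hy c h]
  neg_mem' {x} hx c hc := by
    rw [Finsupp.support_neg] at hc
    exact hx c hc

theorem within_of_mem {U : Set Q.V} {n : ℕ} {x : (ch Q).X n} (hx : x ∈ inSet Q U n) :
    ∀ s ∈ (embT Q n x).support, Ok Q n s ∧ ∀ i, s i ∈ U := by
  classical
  intro s hs
  obtain ⟨c, hc, rfl⟩ := Finset.mem_image.1 (Finsupp.mapDomain_support hs)
  exact ⟨c.2, hx c hc⟩

theorem mem_support_embT {n : ℕ} (x : CGen Q n →₀ ℤ) {c : CGen Q n} (hc : c ∈ x.support) :
    c.1 ∈ (embT Q n x).support := by
  rw [Finsupp.mem_support_iff] at hc ⊢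
  show Finsupp.mapDomain Subtype.val x c.1 ≠ 0
  rwa [Finsupp.mapDomain_apply Subtype.val_injective]

theorem mem_of_within {U : Set Q.V} {n : ℕ} {x : (ch Q).X n}
    (hx : ∀ s ∈ (embT Q n x).support, ∀ i, s i ∈ U) : x ∈ inSet Q U n := by
  intro c hc
  exact hx c.1 (mem_support_embT (Q := Q) x hc)

theorem ok_strictMono : ∀ {n : ℕ} {t : Tup Q.V n}, Ok Q n t → StrictMono t
  | 0, _, _ => fun a => a.elim0
  | _ + 1, _, h => Q.strictMono h

theorem ok_of_range {l n : ℕ} (w : Q.Simp l) (t : Tup Q.V (n + 1)) (ht : StrictMono t)
    (h : ∀ i, t i ∈ Set.range w.1) : Q.mem t := by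
  have hw := Q.strictMono w.2
  choose δ hδ using h
  have hmono : StrictMono δ := fun a b hab => by
    rcases lt_trichotomy (δ a) (δ b) with h | h | h
    · exact h
    · exact absurd (congrArg w.1 h) (by rw [hδ, hδ]; exact (ht hab).ne)
    · exact absurd (hw h) (by rw [hδ, hδ]; exact (ht hab).asymm)
  have hf := Q.face ⟨δ, hmono.monotone⟩ w.2 hmono.injective
  rwa [show w.1 ∘ (⟨δ, hmono.monotone⟩ : Op n l) = t from funext hδ] at hf

/-- Inside a simplex, cycles bound. -/
theorem exact_within {l : ℕ} (w : Q.Simp l) (n : ℕ) (x : (ch Q).X n)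
    (hx : x ∈ inSet Q (Set.range w.1) n) (hc : x ∈ (ch Q).cyc n) :
    ∃ y ∈ inSet Q (Set.range w.1) (n + 1), (ch Q).d n y = x := by
  classical
  let m := w.1 0
  have hmem := within_of_mem hx
  let z := lin (coneT m n) (embT Q n x)
  have hsupp : ∀ s ∈ z.support, Ok Q (n + 1) s ∧ ∀ i, s i ∈ Set.range w.1 := by
    intro s hs
    simp only [z, lin, Finsupp.liftAddHom_apply, Finsupp.sum] at hs
    obtain ⟨t, ht, hst⟩ := Finset.mem_biUnion.1 (Finsupp.support_finsetSum hs)
    rw [zmultiplesHom_apply] at hst
    have hst' := Finsupp.support_smul hst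
    obtain ⟨hok, hin⟩ := hmem t ht
    have hs2 : s = Fin.cons m t ∧ ∀ i, m < t i := by
      cases n with
      | zero =>
          exact ⟨Finset.mem_singleton.1 (Finsupp.support_single_subset hst'), fun i => i.elim0⟩
      | succ k =>
          by_cases h0 : t 0 = m
          · rw [coneT, if_pos h0] at hst'
            simp at hst'
          · rw [coneT, if_neg h0] at hst'
            refine ⟨Finset.mem_singleton.1 (Finsupp.support_single_subset hst'), fun i => ?_⟩
            obtain ⟨a, ha⟩ := hin 0
            have h1 : m < t 0 := lt_of_le_of_ne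
              (ha ▸ (Q.strictMono w.2).monotone (Fin.zero_le a)) (Ne.symm h0)
            exact lt_of_lt_of_le h1 ((ok_strictMono hok).monotone (Fin.zero_le i))
    obtain ⟨rfl, hlt⟩ := hs2
    have hr : ∀ i, Fin.cons (α := fun _ => Q.V) m t i ∈ Set.range w.1 := fun i => by
      induction i using Fin.cases with
      | zero => exact ⟨0, by simp [m]⟩
      | succ i => simpa using hin i
    refine ⟨ok_of_range w _ (Fin.strictMono_iff_lt_succ.2 fun i => ?_) hr, hr⟩
    cases n with
    | zero => exact i.elim0
    | succ k =>
        induction i using Fin.cases with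
        | zero => simpa using hlt 0
        | succ i => simpa using ok_strictMono hok i.castSucc_lt_succ
  obtain ⟨y, hy⟩ : ∃ y : (ch Q).X (n + 1), embT Q (n + 1) y = z :=
    exists_embT (Q := Q) z fun s hs => (hsupp s hs).1
  refine ⟨y, mem_of_within fun s hs => (hsupp s (hy ▸ hs)).2, embT_injective Q n ?_⟩
  rw [embT_d, hy]
  cases n with
  | zero =>
      refine hom_ext (f := (lin (dT 0)).comp (lin (coneT m 0))) (g := AddMonoidHom.id _) ?_ _
      intro t
      simpa [lin_single] using d_coneT_zero m t
  | succ k =>
      have hdx : lin (dT k) (embT Q (k + 1) x) = 0 := by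
        rw [← embT_d, show (ch Q).d k x = 0 from hc]
        exact map_zero (embT Q k)
      have key : ∀ u : Tup Q.V (k + 1) →₀ ℤ, (∀ t ∈ u.support, ∀ i, i ≠ 0 → t i ≠ m) →
          lin (dT (k + 1)) (lin (coneT m (k + 1)) u) + lin (coneT m k) (lin (dT k) u) = u := by
        intro u hu
        induction u using Finsupp.induction with
        | zero => simp
        | single_add t a u ht ha ih =>
            have hsp : ∀ t' ∈ u.support, t' ∈ (Finsupp.single t a + u).support := fun t' ht' => by
              rw [Finsupp.mem_support_iff] at ht' ⊢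
              have hne : t' ≠ t := fun h => by
                subst h
                exact ht (Finsupp.mem_support_iff.2 ht')
              simpa [hne] using ht'
            have h1 : lin (dT (k + 1)) (lin (coneT m (k + 1)) (Finsupp.single t a)) +
                lin (coneT m k) (lin (dT k) (Finsupp.single t a)) = Finsupp.single t a := by
              rw [lin_single, lin_single, map_zsmul, map_zsmul, ← smul_add, d_coneT m k t (hu t (by
                rw [Finsupp.mem_support_iff]
                simpa [Finsupp.notMem_support_iff.1 ht] using ha)), Finsupp.smul_single]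
              simp
            have h2 := ih fun t' ht' => hu t' (hsp t' ht')
            simp only [map_add]
            rw [add_add_add_comm, h1, h2]
      have h := key (embT Q (k + 1) x) fun t ht i hi heq => by
        obtain ⟨hok, hin⟩ := hmem t ht
        obtain ⟨a, ha⟩ := hin 0
        have h1 : m ≤ t 0 := ha ▸ (Q.strictMono w.2).monotone (Fin.zero_le a)
        exact absurd (heq ▸ ok_strictMono hok (Fin.pos_of_ne_zero hi)) h1.not_gt
      rwa [hdx, map_zero, add_zero] at h

/-- **Cones have exact chains.** -/
theorem cone_exact (Q : OCx) (j : Q.V) (hj : ∃ v : Q.Simp 0, v.1 0 = j) (hQ : Q.IsCone j) :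
    ∀ n, (ch Q).Exact n := by
  classical
  obtain ⟨v₀, hv₀⟩ := hj
  intro n
  cases n with
  | zero =>
      intro x _
      refine ⟨lin (fun _ => chGen v₀) x, ?_⟩
      refine hom_ext (f := ((ch Q).d 0).comp (lin fun _ => chGen v₀)) (g := AddMonoidHom.id _) ?_ x
      intro c
      show (ch Q).d 0 (lin (fun _ => chGen v₀) (Finsupp.single c 1)) = Finsupp.single c 1
      rw [lin_single, one_smul, d_chGen_zero]
      exact congrArg (fun c => @Finsupp.single (CGen Q 0) ℤ _ c 1) (cgen_zero_eq c).symm
  | succ n =>
      let r : CxHom (chCells Q).cx (ch Q) := Cells.toHom (A := chCells Q)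
        (fun n => match n with
          | 0 => fun c => @Finsupp.single (CGen Q 0) ℤ _ c 1
          | 1 => fun _ => chGen v₀
          | _ + 2 => fun _ => 0)
        (fun n c => by
          match n with
          | 0 =>
              refine Eq.trans ?_ (d_chGen_zero v₀).symm
              refine Eq.trans ?_ (d_chGen_zero (⟨c.1, c.2⟩ : Q.Simp 0))
              refine Eq.trans (hom_ext (f := lin fun c => @Finsupp.single (CGen Q 0) ℤ _ c 1)
                (g := AddMonoidHom.id _) (fun c => by simp [lin_single]) (chBdy Q 0 c)) ?_
              exact ((lin_single (chBdy Q 0) c 1).trans (one_smul _ _)).symm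
          | 1 =>
              refine Eq.trans ?_ (map_zero _).symm
              have h := congrArg (embT Q 0) ((ch Q).dd 0 (Finsupp.single c 1))
              show lin (fun _ => chGen v₀) ((chCells Q).bdy 1 c) = 0
              have h2 : ∀ y : (ch Q).X 1, (ch Q).d 0 y = 0 → lin (fun _ => chGen v₀) y = 0 := by
                intro y hy
                have e : lin (fun _ => chGen v₀) y = lin (fun _ => chGen v₀) ((ch Q).d 0 y) := by
                  refine hom_ext (f := lin fun _ => chGen v₀)
                    (g := (lin fun _ => chGen v₀).comp ((ch Q).d 0)) ?_ y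
                  intro c'
                  show lin (fun _ => chGen v₀) (Finsupp.single c' 1) =
                    lin (fun _ => chGen v₀) ((ch Q).d 0 (chGen (⟨c'.1, c'.2⟩ : Q.Simp 0)))
                  rw [d_chGen_zero]
                  exact ((lin_single (fun _ : CGen Q 1 => chGen v₀) c' 1).trans (one_smul _ _)).trans
                    ((lin_single (fun _ : CGen Q 0 => chGen v₀) _ 1).trans (one_smul _ _)).symm
                rw [e, hy, map_zero]
              refine h2 _ ?_
              have h3 := (ch Q).dd 0 (Finsupp.single c 1)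
              simpa [lin_single] using h3
          | m + 2 =>
              refine Eq.trans ?_ (map_zero _).symm
              exact hom_ext (f := lin fun _ : CGen Q (m + 2) => (0 : (ch Q).X (m + 2))) (g := 0)
                (fun c => by simp [lin_single]) _)
      let U : ∀ n, CGen Q n → Set Q.V := fun n c => insert j (Set.range c.1)
      have hw : ∀ n (c : CGen Q n), ∃ l, ∃ w : Q.Simp l, Set.range w.1 = U n c := by
        intro n c
        cases n with
        | zero =>
            refine ⟨0, v₀, ?_⟩
            show Set.range v₀.1 = insert j (Set.range c.1)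
            rw [Set.range_eq_empty c.1, show Set.range v₀.1 = {v₀.1 0} from
              Set.ext fun a => ⟨fun ⟨i, hi⟩ => by rw [← hi, Subsingleton.elim (α := Fin 1) i 0]; rfl,
                fun h => ⟨0, h.symm⟩⟩, hv₀]
            simp
        | succ k => exact hQ c
      let C : Carrier (CxHom.id (chCells Q).cx) r :=
        { S := fun n c k => inSet Q (U n c) k
          mem_f := fun n c => by
            intro c' hc' i
            obtain rfl := Finset.mem_singleton.1 (Finsupp.support_single_subset hc')
            exact Set.mem_insert_of_mem _ ⟨i, rfl⟩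
          mem_g := fun n c => by
            show r.f n (Finsupp.single c 1) ∈ _
            rw [Cells.toHom_single]
            match n with
            | 0 =>
                intro c' hc' i
                exact i.elim0
            | 1 =>
                intro c' hc' i
                obtain rfl := Finset.mem_singleton.1 (Finsupp.support_single_subset hc')
                rw [Subsingleton.elim (α := Fin 1) i 0]
                exact Set.mem_insert_iff.2 (Or.inl hv₀)
            | m + 2 => exact zero_mem _
          face := fun n c c' hc' k x hx c'' hc'' i => by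
            refine Set.insert_subset_insert ?_ (hx c'' hc'' i)
            have hs : c'.1 ∈ (embT Q n ((chCells Q).bdy n c)).support := by
              exact mem_support_embT (Q := Q) _ hc'
            rw [show embT Q n ((chCells Q).bdy n c) = dT n c.1 from embT_chBdy Q n c] at hs
            obtain ⟨i, hi⟩ := mem_support_dT n c.1 _ hs
            rw [hi]
            exact Set.range_comp_subset_range _ _
          fill := fun n c x hx hc => by
            obtain ⟨l, w, hw⟩ := hw n c
            simp only [← hw] at hx ⊢
            exact exact_within w n x hx hc }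
      intro x hx
      obtain ⟨y, hy⟩ := C.sub_mem_range (fun c => by
        show Finsupp.single c 1 = r.f 0 (Finsupp.single c 1)
        refine Eq.trans ?_ (Cells.toHom_single (A := chCells Q) (L := ch Q) _ _ 0 c).symm
        rfl) n x hx
      cases n with
      | succ m =>
          refine ⟨y, hy.trans ?_⟩
          show x - r.f (m + 2) x = x
          rw [show r.f (m + 2) x = 0 from hom_ext (f := r.f (m + 2)) (g := 0) (fun c => by
            rw [Cells.toHom_single]; rfl) x, sub_zero]
      | zero =>
          refine ⟨y, hy.trans ?_⟩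
          show x - r.f 1 x = x
          have hr : r.f 1 x = lin (fun _ => chGen v₀) ((ch Q).d 0 x) :=
            hom_ext (f := r.f 1) (g := (lin fun _ => chGen v₀).comp ((ch Q).d 0)) (fun c => by
              rw [Cells.toHom_single]
              show chGen v₀ = lin (fun _ => chGen v₀) ((ch Q).d 0 (chGen (⟨c.1, c.2⟩ : Q.Simp 0)))
              rw [d_chGen_zero]
              exact ((lin_single (fun _ : CGen Q 0 => chGen v₀) _ 1).trans (one_smul _ _)).symm) x
          rw [hr, show (ch Q).d 0 x = 0 from hx, map_zero, sub_zero]

/-- Cycles in a coned set of vertices bound there. -/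
theorem exact_inSet (Q : OCx) (U : Set Q.V) (j : Q.V) (hj : ∃ v : Q.Simp 0, v.1 0 = j) (hjU : j ∈ U)
    (hcone : ∀ {k : ℕ} (v : Q.Simp k), Set.range v.1 ⊆ U →
      ∃ (l : ℕ) (w : Q.Simp l), Set.range w.1 = insert j (Set.range v.1))
    (n : ℕ) (x : (ch Q).X n) (hx : x ∈ inSet Q U n) (hc : x ∈ (ch Q).cyc n) :
    ∃ y ∈ inSet Q U (n + 1), (ch Q).d n y = x := by
  classical
  let Q' := Q.sub (fun s => s ⊆ U) fun s t hts hs => hts.trans hs
  have hid : IsSimpMap Q' Q id := fun v => v.2.1
  obtain ⟨v₀, hv₀⟩ := hj
  have hex := cone_exact Q' j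
    ⟨⟨v₀.1, v₀.2, fun a ⟨i, hi⟩ => by
      rw [← hi, Subsingleton.elim (α := Fin 1) i 0]; exact hv₀ ▸ hjU⟩, hv₀⟩
    (fun {k} v => by
      obtain ⟨l, w, hw⟩ := hcone ⟨v.1, v.2.1⟩ v.2.2
      exact ⟨l, ⟨w.1, w.2, hw ▸ Set.insert_subset hjU v.2.2⟩, hw⟩)
  have hmem := within_of_mem hx
  obtain ⟨x', hx'⟩ : ∃ x' : (ch Q').X n, embT Q' n x' = embT Q n x := exists_embT (Q := Q') (embT Q n x) fun s hs => by
    cases n with
    | zero => trivial
    | succ k => exact ⟨(hmem s hs).1, fun a ⟨i, hi⟩ => hi ▸ (hmem s hs).2 i⟩
  have himg : (chMap hid).f n x' = x := embT_injective Q n (by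
    refine (chMap_emb hid n x').trans ?_
    rw [hx']
    exact Finsupp.mapDomain_id)
  have hcyc : x' ∈ (ch Q').cyc n := by
    cases n with
    | zero => trivial
    | succ k =>
        refine embT_injective Q' k ?_
        refine ((embT_d Q' k x').trans (congrArg (lin (dT k)) hx')).trans ?_
        refine ((embT_d Q k x).symm.trans (congrArg (embT Q k) hc)).trans ?_
        exact (map_zero (embT Q k)).trans (map_zero (embT Q' k)).symm
  obtain ⟨y', hy'⟩ := hex n x' hcyc
  refine ⟨(chMap hid).f (n + 1) y', mem_of_within fun s hs i => ?_, ?_⟩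
  · rw [show embT Q (n + 1) ((chMap hid).f (n + 1) y') = pushT id (n + 1) (embT Q' (n + 1) y')
      from chMap_emb hid (n + 1) y'] at hs
    obtain ⟨t, ht, rfl⟩ := Finset.mem_image.1 (Finsupp.mapDomain_support hs)
    obtain ⟨c, -, rfl⟩ := Finset.mem_image.1 (Finsupp.mapDomain_support ht)
    exact c.2.2 ⟨i, rfl⟩
  · rw [← (chMap hid).comm, hy', himg]

end

end Vale.Agent.P259.Free
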