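import Vale.Agent.P259.Free.Iota

/-!
# P259, module D: maps out of the cylinders of cells over maps of chains
-/

namespace Vale.Agent.P259.Free

open CategoryTheory Opposite
open Vale.Agent.P259.Cat

noncomputable section

variable {E : Ext}

/-- The cylinder of the comparison of cells with chains. -/
abbrev tcyl (E : Ext) (T : Table) : Cx.{0} := cyl (iota E T)

/-- The cylinder copy of a cell. -/
def cA (E : Ext) {T : Table} {k : ℕ} (c : TCell T k) : (tcyl E T).X (k + 1) :=
  (cylA (iota E T)).f (k + 1) (abCell c)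

/-- The prism over a cell. -/
def cH (E : Ext) {T : Table} {k : ℕ} (c : TCell T k) : (tcyl E T).X (k + 1 + 1) :=
  cylH (iota E T) (k + 1) (abCell c)

/-- The prism over the augmentation. -/
def cE (E : Ext) (T : Table) : (tcyl E T).X 1 := cylH (iota E T) 0 (abE T)

theorem d_cE (T : Table) : (tcyl E T).d 0 (cE E T) =
    (cylA (iota E T)).f 0 (abE T) - (cylK (iota E T)).f 0 (repE E T) := by
  rw [cE, d_cylH_zero, iota_e]

theorem d_cH_zero {T : Table} (c : TCell T 0) : (tcyl E T).d 1 (cH E c) =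
    cA E c - (cylK (iota E T)).f 1 (iotaCell E T 0 c) - cE E T := by
  rw [cH, d_cylH, iota_cell, d_abCell_zero]
  rfl

theorem d_cH {T : Table} {k : ℕ} (c : TCell T (k + 1)) : (tcyl E T).d (k + 1 + 1) (cH E c) =
    cA E c - (cylK (iota E T)).f (k + 1 + 1) (iotaCell E T (k + 1) c) -
      (cH E (TCell.face true c) - cH E (TCell.face false c)) := by
  rw [cH, d_cylH, iota_cell, d_abCell, map_sub]
  rfl

theorem d_cA_zero {T : Table} (c : TCell T 0) :
    (tcyl E T).d 0 (cA E c) = (cylA (iota E T)).f 0 (abE T) := by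
  rw [cA, ← CxHom.comm, d_abCell_zero]

theorem d_cA {T : Table} {k : ℕ} (c : TCell T (k + 1)) :
    (tcyl E T).d (k + 1) (cA E c) = cA E (TCell.face true c) - cA E (TCell.face false c) := by
  rw [cA, ← CxHom.comm, d_abCell, map_sub]
  rfl

/-- Maps out of the cylinder are determined on cells. -/
theorem tcyl_ext {T : Table} {L : Cx.{0}} {γ γ' : CxHom (tcyl E T) L}
    (hK : γ.comp (cylK (iota E T)) = γ'.comp (cylK (iota E T)))
    (he : γ.f 1 (cE E T) = γ'.f 1 (cE E T))
    (hA : ∀ k (c : TCell T k), γ.f (k + 1) (cA E c) = γ'.f (k + 1) (cA E c))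
    (hH : ∀ k (c : TCell T k), γ.f (k + 1 + 1) (cH E c) = γ'.f (k + 1 + 1) (cH E c)) : γ = γ' := by
  have hK' : ∀ n x, γ.f n ((cylK (iota E T)).f n x) = γ'.f n ((cylK (iota E T)).f n x) :=
    fun n x => congrArg (fun F => F.f n x) hK
  have hA' : γ.comp (cylA (iota E T)) = γ'.comp (cylA (iota E T)) := by
    refine ab_ext ?_ hA
    show γ.f 0 ((cylA _).f 0 _) = γ'.f 0 ((cylA _).f 0 _)
    have h := congrArg (L.d 0) he
    rw [← γ.comm, ← γ'.comm, d_cE, map_sub, map_sub, hK'] at h
    exact sub_left_inj.1 h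
  refine cyl_hom_ext hK' (fun n x => congrArg (fun F => F.f n x) hA') fun n x => ?_
  refine hom_ext (f := (γ.f (n + 1)).comp (cylH (iota E T) n))
    (g := (γ'.f (n + 1)).comp (cylH (iota E T) n)) ?_ x
  intro c
  cases n with
  | zero => exact he
  | succ k => exact hH k c

/-- Values on cells extending a map of chains to the cylinder. -/
structure CylVals (E : Ext) (T : Table) (L : Cx.{0}) (φ : CxHom (repCx E T) L) (h₀ : L.X 1) :
    Type where
  vA : ∀ k, TCell T k → L.X (k + 1)
  vH : ∀ k, TCell T k → L.X (k + 1 + 1)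
  a_zero : ∀ c, L.d 0 (vA 0 c) = φ.f 0 (repE E T) + L.d 0 h₀
  a_succ : ∀ k c, L.d (k + 1) (vA (k + 1) c) = vA k (TCell.face true c) - vA k (TCell.face false c)
  h_zero : ∀ c, L.d 1 (vH 0 c) = vA 0 c - φ.f 1 (iotaCell E T 0 c) - h₀
  h_succ : ∀ k c, L.d (k + 1 + 1) (vH (k + 1) c) = vA (k + 1) c -
    φ.f (k + 1 + 1) (iotaCell E T (k + 1) c) -
      (vH k (TCell.face true c) - vH k (TCell.face false c))

namespace CylVals

variable {T : Table} {L : Cx.{0}} {φ : CxHom (repCx E T) L} {h₀ : L.X 1}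
  (V : CylVals E T L φ h₀)

/-- The values on the cells as a chain map. -/
def aHom : CxHom (Ab T) L := abHom (φ.f 0 (repE E T) + L.d 0 h₀) V.vA V.a_zero V.a_succ

/-- The prism values, linearly. -/
def hFun : ∀ n, (Ab T).X n →+ L.X (n + 1)
  | 0 => lin fun _ => h₀
  | k + 1 => lin (V.vH k)

theorem hFun_zero : V.hFun 0 (abE T) = h₀ := (lin_single _ _ _).trans (one_smul _ _)

theorem hFun_succ {k : ℕ} (c : TCell T k) : V.hFun (k + 1) (abCell c) = V.vH k c :=
  (lin_single _ _ _).trans (one_smul _ _)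

theorem hH0 (a : (Ab T).X 0) :
    L.d 0 (V.hFun 0 a) = V.aHom.f 0 a - φ.f 0 ((iota E T).f 0 a) := by
  refine hom_ext (f := (L.d 0).comp (V.hFun 0)) (g := V.aHom.f 0 - (φ.f 0).comp ((iota E T).f 0))
    ?_ a
  intro c
  show L.d 0 (V.hFun 0 (abE T)) = V.aHom.f 0 (abE T) - φ.f 0 ((iota E T).f 0 (abE T))
  rw [hFun_zero, iota_e, aHom, abHom_e]
  abel

theorem hH (n : ℕ) (a : (Ab T).X (n + 1)) : L.d (n + 1) (V.hFun (n + 1) a) =
    V.aHom.f (n + 1) a - φ.f (n + 1) ((iota E T).f (n + 1) a) - V.hFun n ((Ab T).d n a) := by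
  refine hom_ext (f := (L.d (n + 1)).comp (V.hFun (n + 1)))
    (g := V.aHom.f (n + 1) - (φ.f (n + 1)).comp ((iota E T).f (n + 1)) -
      (V.hFun n).comp ((Ab T).d n)) ?_ a
  intro (c : TCell T n)
  show L.d (n + 1) (V.hFun (n + 1) (abCell c)) = V.aHom.f (n + 1) (abCell c) -
    φ.f (n + 1) ((iota E T).f (n + 1) (abCell c)) - V.hFun n ((Ab T).d n (abCell c))
  rw [hFun_succ, iota_cell, aHom, abHom_cell]
  cases n with
  | zero => rw [d_abCell_zero, hFun_zero, V.h_zero]
  | succ k => rw [d_abCell, map_sub, hFun_succ, hFun_succ, V.h_succ]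

/-- The map out of the cylinder. -/
def toHom : CxHom (tcyl E T) L := cylDesc (iota E T) φ V.aHom V.hFun V.hH0 V.hH

theorem toHom_K : V.toHom.comp (cylK (iota E T)) = φ :=
  cxHom_ext fun _ _ => cylDesc_K φ V.aHom V.hFun V.hH0 V.hH _ _

theorem toHom_E : V.toHom.f 1 (cE E T) = h₀ :=
  (cylDesc_H φ V.aHom V.hFun V.hH0 V.hH _ _).trans V.hFun_zero

theorem toHom_A {k : ℕ} (c : TCell T k) : V.toHom.f (k + 1) (cA E c) = V.vA k c :=
  (cylDesc_A φ V.aHom V.hFun V.hH0 V.hH _ _).trans (abHom_cell _ _ _ _ _ _)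

theorem toHom_H {k : ℕ} (c : TCell T k) : V.toHom.f (k + 1 + 1) (cH E c) = V.vH k c :=
  (cylDesc_H φ V.aHom V.hFun V.hH0 V.hH _ _).trans (V.hFun_succ c)

end CylVals

/-- A map out of a cylinder over a map of chains, with the given value on the augmentation. -/
def IsOver {T : Table} {L : Cx.{0}} (φ : CxHom (repCx E T) L) (h₀ : L.X 1)
    (γ : CxHom (tcyl E T) L) : Prop :=
  γ.comp (cylK (iota E T)) = φ ∧ γ.f 1 (cE E T) = h₀

theorem CylVals.isOver {T : Table} {L : Cx.{0}} {φ : CxHom (repCx E T) L} {h₀ : L.X 1}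
    (V : CylVals E T L φ h₀) : IsOver φ h₀ V.toHom :=
  ⟨V.toHom_K, V.toHom_E⟩

/-- The map of cylinders of a map of globular sums. -/
def cylVals (E : Ext) {S T : Table} (f : S ⟶ T) :
    CylVals E S (tcyl E T) ((cylK (iota E T)).comp (repMap (E.i.map f))) (cE E T) where
  vA _ c := cA E (TCell.map f c)
  vH _ c := cH E (TCell.map f c)
  a_zero c := by
    show _ = (cylK (iota E T)).f 0 ((repMap (E.i.map f)).f 0 (repE E S)) + _
    rw [d_cA_zero, d_cE, repMap_e]
    abel
  a_succ k c := by rw [d_cA, TCell.map_face, TCell.map_face]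
  h_zero c := by
    show _ = _ - (cylK (iota E T)).f 1 ((repMap (E.i.map f)).f 1 (iotaCell E S 0 c)) - _
    rw [d_cH_zero, iotaCell, iotaCell, ofCell_map, E.i.map_comp, repMap_comp]
    rfl
  h_succ k c := by
    show _ = _ - (cylK (iota E T)).f (k + 1 + 1)
      ((repMap (E.i.map f)).f (k + 1 + 1) (iotaCell E S (k + 1) c)) - _
    rw [d_cH, TCell.map_face, TCell.map_face, iotaCell, iotaCell, ofCell_map, E.i.map_comp,
      repMap_comp]
    rfl

/-- The map of cylinders of a map of globular sums, as a chain map. -/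
def cylMap (E : Ext) {S T : Table} (f : S ⟶ T) : CxHom (tcyl E S) (tcyl E T) :=
  (cylVals E f).toHom

theorem cylMap_A {S T : Table} (f : S ⟶ T) {k : ℕ} (c : TCell S k) :
    (cylMap E f).f (k + 1) (cA E c) = cA E (TCell.map f c) :=
  (cylVals E f).toHom_A c

theorem cylMap_H {S T : Table} (f : S ⟶ T) {k : ℕ} (c : TCell S k) :
    (cylMap E f).f (k + 1 + 1) (cH E c) = cH E (TCell.map f c) :=
  (cylVals E f).toHom_H c

theorem cylMap_E {S T : Table} (f : S ⟶ T) : (cylMap E f).f 1 (cE E S) = cE E T :=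
  (cylVals E f).toHom_E

theorem cylMap_K {S T : Table} (f : S ⟶ T) :
    (cylMap E f).comp (cylK (iota E S)) = (cylK (iota E T)).comp (repMap (E.i.map f)) :=
  (cylVals E f).toHom_K

theorem IsOver.comp_cylMap {S T : Table} {L : Cx.{0}} {φ : CxHom (repCx E T) L} {h₀ : L.X 1}
    {γ : CxHom (tcyl E T) L} (hγ : IsOver φ h₀ γ) (f : S ⟶ T) :
    IsOver (φ.comp (repMap (E.i.map f))) h₀ (γ.comp (cylMap E f)) := by
  refine ⟨?_, ?_⟩
  · refine cxHom_ext fun n x => ?_
    show γ.f n ((cylMap E f).f n ((cylK (iota E S)).f n x)) = _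
    rw [show (cylMap E f).f n ((cylK (iota E S)).f n x) =
      (cylK (iota E T)).f n ((repMap (E.i.map f)).f n x) from
        congrArg (fun F => F.f n x) (cylMap_K f)]
    exact congrArg (fun F => F.f n ((repMap (E.i.map f)).f n x)) hγ.1
  · show γ.f 1 ((cylMap E f).f 1 (cE E S)) = h₀
    rw [cylMap_E, hγ.2]

/-- Gluing maps out of cylinders over the positions. -/
theorem exists_over_sum {T : Table} {L : Cx.{0}} (φ : CxHom (repCx E T) L) (h₀ : L.X 1)
    (γ : ∀ p, CxHom (tcyl E (disc (T.top p))) L)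
    (hγ : ∀ p, IsOver (φ.comp (repMap (E.i.map (incl T p)))) h₀ (γ p))
    (hc : ∀ p : Fin T.len, (γ p.castSucc).comp (cylMap E (side true (T.lt_left p))) =
      (γ p.succ).comp (cylMap E (side false (T.lt_right p)))) :
    ∃ G, IsOver φ h₀ G ∧ ∀ p, G.comp (cylMap E (incl T p)) = γ p := by
  let cm : ∀ p k, ((⟨k⟩ : Globe) ⟶ ⟨T.top p⟩) → TCell (disc (T.top p)) k :=
    fun p k g => TCell.mk (disc (T.top p)) 0 g
  let vA : ∀ k, TCell T k → L.X (k + 1) := fun k =>
    cellLift (fun p g => (γ p).f (k + 1) (cA E (cm p k g))) fun p g => by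
      have h := congrArg (fun F => F.f (k + 1) (cA E (TCell.mk (disc (T.bot p)) 0 g))) (hc p)
      exact (congrArg ((γ p.castSucc).f (k + 1)) (cylMap_A (side true (T.lt_left p)) _)).symm.trans
        (h.trans (congrArg ((γ p.succ).f (k + 1)) (cylMap_A (side false (T.lt_right p)) _)))
  let vH : ∀ k, TCell T k → L.X (k + 1 + 1) := fun k =>
    cellLift (fun p g => (γ p).f (k + 1 + 1) (cH E (cm p k g))) fun p g => by
      have h := congrArg (fun F => F.f (k + 1 + 1) (cH E (TCell.mk (disc (T.bot p)) 0 g))) (hc p)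
      exact (congrArg ((γ p.castSucc).f (k + 1 + 1))
        (cylMap_H (side true (T.lt_left p)) _)).symm.trans
          (h.trans (congrArg ((γ p.succ).f (k + 1 + 1)) (cylMap_H (side false (T.lt_right p)) _)))
  have hK : ∀ p n x, (γ p).f n ((cylK (iota E _)).f n x) =
      φ.f n ((repMap (E.i.map (incl T p))).f n x) := fun p n x =>
    congrArg (fun F => F.f n x) (hγ p).1
  have hi : ∀ p k g, φ.f (k + 1) (iotaCell E T k (TCell.mk T p g)) =
      φ.f (k + 1) ((repMap (E.i.map (incl T p))).f (k + 1)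
        (iotaCell E (disc (T.top p)) k (cm p k g))) := fun p k g => by
    rw [← TCell.map_incl p g, iotaCell, iotaCell, ofCell_map, E.i.map_comp, repMap_comp]
    rfl
  let V : CylVals E T L φ h₀ :=
    { vA := vA
      vH := vH
      a_zero := fun c => by
        obtain ⟨p, g, rfl⟩ := TCell.exists_mk c
        show L.d 0 ((γ p).f 1 (cA E (cm p 0 g))) = _
        rw [← (γ p).comm, d_cA_zero]
        have h := congrArg (L.d 0) (hγ p).2
        rw [← (γ p).comm, d_cE, map_sub, hK, repMap_e] at h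
        rw [← h]
        abel
      a_succ := fun k c => by
        obtain ⟨p, g, rfl⟩ := TCell.exists_mk c
        show L.d (k + 1) ((γ p).f (k + 1 + 1) (cA E (cm p (k + 1) g))) = _
        rw [← (γ p).comm, d_cA, map_sub]
        rfl
      h_zero := fun c => by
        obtain ⟨p, g, rfl⟩ := TCell.exists_mk c
        show L.d 1 ((γ p).f 2 (cH E (cm p 0 g))) = _
        rw [← (γ p).comm, d_cH_zero, map_sub, map_sub, hK, (hγ p).2, hi]
        rfl
      h_succ := fun k c => by
        obtain ⟨p, g, rfl⟩ := TCell.exists_mk c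
        show L.d (k + 1 + 1) ((γ p).f (k + 1 + 1 + 1) (cH E (cm p (k + 1) g))) = _
        rw [← (γ p).comm, d_cH, map_sub, map_sub, map_sub, hK, hi]
        rfl }
  refine ⟨V.toHom, V.isOver, fun p => tcyl_ext ?_ ?_ ?_ ?_⟩
  · exact ((V.isOver.comp_cylMap (incl T p)).1).trans (hγ p).1.symm
  · exact ((V.isOver.comp_cylMap (incl T p)).2).trans (hγ p).2.symm
  · intro k c
    obtain ⟨g, rfl⟩ := TCell.disc_cases c
    exact (congrArg (V.toHom.f (k + 1)) (cylMap_A (incl T p) _)).trans (V.toHom_A _)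
  · intro k c
    obtain ⟨g, rfl⟩ := TCell.disc_cases c
    exact (congrArg (V.toHom.f (k + 1 + 1)) (cylMap_H (incl T p) _)).trans (V.toHom_H _)

/-- Maps over a map of chains agreeing at all positions are equal. -/
theorem over_ext_sum {T : Table} {L : Cx.{0}} {φ : CxHom (repCx E T) L} {h₀ : L.X 1}
    {γ γ' : CxHom (tcyl E T) L} (hγ : IsOver φ h₀ γ) (hγ' : IsOver φ h₀ γ')
    (h : ∀ p, γ.comp (cylMap E (incl T p)) = γ'.comp (cylMap E (incl T p))) : γ = γ' := by
  refine tcyl_ext (hγ.1.trans hγ'.1.symm) (hγ.2.trans hγ'.2.symm) (fun k c => ?_) fun k c => ?_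
  · obtain ⟨p, g, rfl⟩ := TCell.exists_mk c
    have e := congrArg (fun F => F.f (k + 1) (cA E (TCell.mk (disc (T.top p)) 0 g))) (h p)
    exact (congrArg (γ.f (k + 1)) (cylMap_A (incl T p) _)).symm.trans
      (e.trans (congrArg (γ'.f (k + 1)) (cylMap_A (incl T p) _)))
  · obtain ⟨p, g, rfl⟩ := TCell.exists_mk c
    have e := congrArg (fun F => F.f (k + 1 + 1) (cH E (TCell.mk (disc (T.top p)) 0 g))) (h p)
    exact (congrArg (γ.f (k + 1 + 1)) (cylMap_H (incl T p) _)).symm.trans
      (e.trans (congrArg (γ'.f (k + 1 + 1)) (cylMap_H (incl T p) _)))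

/-- Extension over a disc from its two sides and values on the top cell. -/
theorem exists_over_disc {n : ℕ} {L : Cx.{0}} (φ : CxHom (repCx E (disc (n + 1))) L) (h₀ : L.X 1)
    (γ : Bool → CxHom (tcyl E (disc n)) L)
    (hγ : ∀ e, IsOver (φ.comp (repMap (E.face e n))) h₀ (γ e))
    (hpar : ∀ j (_ : j + 1 = n) (h : j < n) e,
      (γ false).comp (cylMap E (side e h)) = (γ true).comp (cylMap E (side e h)))
    (v : L.X (n + 1 + 1)) (w : L.X (n + 1 + 1 + 1))
    (hv : L.d (n + 1) v = (γ true).f (n + 1) (cA E (TCell.top n)) -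
      (γ false).f (n + 1) (cA E (TCell.top n)))
    (hw : L.d (n + 1 + 1) w = v - φ.f (n + 1 + 1) (iotaDisc E (n + 1)) -
      ((γ true).f (n + 1 + 1) (cH E (TCell.top n)) -
        (γ false).f (n + 1 + 1) (cH E (TCell.top n)))) :
    ∃ G, IsOver φ h₀ G ∧ (∀ e, G.comp (cylMap E (side e n.lt_succ_self)) = γ e) ∧
      G.f (n + 1 + 1) (cA E (TCell.top (n + 1))) = v ∧
      G.f (n + 1 + 1 + 1) (cH E (TCell.top (n + 1))) = w := by
  have hK : ∀ e m x, (γ e).f m ((cylK (iota E _)).f m x) =
      φ.f m ((repMap (E.face e n)).f m x) := fun e m x =>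
    congrArg (fun F => F.f m x) (hγ e).1
  have hd : ∀ (k : ℕ) (c : TCell (disc (n + 1)) k), (∃ e c', c = TCell.map (side e n.lt_succ_self) c')
      ∨ ∃ h : k = n + 1, c = h ▸ TCell.top (n + 1) := by
    intro k c
    rcases TCell.disc_cells c with h | ⟨e, hk, rfl⟩
    · exact Or.inr h
    · rcases Nat.lt_or_eq_of_le (Nat.le_of_lt_succ hk) with h | h
      · exact Or.inl ⟨false, TCell.below e h, (TCell.map_side_below false e _ h).symm⟩
      · subst h
        exact Or.inl ⟨e, TCell.top k, (TCell.map_side_top e _).symm⟩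
  have hsame : ∀ k (c c' : TCell (disc n) k) e e',
      TCell.map (side e n.lt_succ_self) c = TCell.map (side e' n.lt_succ_self) c' →
      (γ e).f (k + 1) (cA E c) = (γ e').f (k + 1) (cA E c') ∧
        (γ e).f (k + 1 + 1) (cH E c) = (γ e').f (k + 1 + 1) (cH E c') := by
    intro k c c' e e' hcc
    obtain ⟨⟨o, ho⟩, rfl⟩ := TCell.disc_cases c
    obtain ⟨⟨o', ho'⟩, rfl⟩ := TCell.disc_cases c'
    have hinj : ∀ {a b : Table.Pre (disc (n + 1)) ⟨k⟩},
        (Quot.mk ((disc (n + 1)).Rel ⟨k⟩) a = Quot.mk _ b) → a = b := fun {a b} h => by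
      have := congrArg (Quot.lift id fun x y hxy => (disc_rel_false _ _ x y hxy).elim) h
      exact this
    rw [TCell.map_side, TCell.map_side] at hcc
    have h2 := eq_of_heq (Sigma.mk.inj_iff.1 (hinj hcc)).2
    cases o with
    | none =>
        have hk : k = n := ho
        subst hk
        cases o' with
        | none =>
            have : e = e' := Option.some.inj (congrArg Globe.Hom.first h2)
            subst this
            exact ⟨rfl, rfl⟩
        | some b => exact absurd (show k < k from ho') (lt_irrefl k)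
    | some b =>
        have hk : k < n := ho
        cases o' with
        | none => exact absurd hk (by rw [show k = n from ho']; exact lt_irrefl n)
        | some b' =>
            have hb : b = b' := Option.some.inj (congrArg Globe.Hom.first h2)
            subst hb
            obtain ⟨j, rfl⟩ : ∃ j, n = j + 1 := ⟨n - 1, by omega⟩
            have hpre : ∃ (e₀ : Bool) (d : TCell (disc j) k), TCell.mk (disc (j + 1)) 0
                (Globe.face b hk) = TCell.map (side e₀ j.lt_succ_self) d := by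
              rcases Nat.lt_or_eq_of_le (Nat.le_of_lt_succ hk) with h | h
              · exact ⟨false, TCell.below b h, (TCell.map_side_below false b _ h).symm⟩
              · subst h
                exact ⟨b, TCell.top k, (TCell.map_side_top b _).symm⟩
            obtain ⟨e₀, d, hd'⟩ := hpre
            have key : (γ false).f (k + 1) (cA E (TCell.mk (disc (j + 1)) 0 (Globe.face b hk))) =
                (γ true).f (k + 1) (cA E (TCell.mk (disc (j + 1)) 0 (Globe.face b hk))) ∧
                (γ false).f (k + 1 + 1) (cH E (TCell.mk (disc (j + 1)) 0 (Globe.face b hk))) =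
                (γ true).f (k + 1 + 1) (cH E (TCell.mk (disc (j + 1)) 0 (Globe.face b hk))) := by
              have hp := hpar j rfl j.lt_succ_self e₀
              rw [hd', ← cylMap_A, ← cylMap_H]
              exact ⟨congrArg (fun F => F.f (k + 1) (cA E d)) hp,
                congrArg (fun F => F.f (k + 1 + 1) (cH E d)) hp⟩
            cases e <;> cases e'
            · exact ⟨rfl, rfl⟩
            · exact key
            · exact ⟨key.1.symm, key.2.symm⟩
            · exact ⟨rfl, rfl⟩
  classical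
  let vA : ∀ k, TCell (disc (n + 1)) k → L.X (k + 1) := fun k c =>
    if h : ∃ e c', c = TCell.map (side e n.lt_succ_self) c' then
      (γ h.choose).f (k + 1) (cA E h.choose_spec.choose)
    else if hk : k = n + 1 then hk ▸ v else 0
  let vH : ∀ k, TCell (disc (n + 1)) k → L.X (k + 1 + 1) := fun k c =>
    if h : ∃ e c', c = TCell.map (side e n.lt_succ_self) c' then
      (γ h.choose).f (k + 1 + 1) (cH E h.choose_spec.choose)
    else if hk : k = n + 1 then hk ▸ w else 0
  have hvs : ∀ k e (c' : TCell (disc n) k),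
      vA k (TCell.map (side e n.lt_succ_self) c') = (γ e).f (k + 1) (cA E c') ∧
        vH k (TCell.map (side e n.lt_succ_self) c') = (γ e).f (k + 1 + 1) (cH E c') := by
    intro k e c'
    have h : ∃ e₁ c₁, TCell.map (side e n.lt_succ_self) c' =
        TCell.map (side e₁ n.lt_succ_self) c₁ := ⟨e, c', rfl⟩
    have hh := hsame k _ _ _ _ h.choose_spec.choose_spec.symm
    exact ⟨(dif_pos h).trans hh.1, (dif_pos h).trans hh.2⟩
  have htop : vA (n + 1) (TCell.top (n + 1)) = v ∧ vH (n + 1) (TCell.top (n + 1)) = w := by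
    have h : ¬ ∃ e c', TCell.top (n + 1) = TCell.map (side e n.lt_succ_self) c' := by
      rintro ⟨e, c', h⟩
      obtain ⟨⟨o, ho⟩, rfl⟩ := TCell.disc_cases c'
      cases o with
      | none => exact absurd (show n + 1 = n from ho) (by omega)
      | some b => exact absurd (show n + 1 < n from ho) (by omega)
    exact ⟨(dif_neg h).trans (dif_pos rfl), (dif_neg h).trans (dif_pos rfl)⟩
  have hface : ∀ e, TCell.face e (TCell.top (n + 1)) =
      TCell.map (side e n.lt_succ_self) (TCell.top n) := fun e => (TCell.map_side_top e _).symm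
  have hio : ∀ k e (c' : TCell (disc n) k),
      φ.f (k + 1) (iotaCell E (disc (n + 1)) k (TCell.map (side e n.lt_succ_self) c')) =
      φ.f (k + 1) ((repMap (E.face e n)).f (k + 1) (iotaCell E (disc n) k c')) := fun k e c' => by
    rw [iotaCell, iotaCell, ofCell_map, E.i.map_comp, repMap_comp]
    rfl
  let V : CylVals E (disc (n + 1)) L φ h₀ :=
    { vA := vA
      vH := vH
      a_zero := fun c => by
        rcases hd 0 c with ⟨e, c', rfl⟩ | ⟨h, -⟩
        · rw [(hvs 0 e c').1, ← (γ e).comm, d_cA_zero]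
          have h := congrArg (L.d 0) (hγ e).2
          rw [← (γ e).comm, d_cE, map_sub, hK, repMap_e] at h
          rw [← h]
          abel
        · omega
      a_succ := fun k c => by
        rcases hd (k + 1) c with ⟨e, c', rfl⟩ | ⟨h, hc⟩
        · rw [(hvs _ e c').1, ← TCell.map_face, ← TCell.map_face, (hvs _ e _).1, (hvs _ e _).1,
            ← (γ e).comm, d_cA, map_sub]
        · obtain rfl : k = n := Nat.succ.inj h
          obtain rfl : c = TCell.top (k + 1) := hc
          rw [hface, hface, (hvs _ _ _).1, (hvs _ _ _).1, htop.1, hv]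
      h_zero := fun c => by
        rcases hd 0 c with ⟨e, c', rfl⟩ | ⟨h, -⟩
        · rw [(hvs 0 e c').1, (hvs 0 e c').2, ← (γ e).comm, d_cH_zero, map_sub, map_sub, hK,
            (hγ e).2, hio]
        · omega
      h_succ := fun k c => by
        rcases hd (k + 1) c with ⟨e, c', rfl⟩ | ⟨h, hc⟩
        · rw [(hvs _ e c').1, (hvs _ e c').2, ← TCell.map_face, ← TCell.map_face, (hvs _ e _).2,
            (hvs _ e _).2, ← (γ e).comm, d_cH, map_sub, map_sub, map_sub, hK, hio]
        · obtain rfl : k = n := Nat.succ.inj h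
          obtain rfl : c = TCell.top (k + 1) := hc
          have hι : iotaCell E (disc (k + 1)) (k + 1) (TCell.top (k + 1)) = iotaDisc E (k + 1) :=
            (iota_cell _ _).symm.trans (iota_top _)
          rw [hface, hface, (hvs _ _ _).2, (hvs _ _ _).2, htop.1, htop.2, hw, hι] }
  refine ⟨V.toHom, V.isOver, fun e => tcyl_ext ?_ ?_ ?_ ?_, ?_, ?_⟩
  · exact ((V.isOver.comp_cylMap (side e n.lt_succ_self)).1).trans (hγ e).1.symm
  · exact ((V.isOver.comp_cylMap (side e n.lt_succ_self)).2).trans (hγ e).2.symm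
  · intro k c
    exact (congrArg (V.toHom.f (k + 1)) (cylMap_A (side e _) c)).trans
      ((V.toHom_A _).trans (hvs k e c).1)
  · intro k c
    exact (congrArg (V.toHom.f (k + 1 + 1)) (cylMap_H (side e _) c)).trans
      ((V.toHom_H _).trans (hvs k e c).2)
  · exact (V.toHom_A _).trans htop.1
  · exact (V.toHom_H _).trans htop.2

/-- Two maps over the same map, agreeing on the sides and on the top cell, are equal. -/
theorem over_ext_disc {n : ℕ} {L : Cx.{0}} {φ : CxHom (repCx E (disc (n + 1))) L} {h₀ : L.X 1}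
    {γ γ' : CxHom (tcyl E (disc (n + 1))) L} (hγ : IsOver φ h₀ γ) (hγ' : IsOver φ h₀ γ')
    (hs : ∀ e, γ.comp (cylMap E (side e n.lt_succ_self)) =
      γ'.comp (cylMap E (side e n.lt_succ_self)))
    (hA : γ.f (n + 1 + 1) (cA E (TCell.top (n + 1))) =
      γ'.f (n + 1 + 1) (cA E (TCell.top (n + 1))))
    (hH : γ.f (n + 1 + 1 + 1) (cH E (TCell.top (n + 1))) =
      γ'.f (n + 1 + 1 + 1) (cH E (TCell.top (n + 1)))) : γ = γ' := by
  refine tcyl_ext (hγ.1.trans hγ'.1.symm) (hγ.2.trans hγ'.2.symm) (fun k c => ?_) fun k c => ?_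
  all_goals
    rcases TCell.disc_cells c with ⟨h, rfl⟩ | ⟨e, hk, rfl⟩
    · subst h
      first | exact hA | exact hH
    · obtain ⟨e', c', hc⟩ : ∃ e' c', TCell.below e hk =
          TCell.map (side e' n.lt_succ_self) c' := by
        rcases Nat.lt_or_eq_of_le (Nat.le_of_lt_succ hk) with h | h
        · exact ⟨false, TCell.below e h, (TCell.map_side_below false e _ h).symm⟩
        · subst h
          exact ⟨e, TCell.top k, (TCell.map_side_top e _).symm⟩
      rw [hc]
      first
        | (rw [← cylMap_A]; exact congrArg (fun F => F.f (k + 1) (cA E c')) (hs e'))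
        | (rw [← cylMap_H]; exact congrArg (fun F => F.f (k + 1 + 1) (cH E c')) (hs e'))

end

end Vale.Agent.P259.Free
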