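import Vale.Agent.P259.Glob.Rec
import Vale.Agent.P259.Free.CylOver

/-!
# P259, module D: the cylinders form a system over the maps of a coherator

The first use of freeness: values on the lifts are chosen one by one.
-/

namespace Vale.Agent.P259.Free

open CategoryTheory Opposite
open Vale.Agent.P259.Cat

noncomputable section

theorem cylA_injective {A K : Cx.{0}} (ι : CxHom A K) (n : ℕ) :
    Function.Injective ((cylA ι).f n) := fun _ _ h => congrArg (fun z => z.2.1) h

theorem comp_assoc {A B C D : Cx.{0}} (h : CxHom C D) (g : CxHom B C) (f : CxHom A B) :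
    (h.comp g).comp f = h.comp (g.comp f) := rfl

variable {E : Ext}

/-- An extension of a map to cylinders. -/
structure CylHom (E : Ext) (S T : Table) : Type where
  φ : E.M S T
  P : CxHom (tcyl E S) (tcyl E T)
  a : CxHom (Ab S) (Ab T)
  hover : IsOver ((cylK (iota E T)).comp (repMap φ)) (cE E T) P
  hkeep : P.comp (cylA (iota E S)) = (cylA (iota E T)).comp a

theorem CylHom.ext' {S T : Table} {f g : CylHom E S T} (hφ : f.φ = g.φ) (hP : f.P = g.P) :
    f = g := by
  have ha : f.a = g.a := cxHom_ext fun n x => cylA_injective (iota E T) n (by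
    have h1 := congrArg (fun F => F.f n x) f.hkeep
    have h2 := congrArg (fun F => F.f n x) g.hkeep
    rw [hP] at h1
    exact h1.symm.trans h2)
  obtain ⟨φ, P, a, ov, k⟩ := f
  obtain ⟨φ', P', a', ov', k'⟩ := g
  dsimp at hφ hP ha
  subst hφ hP ha
  rfl

/-- A chain map preserving the copy of the cells restricts to the cells. -/
theorem exists_restrict {S T : Table} (G : CxHom (tcyl E S) (tcyl E T))
    (h : ∀ k (c : TCell S k), ∃ y, G.f (k + 1) (cA E c) = (cylA (iota E T)).f (k + 1) y)
    (h0 : G.f 0 ((cylA (iota E S)).f 0 (abE S)) = (cylA (iota E T)).f 0 (abE T)) :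
    ∃ a, G.comp (cylA (iota E S)) = (cylA (iota E T)).comp a := by
  have hall : ∀ n x, ∃ y, G.f n ((cylA (iota E S)).f n x) = (cylA (iota E T)).f n y := by
    intro n x
    induction x using Finsupp.induction_linear with
    | zero => exact ⟨0, by rw [map_zero, map_zero, map_zero]⟩
    | add x y hx hy =>
        obtain ⟨a, ha⟩ := hx
        obtain ⟨b, hb⟩ := hy
        exact ⟨a + b, by rw [map_add, map_add, ha, hb, map_add]⟩
    | single c m =>
        have hc : ∃ y, G.f n ((cylA (iota E S)).f n (Finsupp.single c 1)) =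
            (cylA (iota E T)).f n y := by
          cases n with
          | zero => cases c; exact ⟨_, h0⟩
          | succ k => exact h k c
        obtain ⟨y, hy⟩ := hc
        exact ⟨m • y, by rw [single_eq_zsmul, map_zsmul, map_zsmul, hy, map_zsmul]⟩
  choose y hy using hall
  refine ⟨⟨fun n => AddMonoidHom.mk' (y n) fun x x' => cylA_injective (iota E T) n ?_,
    fun n x => cylA_injective (iota E T) n ?_⟩, cxHom_ext hy⟩
  · rw [← hy, map_add, map_add, map_add, hy, hy]
  · show (cylA (iota E T)).f n (y n _) = (cylA (iota E T)).f n ((Ab T).d n (y (n + 1) x))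
    rw [← hy, (cylA (iota E T)).comm, ← hy, ← G.comm, (cylA (iota E S)).comm]

/-- The identity. -/
def CylHom.id (T : Table) : CylHom E T T where
  φ := 𝟙 _
  P := CxHom.id _
  a := CxHom.id _
  hover := ⟨by rw [repMap_id]; rfl, rfl⟩
  hkeep := rfl

/-- Composition. -/
def CylHom.comp {R S T : Table} (f : CylHom E R S) (g : CylHom E S T) : CylHom E R T where
  φ := f.φ ≫ g.φ
  P := g.P.comp f.P
  a := g.a.comp f.a
  hover := ⟨by
    rw [repMap_comp, comp_assoc, f.hover.1, ← comp_assoc, g.hover.1]
    rfl, by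
    show g.P.f 1 (f.P.f 1 (cE E R)) = _
    rw [f.hover.2, g.hover.2]⟩
  hkeep := by rw [comp_assoc, f.hkeep, ← comp_assoc, g.hkeep]; rfl

/-- Globular sums with extensions to cylinders as maps. -/
structure CylObj (E : Ext) : Type 1 where
  T : Table

instance CylObj.category (E : Ext) : Category.{0} (CylObj E) where
  Hom S T := CylHom E S.T T.T
  id S := CylHom.id S.T
  comp f g := f.comp g
  id_comp f := CylHom.ext' (Category.id_comp _) rfl
  comp_id f := CylHom.ext' (Category.comp_id _) rfl
  assoc f g h := CylHom.ext' (Category.assoc _ _ _) rfl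

/-- The extension of a map of globular sums. -/
def cylOfTable (E : Ext) {S T : Table} (f : S ⟶ T) : CylHom E S T where
  φ := E.i.map f
  P := cylMap E f
  a := abMap f
  hover := (cylVals E f).isOver
  hkeep := by
    refine ab_ext ?_ fun k c => ?_
    · show (cylMap E f).f 0 ((cylA (iota E S)).f 0 (abE S)) =
        (cylA (iota E T)).f 0 ((abMap f).f 0 (abE S))
      rw [abMap_e]
      have h := congrArg ((tcyl E T).d 0) (cylMap_E (E := E) f)
      rw [← (cylMap E f).comm, d_cE, d_cE, map_sub] at h
      have hK := congrArg (fun F => F.f 0 (repE E S)) (cylMap_K (E := E) f)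
      simp only [CxHom.comp, AddMonoidHom.comp_apply] at hK
      rw [hK, repMap_e] at h
      exact sub_left_inj.1 h
    · exact (cylMap_A f c).trans (congrArg ((cylA (iota E T)).f (k + 1)) (abMap_cell f c)).symm

/-- Globular sums in the displayed category. -/
def cylOb (E : Ext) : Table ⥤ CylObj E where
  obj T := ⟨T⟩
  map f := cylOfTable E f
  map_id T := by
    refine CylHom.ext' (E.i.map_id T) ?_
    refine tcyl_ext ?_ (cylMap_E _) (fun k c => cylMap_A _ c) fun k c => cylMap_H _ c
    refine (cylMap_K _).trans ?_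
    rw [E.i.map_id, repMap_id]
    rfl
  map_comp {R S T} f g := by
    refine CylHom.ext' (E.i.map_comp f g) ?_
    refine tcyl_ext ?_ ?_ (fun k c => ?_) fun k c => ?_
    · refine (cylMap_K (f ≫ g)).trans ?_
      show _ = ((cylMap E g).comp (cylMap E f)).comp _
      rw [comp_assoc, cylMap_K, ← comp_assoc, cylMap_K, E.i.map_comp, repMap_comp]
      rfl
    · exact (cylMap_E (f ≫ g)).trans
        ((congrArg ((cylMap E g).f 1) (cylMap_E f)).trans (cylMap_E g)).symm
    · exact (cylMap_A (f ≫ g) c).trans
        ((congrArg ((cylMap E g).f _) (cylMap_A f c)).trans (cylMap_A g _)).symm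
    · exact (cylMap_H (f ≫ g) c).trans
        ((congrArg ((cylMap E g).f _) (cylMap_H f c)).trans (cylMap_H g _)).symm

theorem cylOb_sums (E : Ext) : PreservesSums (cylOb E) := by
  intro T Z f hf
  obtain ⟨φ, hφ, hφu⟩ := E.sums T (E.i.obj Z.T) (fun p => (f p).φ)
    (fun p => congrArg CylHom.φ (hf p))
  let φK := (cylK (iota E Z.T)).comp (repMap φ)
  have hov : ∀ p, IsOver (φK.comp (repMap (E.i.map (incl T p)))) (cE E Z.T) (f p).P := fun p => by
    refine ⟨((f p).hover.1).trans ?_, (f p).hover.2⟩
    refine (congrArg (fun φ' : E.M _ _ => (cylK (iota E Z.T)).comp (repMap φ')) (hφ p).symm).trans ?_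
    exact congrArg (cylK (iota E Z.T)).comp (repMap_comp (E.i.map (incl T p)) φ)
  obtain ⟨G, hG, hGp⟩ := exists_over_sum φK (cE E Z.T) (fun p => (f p).P) hov
    (fun p => congrArg CylHom.P (hf p))
  have ha0 : ∀ p, (f p).a.f 0 (abE _) = abE Z.T := fun p => by
    refine cylA_injective (iota E Z.T) 0 ?_
    have h := congrArg (fun F => F.f 0 (abE _)) (f p).hkeep
    refine h.symm.trans ?_
    show (f p).P.f 0 ((cylA _).f 0 (abE _)) = _
    have h2 := congrArg ((tcyl E Z.T).d 0) (f p).hover.2
    rw [← (f p).P.comm, d_cE, d_cE, map_sub] at h2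
    have hK := congrArg (fun F => F.f 0 (repE E _)) (f p).hover.1
    simp only [CxHom.comp, AddMonoidHom.comp_apply] at hK
    rw [hK, repMap_e] at h2
    exact sub_left_inj.1 h2
  have hac : ∀ p : Fin T.len, (f p.castSucc).a.comp (abMap (side true (T.lt_left p))) =
      (f p.succ).a.comp (abMap (side false (T.lt_right p))) :=
    fun p => congrArg CylHom.a (hf p)
  obtain ⟨a, hae, hap⟩ := ab_glue T (abE Z.T) (fun p => (f p).a) ha0 hac
  have hkeep : G.comp (cylA (iota E T)) = (cylA (iota E Z.T)).comp a := by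
    refine ab_ext_incl fun p => ?_
    rw [comp_assoc, comp_assoc, hap p]
    refine Eq.trans ?_ (f p).hkeep
    rw [← hGp p]
    exact congrArg G.comp (cylOfTable E (incl T p)).hkeep.symm
  refine ⟨⟨φ, G, a, hG, hkeep⟩, fun p => CylHom.ext' (hφ p) (hGp p), fun q hq => ?_⟩
  have hqφ : q.φ = φ := hφu q.φ fun p => congrArg CylHom.φ (hq p)
  refine CylHom.ext' hqφ (over_ext_sum (φ := φK) (h₀ := cE E Z.T) ?_ hG fun p => ?_)
  · have := q.hover
    rw [hqφ] at this
    exact this
  · exact (congrArg CylHom.P (hq p)).trans (hGp p).symm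

/-- The cylinders, displayed over the extension. -/
def cylDisplayed (E : Ext) : Glob.Displayed E where
  K := CylObj E
  ob := cylOb E
  sums := cylOb_sums E
  proj := { obj := fun T => E.i.obj T.T, map := fun f => f.φ }
  proj_ob := rfl

/-- A pair of parallel maps extends over a lift. -/
theorem exists_cyl_lift {n : ℕ} {T : Table} (f g : CylHom E (disc n) T)
    (hpar : ∀ j (_ : j + 1 = n) (h : j < n) e,
      (cylOfTable E (side e h)).comp f = (cylOfTable E (side e h)).comp g)
    (h : E.M (disc (n + 1)) T) (hf : E.face false n ≫ h = f.φ) (hg : E.face true n ≫ h = g.φ) :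
    ∃ k : CylHom E (disc (n + 1)) T, (cylOfTable E (side false n.lt_succ_self)).comp k = f ∧
      (cylOfTable E (side true n.lt_succ_self)).comp k = g ∧ k.φ = h := by
  let F : Bool → CylHom E (disc n) T := fun e => bif e then g else f
  have hF : ∀ e, E.face e n ≫ h = (F e).φ := fun e => by cases e; exacts [hf, hg]
  let φK := (cylK (iota E T)).comp (repMap h)
  have hov : ∀ e, IsOver (φK.comp (repMap (E.face e n))) (cE E T) (F e).P := fun e => by
    refine ⟨((F e).hover.1).trans ?_, (F e).hover.2⟩
    rw [← hF e, repMap_comp]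
    rfl
  have hp : ∀ j (_ : j + 1 = n) (hj : j < n) e,
      f.P.comp (cylMap E (side e hj)) = g.P.comp (cylMap E (side e hj)) :=
    fun j hj hj' e => congrArg CylHom.P (hpar j hj hj' e)
  have hA : ∀ e, (F e).P.f (n + 1) (cA E (TCell.top n)) =
      (cylA (iota E T)).f (n + 1) ((F e).a.f (n + 1) (abCell (TCell.top n))) := fun e =>
    congrArg (fun K => K.f (n + 1) (abCell (TCell.top n))) (F e).hkeep
  let z := g.a.f (n + 1) (abCell (TCell.top n)) - f.a.f (n + 1) (abCell (TCell.top n))
  have hz : z ∈ (Ab T).cyc (n + 1) := by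
    refine (Cx.mem_cyc_succ (C := Ab T) _).2 ?_
    refine (map_sub ((Ab T).d n) _ _).trans ?_
    rw [← CxHom.comm, ← CxHom.comm]
    cases n with
    | zero =>
        have he : ∀ e, (F e).a.f 0 ((Ab (disc 0)).d 0 (abCell (TCell.top 0))) = abE T := by
          intro e
          refine cylA_injective (iota E T) 0 ?_
          rw [d_abCell_zero]
          refine (congrArg (fun K => K.f 0 (abE (disc 0))) (F e).hkeep).symm.trans ?_
          have h2 := congrArg ((tcyl E T).d 0) (F e).hover.2
          rw [← (F e).P.comm, d_cE, d_cE, map_sub] at h2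
          have hK := congrArg (fun K => K.f 0 (repE E _)) (F e).hover.1
          simp only [CxHom.comp, AddMonoidHom.comp_apply] at hK
          rw [hK, repMap_e] at h2
          exact sub_left_inj.1 h2
        exact sub_eq_zero.2 ((he true).trans (he false).symm)
    | succ m =>
        have key : ∀ e, g.a.f (m + 1) (abCell (TCell.face e (TCell.top (m + 1)))) =
            f.a.f (m + 1) (abCell (TCell.face e (TCell.top (m + 1)))) := fun e => by
          have h2 := congrArg (fun K : CylHom E _ _ => K.a) (hpar m rfl m.lt_succ_self e)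
          have h3 := congrArg (fun K => K.f (m + 1) (abCell (TCell.top m))) h2
          rw [TCell.face_top, ← TCell.map_side_top e m.lt_succ_self, ← abMap_cell]
          exact h3.symm
        rw [d_abCell, map_sub, map_sub, key, key, sub_self]
  let a₁ := primitive (Ab T) z
  let v := (cylA (iota E T)).f (n + 1 + 1) a₁
  have hv : (tcyl E T).d (n + 1) v = g.P.f (n + 1) (cA E (TCell.top n)) -
      f.P.f (n + 1) (cA E (TCell.top n)) := by
    rw [← CxHom.comm, d_primitive (ab_exact T _) z hz, map_sub]
    exact congrArg₂ (· - ·) (hA true).symm (hA false).symm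
  let r := v - φK.f (n + 1 + 1) (iotaDisc E (n + 1)) -
    (g.P.f (n + 1 + 1) (cH E (TCell.top n)) - f.P.f (n + 1 + 1) (cH E (TCell.top n)))
  have hr : r ∈ (tcyl E T).cyc (n + 1 + 1) := by
    have hK : ∀ e m x, (F e).P.f m ((cylK (iota E _)).f m x) =
        φK.f m ((repMap (E.face e n)).f m x) := fun e m x =>
      congrArg (fun K => K.f m x) (hov e).1
    have hKg : ∀ m x, g.P.f m ((cylK (iota E _)).f m x) =
        φK.f m ((repMap (E.face true n)).f m x) := hK true
    have hKf : ∀ m x, f.P.f m ((cylK (iota E _)).f m x) =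
        φK.f m ((repMap (E.face false n)).f m x) := hK false
    rw [Cx.mem_cyc_succ, map_sub, map_sub, map_sub, hv, ← φK.comm, d_iotaDisc, map_sub,
      ← g.P.comm, ← f.P.comm]
    cases n with
    | zero =>
        rw [d_cH_zero, map_sub, map_sub, map_sub, map_sub, g.hover.2, f.hover.2, hKg, hKf,
          iotaCell, ofCell_top, E.i.map_id, repMap_id]
        show _ - _ - (_ - φK.f 1 ((repMap (E.face true 0)).f 1 (iotaDisc E 0)) - _ -
          (_ - φK.f 1 ((repMap (E.face false 0)).f 1 (iotaDisc E 0)) - _)) = 0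
        abel
    | succ m =>
        have key : ∀ e, g.P.f (m + 1 + 1) (cH E (TCell.face e (TCell.top (m + 1)))) =
            f.P.f (m + 1 + 1) (cH E (TCell.face e (TCell.top (m + 1)))) := fun e => by
          rw [TCell.face_top, ← TCell.map_side_top e m.lt_succ_self, ← cylMap_H]
          exact (congrArg (fun K => K.f (m + 1 + 1) (cH E (TCell.top m)))
            (hp m rfl m.lt_succ_self e)).symm
        rw [d_cH, map_sub, map_sub, map_sub, map_sub, map_sub, map_sub, hKg, hKf, key, key,
          iotaCell, ofCell_top, E.i.map_id, repMap_id]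
        show _ - _ - (_ - φK.f (m + 1 + 1) ((repMap (E.face true (m + 1))).f (m + 1 + 1)
          (iotaDisc E (m + 1))) - _ - (_ - φK.f (m + 1 + 1)
            ((repMap (E.face false (m + 1))).f (m + 1 + 1) (iotaDisc E (m + 1))) - _)) = 0
        abel
  have hw := d_primitive (cyl_exact _ _ (repCx_exact E T _)) r hr
  obtain ⟨G, hG, hGs, hGA, -⟩ := exists_over_disc φK (cE E T) (fun e => (F e).P) hov hp v
    (primitive _ r) hv hw
  obtain ⟨a, hat⟩ : ∃ a, G.comp (cylA (iota E _)) = (cylA (iota E T)).comp a := by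
    refine exists_restrict G (fun k c => ?_) ?_
    · rcases TCell.disc_cells c with ⟨hk, rfl⟩ | ⟨e, hk, rfl⟩
      · subst hk
        exact ⟨a₁, hGA⟩
      · obtain ⟨e', c', hc⟩ : ∃ e' c', TCell.below e hk =
            TCell.map (side e' n.lt_succ_self) c' := by
          rcases Nat.lt_or_eq_of_le (Nat.le_of_lt_succ hk) with h' | h'
          · exact ⟨false, TCell.below e h', (TCell.map_side_below false e _ h').symm⟩
          · subst h'
            exact ⟨e, TCell.top k, (TCell.map_side_top e _).symm⟩
        rw [hc, ← cylMap_A]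
        refine ⟨(F e').a.f (k + 1) (abCell c'), ?_⟩
        exact (congrArg (fun K => K.f (k + 1) (cA E c')) (hGs e')).trans
          (congrArg (fun K => K.f (k + 1) (abCell c')) (F e').hkeep)
    · have h2 := congrArg ((tcyl E T).d 0) hG.2
      rw [← G.comm, d_cE, d_cE, map_sub] at h2
      have hK := congrArg (fun K => K.f 0 (repE E _)) hG.1
      simp only [φK, CxHom.comp, AddMonoidHom.comp_apply] at hK
      rw [hK, repMap_e] at h2
      exact sub_left_inj.1 h2
  exact ⟨⟨h, G, a, hG, hat⟩, CylHom.ext' hf (hGs false), CylHom.ext' hg (hGs true), rfl⟩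

theorem cylDisplayed_lifts (E : Ext) : (cylDisplayed E).HasLifts := by
  intro n T _ f g hpar h hhf hhg
  obtain ⟨k, hk0, hk1, hk⟩ := exists_cyl_lift f g hpar h (eq_of_heq hhf) (eq_of_heq hhg)
  exact ⟨k, hk0, hk1, heq_of_eq hk⟩

theorem recast_id {A : Type*} [Category A] {X X' : A} (hX : X' = X) :
    Glob.recast hX hX.symm (𝟙 X) = 𝟙 X' := by
  subst hX
  simp [Glob.recast]

theorem recast_comp {A : Type*} [Category A] {X Y Z X' Y' Z' : A} (hX : X' = X) (hY : Y' = Y)
    (hZ : Z = Z') (f : X ⟶ Y) (g : Y ⟶ Z) :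
    Glob.recast hX hZ (f ≫ g) = Glob.recast hX hY.symm f ≫ Glob.recast hY hZ g := by
  subst hX hY hZ
  simp [Glob.recast]

/-- Extensions of all maps to cylinders, functorially. -/
structure CylSys (E : Ext) : Type where
  hom : ∀ {S T : Table}, E.M S T → CylHom E S T
  hom_φ : ∀ {S T : Table} (φ : E.M S T), (hom φ).φ = φ
  hom_id : ∀ T : Table, hom (𝟙 (E.i.obj T)) = CylHom.id T
  hom_comp : ∀ {R S T : Table} (φ : E.M R S) (ψ : E.M S T),
    hom (φ ≫ ψ) = (hom φ).comp (hom ψ)
  hom_map : ∀ {S T : Table} (f : S ⟶ T), hom (E.i.map f) = cylOfTable E f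

theorem nonempty_cylSys (C : Coherator) : Nonempty (CylSys C.C) := by
  obtain ⟨G, hG, hGp⟩ := Glob.exists_section (cylDisplayed_lifts C.C)
  have hob : ∀ T, G.obj (C.C.i.obj T) = (cylOb C.C).obj T :=
    CategoryTheory.Functor.congr_obj hG
  let m : ∀ {S T : Table}, C.C.M S T → ((cylOb C.C).obj S ⟶ (cylOb C.C).obj T) :=
    fun {S T} φ => Glob.recast (hob S).symm (hob T) (G.map φ)
  refine ⟨⟨fun {S T} φ => m φ, fun {S T} φ => ?_, fun T => ?_, fun {R S T} φ ψ => ?_,
    fun {S T} f => ?_⟩⟩
  · show (cylDisplayed C.C).proj.map (m φ) = φ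
    refine eq_of_heq ((Glob.heq_map_of_heq (cylDisplayed C.C).proj (hob S).symm (hob T).symm
      (Glob.recast_heq _ _ (G.map φ))).trans ?_)
    exact Glob.heq_map_functor hGp φ
  · show Glob.recast (hob T).symm (hob T) (G.map (𝟙 _)) = 𝟙 ((cylOb C.C).obj T)
    rw [G.map_id]
    exact recast_id (A := (cylDisplayed C.C).K) (hob T).symm
  · show Glob.recast (hob R).symm (hob T) (G.map (φ ≫ ψ)) =
      Glob.recast (hob R).symm (hob S) (G.map φ) ≫ Glob.recast (hob S).symm (hob T) (G.map ψ)
    rw [G.map_comp]
    exact recast_comp (A := (cylDisplayed C.C).K) (hob R).symm (hob S).symm (hob T) _ _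
  · show Glob.recast (hob S).symm (hob T) (G.map (C.C.i.map f)) = (cylOb C.C).map f
    exact eq_of_heq ((Glob.recast_heq _ _ _).trans (Glob.heq_map_functor hG f))

end

end Vale.Agent.P259.Free
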