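import Vale.Agent.P259.Free.ConeExact
import Mathlib.CategoryTheory.Groupoid

/-!
# P259, module D: gauges on cones and zigzag contractible posets

Arrows for the edges of an ordered complex, composing on the triangles, admit a gauge when the
complex is a cone, or the chains of a zigzag contractible poset.
-/

namespace Vale.Agent.P259.Free

open CategoryTheory

noncomputable section

variable {G : Type} [Groupoid.{0} G]

/-- Arrows on the edges of an ordered complex, composing on triangles. -/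
structure EdgeArrows (G : Type) [Groupoid.{0} G] (Q : OCx) : Type 1 where
  o : Q.Simp 0 → G
  e : ∀ a b : Q.Simp 0, Q.mem ![a.1 0, b.1 0] → (o b ⟶ o a)
  tri : ∀ (a b c : Q.Simp 0) (h01 : Q.mem ![a.1 0, b.1 0]) (h12 : Q.mem ![b.1 0, c.1 0])
    (h02 : Q.mem ![a.1 0, c.1 0]), Q.mem ![a.1 0, b.1 0, c.1 0] →
      e b c h12 ≫ e a b h01 = e a c h02

theorem simp_zero_ext {Q : OCx} {a b : Q.Simp 0} (h : a.1 0 = b.1 0) : a = b :=
  Subtype.ext (funext fun i => by rw [Subsingleton.elim (α := Fin 1) i 0]; exact h)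

theorem strictMono_pair {P : Type} [PartialOrder P] {a b : P} (h : a < b) : StrictMono ![a, b] :=
  Fin.strictMono_iff_lt_succ.2 fun i => by fin_cases i; exact h

theorem strictMono_triple {P : Type} [PartialOrder P] {a b c : P} (h : a < b) (h' : b < c) :
    StrictMono ![a, b, c] :=
  Fin.strictMono_iff_lt_succ.2 fun i => by
    fin_cases i
    · exact h
    · exact h'

theorem lt_of_mem_pair {Q : OCx} {a b : Q.V} (h : Q.mem ![a, b]) : a < b :=
  Q.strictMono h (show (0 : Fin 2) < 1 by decide)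

/-- The vertices of a simplex are comparable. -/
theorem simp_comparable {Q : OCx} {l : ℕ} (w : Q.Simp l) {a b : Q.V} (ha : a ∈ Set.range w.1)
    (hb : b ∈ Set.range w.1) (hne : a ≠ b) : a < b ∨ b < a := by
  obtain ⟨i, rfl⟩ := ha
  obtain ⟨k, rfl⟩ := hb
  rcases lt_trichotomy i k with h | h | h
  · exact Or.inl (Q.strictMono w.2 h)
  · exact absurd (congrArg w.1 h) hne
  · exact Or.inr (Q.strictMono w.2 h)

/-- **Gauges of cones.** -/
theorem exists_gauge_cone {Q : OCx} (D : EdgeArrows G Q) (j₀ : Q.Simp 0)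
    (hQ : Q.IsCone (j₀.1 0)) :
    ∃ U : ∀ a, D.o j₀ ⟶ D.o a, ∀ a b h, U b ≫ D.e a b h = U a := by
  classical
  let j := j₀.1 0
  have hpair : ∀ a : Q.Simp 0, a.1 0 ≠ j → Q.mem ![j, a.1 0] ∨ Q.mem ![a.1 0, j] := by
    intro a ha
    obtain ⟨l, w, hw⟩ := hQ a
    have h1 : j ∈ Set.range w.1 := hw ▸ Set.mem_insert _ _
    have h2 : a.1 0 ∈ Set.range w.1 := hw ▸ Set.mem_insert_of_mem _ ⟨0, rfl⟩
    rcases simp_comparable w h2 h1 ha with h | h
    · refine Or.inr (ok_of_range w _ (strictMono_pair h) fun i => ?_)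
      fin_cases i
      · exact h2
      · exact h1
    · refine Or.inl (ok_of_range w _ (strictMono_pair h) fun i => ?_)
      fin_cases i
      · exact h1
      · exact h2
  let U : ∀ a, D.o j₀ ⟶ D.o a := fun a =>
    if h : a.1 0 = j then eqToHom (congrArg D.o (simp_zero_ext (a := j₀) (b := a) h.symm))
    else if h1 : Q.mem ![j, a.1 0] then inv (D.e j₀ a h1)
    else D.e a j₀ ((hpair a h).resolve_left h1)
  have hlo : ∀ a (h1 : Q.mem ![j, a.1 0]), U a = inv (D.e j₀ a h1) := fun a h1 => by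
    have hne : ¬ a.1 0 = j := (lt_of_mem_pair h1).ne'
    simp only [U, dif_neg hne, dif_pos h1]
  have hhi : ∀ a (h1 : Q.mem ![a.1 0, j]), U a = D.e a j₀ h1 := fun a h1 => by
    have hne : ¬ a.1 0 = j := (lt_of_mem_pair h1).ne
    have h2 : ¬ Q.mem ![j, a.1 0] := fun h => lt_asymm (lt_of_mem_pair h) (lt_of_mem_pair h1)
    simp only [U, dif_neg hne, dif_neg h2]
  have hj : U j₀ = 𝟙 _ := dif_pos rfl
  refine ⟨U, fun a b hab => ?_⟩
  by_cases ha : a.1 0 = j
  · obtain rfl : a = j₀ := simp_zero_ext ha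
    rw [hlo b hab, hj]
    exact IsIso.inv_hom_id _
  by_cases hb : b.1 0 = j
  · obtain rfl : b = j₀ := simp_zero_ext hb
    rw [hhi a hab, hj]
    exact Category.id_comp _
  obtain ⟨l, w, hw⟩ := hQ (⟨![a.1 0, b.1 0], hab⟩ : Q.Simp 1)
  have hmj : j ∈ Set.range w.1 := hw ▸ Set.mem_insert _ _
  have hma : a.1 0 ∈ Set.range w.1 := hw ▸ Set.mem_insert_of_mem _ ⟨0, rfl⟩
  have hmb : b.1 0 ∈ Set.range w.1 := hw ▸ Set.mem_insert_of_mem _ ⟨1, rfl⟩
  have hlt : a.1 0 < b.1 0 := lt_of_mem_pair hab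
  have mk2 : ∀ {x y : Q.V}, x < y → x ∈ Set.range w.1 → y ∈ Set.range w.1 → Q.mem ![x, y] := by
    intro x y h hx hy
    refine ok_of_range w _ (strictMono_pair h) fun i => ?_
    fin_cases i
    · exact hx
    · exact hy
  have mk3 : ∀ {x y z : Q.V}, x < y → y < z → x ∈ Set.range w.1 → y ∈ Set.range w.1 →
      z ∈ Set.range w.1 → Q.mem ![x, y, z] := by
    intro x y z h h' hx hy hz
    refine ok_of_range w _ (strictMono_triple h h') fun i => ?_
    fin_cases i
    · exact hx
    · exact hy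
    · exact hz
  rcases simp_comparable w hma hmj ha with h | h
  · rcases simp_comparable w hmb hmj hb with h' | h'
    · rw [hhi a (mk2 h hma hmj), hhi b (mk2 h' hmb hmj)]
      exact D.tri a b j₀ hab _ _ (mk3 hlt h' hma hmb hmj)
    · rw [hhi a (mk2 h hma hmj), hlo b (mk2 h' hmj hmb), IsIso.inv_comp_eq]
      exact (D.tri a j₀ b _ _ hab (mk3 h h' hma hmj hmb)).symm
  · have h' : j < b.1 0 := h.trans hlt
    rw [hlo a (mk2 h hmj hma), hlo b (mk2 h' hmj hmb), IsIso.inv_comp_eq, IsIso.eq_comp_inv]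
    exact D.tri j₀ a b _ hab _ (mk3 h hlt hmj hma hmb)

section Zig

variable {P : Type} [PartialOrder P] (D : EdgeArrows G (OCx.chains P))

/-- A vertex of the order complex. -/
def pv (a : P) : (OCx.chains P).Simp 0 :=
  ⟨fun _ => a, fun i k h => absurd h (by rw [Subsingleton.elim (α := Fin 1) i k]; exact lt_irrefl _)⟩

open Classical in
/-- The arrow of comparable elements. -/
def le_arr (a b : P) (h : a ≤ b) : D.o (pv b) ⟶ D.o (pv a) :=
  if he : a = b then eqToHom (congrArg (fun x => D.o (pv x)) he.symm)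
  else D.e (pv a) (pv b) (strictMono_pair (lt_of_le_of_ne h he))

theorem le_arr_self (a : P) (h : a ≤ a) : le_arr D a a h = 𝟙 _ := dif_pos rfl

theorem le_arr_lt {a b : P} (h : a < b) :
    le_arr D a b h.le = D.e (pv a) (pv b) (strictMono_pair h) := dif_neg h.ne

theorem le_arr_comp {a b c : P} (h : a ≤ b) (h' : b ≤ c) :
    le_arr D b c h' ≫ le_arr D a b h = le_arr D a c (h.trans h') := by
  rcases eq_or_lt_of_le h with rfl | h1
  · rw [le_arr_self, Category.comp_id]
  rcases eq_or_lt_of_le h' with rfl | h2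
  · rw [le_arr_self, Category.id_comp]
  rw [le_arr_lt D h1, le_arr_lt D h2, le_arr_lt D (h1.trans h2)]
  exact D.tri _ _ _ _ _ _ (strictMono_triple h1 h2)

/-- Monotone maps with naturally isomorphic families of arrows. -/
def NatRel (f g : P →o P) : Prop :=
  ∃ t : ∀ a, D.o (pv (g a)) ⟶ D.o (pv (f a)), ∀ a b (h : a ≤ b),
    le_arr D (g a) (g b) (g.monotone h) ≫ t a = t b ≫ le_arr D (f a) (f b) (f.monotone h)

theorem natRel_of_eqvGen {f g : P →o P} (h : Relation.EqvGen (fun f g : P →o P => f ≤ g) f g) :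
    NatRel D f g := by
  induction h with
  | rel f g h =>
      exact ⟨fun a => le_arr D (f a) (g a) (h a), fun a b hab => by
        rw [le_arr_comp, le_arr_comp]⟩
  | refl f => exact ⟨fun a => 𝟙 _, fun a b _ => (Category.comp_id _).trans (Category.id_comp _).symm⟩
  | symm f g _ ih =>
      obtain ⟨t, ht⟩ := ih
      exact ⟨fun a => inv (t a), fun a b hab => by
        rw [IsIso.comp_inv_eq, Category.assoc, ht a b hab, IsIso.inv_hom_id_assoc]⟩
  | trans f g k _ _ ih ih' =>
      obtain ⟨t, ht⟩ := ih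
      obtain ⟨t', ht'⟩ := ih'
      exact ⟨fun a => t' a ≫ t a, fun a b hab => by
        rw [← Category.assoc, ht' a b hab, Category.assoc, ht a b hab, Category.assoc]⟩

/-- **Gauges of zigzag contractible posets.** -/
theorem exists_gauge_zig (hP : OCx.IsZig P) :
    ∃ (p : P) (U : ∀ a, D.o (pv p) ⟶ D.o a), ∀ a b h, U b ≫ D.e a b h = U a := by
  obtain ⟨p, hp⟩ := hP
  obtain ⟨t, ht⟩ := natRel_of_eqvGen D hp
  have hv : ∀ a : (OCx.chains P).Simp 0, pv (a.1 0 : P) = a := fun a => simp_zero_ext rfl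
  refine ⟨p, fun a => t (a.1 0 : P) ≫ eqToHom (congrArg D.o (hv a)), fun a b h => ?_⟩
  have hlt : (a.1 0 : P) < b.1 0 := lt_of_mem_pair h
  have key : ∀ (a' b' : (OCx.chains P).Simp 0) (qa : a' = a) (qb : b' = b)
      (h' : (OCx.chains P).mem ![a'.1 0, b'.1 0]),
      eqToHom (congrArg D.o qb) ≫ D.e a b h = D.e a' b' h' ≫ eqToHom (congrArg D.o qa) := by
    intro a' b' qa qb h'
    subst qa qb
    simp
  refine (Category.assoc _ _ _).trans ((congrArg (t (b.1 0 : P) ≫ ·)
    (key (pv (a.1 0 : P)) (pv (b.1 0 : P)) (hv a) (hv b) (strictMono_pair hlt))).trans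
      ((Category.assoc _ _ _).symm.trans (congrArg (· ≫ _) ?_)))
  have h2 : le_arr D ((OrderHom.const P p) (a.1 0 : P)) ((OrderHom.const P p) (b.1 0 : P))
      ((OrderHom.const P p).monotone hlt.le) = 𝟙 _ := le_arr_self D p le_rfl
  have h1 := ((Category.id_comp _).symm.trans (congrArg (· ≫ t (a.1 0 : P)) h2.symm)).trans
    (ht (a.1 0 : P) (b.1 0 : P) hlt.le)
  refine Eq.trans ?_ h1.symm
  exact congrArg (t (b.1 0 : P) ≫ ·) (le_arr_lt D hlt).symm

end Zig

end

end Vale.Agent.P259.Free
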