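import Vale.Agent.P259.Free.Cellular

/-!
# P259, module D: the augmented chain complex of a globular set

Index `0` is the augmentation, index `k + 1` the cells of dimension `k`.
-/

universe u

namespace Vale.Agent.P259.Free

open Vale.Agent.P259.Cat

variable (G : ℕ → Type u) (s t : ∀ n, G (n + 1) → G n)

/-- The generators. -/
abbrev globGen : ℕ → Type u
  | 0 => PUnit
  | n + 1 => G n

/-- The boundary: the augmentation, then target minus source. -/
noncomputable def globBdy : ∀ n, globGen G (n + 1) → (globGen G n →₀ ℤ)
  | 0 => fun _ => Finsupp.single PUnit.unit 1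
  | n + 1 => fun c => @Finsupp.single (G n) ℤ _ (t n c) 1 - @Finsupp.single (G n) ℤ _ (s n c) 1

theorem lin_sub {σ : Type u} {M : Type*} [AddCommGroup M] (f : σ → M) (a b : σ) :
    lin f (Finsupp.single a 1 - Finsupp.single b 1) = f a - f b := by
  simp [lin_single]

/-- The complex of cells of a globular set. -/
noncomputable def globCells (hs : ∀ n c, s n (s (n + 1) c) = s n (t (n + 1) c))
    (ht : ∀ n c, t n (s (n + 1) c) = t n (t (n + 1) c)) : Cells.{u} where
  σ := globGen G
  bdy := globBdy G s t
  bdd n c := by
    cases n with
    | zero =>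
        refine (lin_sub (globBdy G s t 0) (t 0 c) (s 0 c)).trans ?_
        exact sub_self _
    | succ n =>
        refine (lin_sub (globBdy G s t (n + 1)) (t (n + 1) c) (s (n + 1) c)).trans ?_
        show (Finsupp.single (t n (t (n + 1) c)) 1 - Finsupp.single (s n (t (n + 1) c)) 1 :
          G n →₀ ℤ) - (Finsupp.single (t n (s (n + 1) c)) 1 -
            Finsupp.single (s n (s (n + 1) c)) 1) = 0
        rw [hs, ht, sub_self]

end Vale.Agent.P259.Free
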