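import Vale.Agent.P259.Free.TableCells

/-!
# P259, module D: the complex of a globular sum is exact

An explicit contraction to the first source vertex, defined position by position.
-/

namespace Vale.Agent.P259.Free

open CategoryTheory Opposite
open Vale.Agent.P259.Cat

noncomputable section

variable {T : Table}

/-- Values on the maps into a globe. -/
abbrev Vals (T : Table) (i : ℕ) : Type :=
  ∀ k, ((⟨k⟩ : Globe) ⟶ ⟨i⟩) → (Ab T).X (k + 1 + 1)

/-- The source side in dimension `k + 1`, or the top. -/
def nextArr {k i : ℕ} (h : k < i) : (⟨k + 1⟩ : Globe) ⟶ ⟨i⟩ :=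
  if e : k + 1 = i then ⟨none, e⟩ else Globe.face false (Nat.lt_of_le_of_ne h e)

theorem face_nextArr (e : Bool) {k i : ℕ} (h : k < i) :
    Globe.face e k.lt_succ_self ≫ nextArr h = Globe.face e h := by
  unfold nextArr
  split <;> rfl

/-- Extension of values from the source side `j` of position `p`. -/
def stepVals (p : Fin (T.len + 1)) (j : ℕ) (prev : Vals T j) : Vals T (T.top p) := fun k g =>
  match g with
  | ⟨none, _⟩ => 0
  | ⟨some e, hk⟩ =>
    if h : k < j then prev k (Globe.face e h)
    else (if h' : k = j then prev k ⟨none, h'⟩ else 0) +
      (if e then abCell (TCell.mk T p (nextArr hk)) else 0)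

/-- The first vertex. -/
def baseArr (i : ℕ) : (⟨0⟩ : Globe) ⟶ ⟨i⟩ :=
  if e : 0 = i then ⟨none, e⟩ else Globe.face false (Nat.pos_of_ne_zero fun h => e h.symm)

/-- The base cell. -/
def baseVtx (T : Table) : TCell T 0 := TCell.mk T 0 (baseArr _)

/-- The contraction identity at the cell `ι g` with values `H`. -/
def Good (T : Table) {i : ℕ} (ι : ∀ k, ((⟨k⟩ : Globe) ⟶ ⟨i⟩) → TCell T k) (H : Vals T i) :
    ∀ k, ((⟨k⟩ : Globe) ⟶ ⟨i⟩) → Prop
  | 0, g => (Ab T).d 1 (H 0 g) = abCell (ι 0 g) - abCell (baseVtx T)
  | k + 1, g => (Ab T).d (k + 1 + 1) (H (k + 1) g) + (H k (Globe.face true k.lt_succ_self ≫ g) -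
      H k (Globe.face false k.lt_succ_self ≫ g)) = abCell (ι (k + 1) g)

theorem d_next (p : Fin (T.len + 1)) {k : ℕ} (h : k < T.top p) :
    (Ab T).d (k + 1) (abCell (TCell.mk T p (nextArr h))) =
      abCell (TCell.mk T p (Globe.face true h)) - abCell (TCell.mk T p (Globe.face false h)) := by
  rw [d_abCell, TCell.face_mk, TCell.face_mk, face_nextArr, face_nextArr]

theorem mk_below_eq (p : Fin (T.len + 1)) (e : Bool) {k j : ℕ} (hk : k < j) (hj : j < T.top p) :
    TCell.mk T p (Globe.face e (hk.trans hj)) =
      TCell.mk T p (Globe.face e hk ≫ Globe.face false hj) := rfl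

theorem mk_at_eq (p : Fin (T.len + 1)) {k j : ℕ} (hk : k = j) (hj : j < T.top p) :
    TCell.mk T p (Globe.face false (hk.trans_lt hj)) =
      TCell.mk T p ((⟨none, hk⟩ : (⟨k⟩ : Globe) ⟶ ⟨j⟩) ≫ Globe.face false hj) := rfl

theorem stepVals_lt (p : Fin (T.len + 1)) {j : ℕ} (prev : Vals T j) (e : Bool) {k : ℕ} (h : k < j)
    (hk : k < T.top p) : stepVals p j prev k (Globe.face e hk) = prev k (Globe.face e h) :=
  dif_pos h

theorem stepVals_eq (p : Fin (T.len + 1)) {j : ℕ} (prev : Vals T j) (e : Bool) {k : ℕ} (h : k = j)
    (hk : k < T.top p) : stepVals p j prev k (Globe.face e hk) = prev k ⟨none, h⟩ +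
      (if e then abCell (TCell.mk T p (nextArr hk)) else 0) := by
  refine (dif_neg (by omega)).trans ?_
  rw [dif_pos h]

theorem stepVals_gt (p : Fin (T.len + 1)) {j : ℕ} (prev : Vals T j) (e : Bool) {k : ℕ} (h : j < k)
    (hk : k < T.top p) : stepVals p j prev k (Globe.face e hk) =
      (if e then abCell (TCell.mk T p (nextArr hk)) else 0) := by
  refine (dif_neg (by omega)).trans ?_
  rw [dif_neg (by omega), zero_add]

theorem stepVals_none (p : Fin (T.len + 1)) {j : ℕ} (prev : Vals T j) {k : ℕ} (h : k = T.top p) :
    stepVals p j prev k ⟨none, h⟩ = 0 := rfl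

theorem good_step (p : Fin (T.len + 1)) {j : ℕ} (hj : j < T.top p) (prev : Vals T j)
    (hprev : ∀ k g, Good T (fun _ g => TCell.mk T p (g ≫ Globe.face false hj)) prev k g)
    (k : ℕ) (g : (⟨k⟩ : Globe) ⟶ ⟨T.top p⟩) :
    Good T (fun _ g => TCell.mk T p g) (stepVals p j prev) k g := by
  obtain ⟨o, ho⟩ := g
  cases o with
  | none =>
      cases k with
      | zero => exact absurd ho (by show ¬ (0 = T.top p); omega)
      | succ k =>
          have hk : k < T.top p := (Nat.lt_succ_self k).trans_eq ho
          show (Ab T).d (k + 1 + 1) 0 + (stepVals p j prev k (Globe.face true hk) -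
            stepVals p j prev k (Globe.face false hk)) = _
          have hn : nextArr hk = ⟨none, ho⟩ := dif_pos ho
          rw [map_zero, zero_add]
          have hjk : j ≤ k := by
            have h1 : k + 1 = T.top p := ho
            omega
          rcases Nat.lt_or_eq_of_le hjk with h | h
          · rw [stepVals_gt p prev _ h, stepVals_gt p prev _ h, hn]
            simp
          · rw [stepVals_eq p prev _ h.symm, stepVals_eq p prev _ h.symm, hn]
            simp
  | some e =>
      have hk : k < T.top p := ho
      rcases Nat.lt_trichotomy k j with h | h | h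
      · have hp := hprev k (Globe.face e h)
        cases k with
        | zero =>
            show (Ab T).d 1 (stepVals p j prev 0 (Globe.face e hk)) = _
            rw [stepVals_lt p prev e h]
            exact hp
        | succ k =>
            show (Ab T).d (k + 1 + 1) (stepVals p j prev (k + 1) (Globe.face e hk)) +
              (stepVals p j prev k (Globe.face true ((Nat.lt_succ_self k).trans hk)) -
                stepVals p j prev k (Globe.face false ((Nat.lt_succ_self k).trans hk))) = _
            rw [stepVals_lt p prev e h, stepVals_lt p prev true ((Nat.lt_succ_self k).trans h),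
              stepVals_lt p prev false ((Nat.lt_succ_self k).trans h)]
            exact hp
      · have hp := hprev k ⟨none, h⟩
        cases k with
        | zero =>
            show (Ab T).d 1 (stepVals p j prev 0 (Globe.face e hk)) = _
            rw [stepVals_eq p prev e h, map_add]
            rw [show (Ab T).d 1 (prev 0 ⟨none, h⟩) =
              abCell (TCell.mk T p (Globe.face false hk)) - abCell (baseVtx T) from hp]
            cases e
            · simp
              rfl
            · rw [if_pos rfl, d_next]
              show _ = abCell (TCell.mk T p (Globe.face true hk)) - _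
              abel
        | succ k =>
            show (Ab T).d (k + 1 + 1) (stepVals p j prev (k + 1) (Globe.face e hk)) +
              (stepVals p j prev k (Globe.face true ((Nat.lt_succ_self k).trans hk)) -
                stepVals p j prev k (Globe.face false ((Nat.lt_succ_self k).trans hk))) =
              abCell (TCell.mk T p (Globe.face e hk))
            have hkj : k < j := (Nat.lt_succ_self k).trans_eq h
            rw [stepVals_eq p prev e h, stepVals_lt p prev true hkj, stepVals_lt p prev false hkj,
              map_add]
            have hp' : (Ab T).d (k + 1 + 1) (prev (k + 1) ⟨none, h⟩) +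
                (prev k (Globe.face true hkj) - prev k (Globe.face false hkj)) =
                abCell (TCell.mk T p (Globe.face false hk)) := hp
            cases e
            · simp only [Bool.false_eq_true, if_false, map_zero, add_zero]
              exact hp'
            · rw [if_pos rfl, d_next]
              exact (add_right_comm _ _ _).trans
                ((congrArg (· + _) hp').trans (add_sub_cancel _ _))
      · cases k with
        | zero => exact absurd h (Nat.not_lt_zero j)
        | succ k =>
            show (Ab T).d (k + 1 + 1) (stepVals p j prev (k + 1) (Globe.face e hk)) +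
              (stepVals p j prev k (Globe.face true ((Nat.lt_succ_self k).trans hk)) -
                stepVals p j prev k (Globe.face false ((Nat.lt_succ_self k).trans hk))) =
              abCell (TCell.mk T p (Globe.face e hk))
            have hk' := (Nat.lt_succ_self k).trans hk
            have hd : stepVals p j prev k (Globe.face true hk') -
                stepVals p j prev k (Globe.face false hk') =
                abCell (TCell.mk T p (nextArr hk')) := by
              rcases Nat.lt_or_eq_of_le (Nat.le_of_lt_succ h) with h' | h'
              · rw [stepVals_gt p prev _ h', stepVals_gt p prev _ h']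
                simp
              · rw [stepVals_eq p prev _ h'.symm, stepVals_eq p prev _ h'.symm]
                simp
            have hn : nextArr hk' = Globe.face false hk :=
              dif_neg (fun he => absurd he hk.ne)
            rw [stepVals_gt p prev e h, hd, hn]
            cases e
            · simp
            · rw [if_pos rfl, d_next]
              abel

/-- The contraction, position by position. -/
def hVals (T : Table) : ∀ p, Vals T (T.top p) :=
  Fin.induction (stepVals 0 0 fun _ _ => 0) fun p prev =>
    stepVals p.succ (T.bot p) fun k g => prev k (g ≫ Globe.face true (T.lt_left p))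

theorem hVals_zero (T : Table) : hVals T 0 = stepVals 0 0 fun _ _ => 0 :=
  Fin.induction_zero _ _

theorem hVals_succ (T : Table) (p : Fin T.len) : hVals T p.succ =
    stepVals p.succ (T.bot p) fun k g => hVals T p.castSucc k (g ≫ Globe.face true (T.lt_left p)) :=
  Fin.induction_succ _ _ _

theorem good_hVals (T : Table) : ∀ p k g,
    Good T (fun _ g => TCell.mk T p g) (hVals T p) k g := by
  intro p
  induction p using Fin.induction with
  | zero =>
      intro k g
      rw [hVals_zero]
      rcases Nat.eq_zero_or_pos (T.top 0) with h0 | h0
      · obtain ⟨o, ho⟩ := g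
        cases o with
        | some e => exact absurd (show k < T.top 0 from ho) (by omega)
        | none =>
            have hk : k = 0 := (show k = T.top 0 from ho).trans h0
            subst hk
            have hb : baseArr (T.top 0) = ⟨none, ho⟩ := dif_pos ho
            show (Ab T).d 1 0 = abCell (TCell.mk T 0 ⟨none, ho⟩) - abCell (baseVtx T)
            rw [baseVtx, hb, sub_self, map_zero]
      · refine good_step 0 h0 (fun _ _ => 0) (fun k g => ?_) k g
        obtain ⟨o, ho⟩ := g
        cases o with
        | some e => exact absurd (show k < 0 from ho) (Nat.not_lt_zero k)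
        | none =>
            have hk : k = 0 := ho
            subst hk
            show (Ab T).d 1 0 = _ - abCell (baseVtx T)
            have hb : baseArr (T.top 0) = Globe.face false h0 := dif_neg (by omega)
            rw [baseVtx, hb, map_zero]
            exact (sub_self _).symm
  | succ p ih =>
      intro k g
      rw [hVals_succ]
      refine good_step p.succ (T.lt_right p) _ (fun k g => ?_) k g
      have hs : ∀ k (g : (⟨k⟩ : Globe) ⟶ ⟨T.bot p⟩),
          TCell.mk T p.succ (g ≫ Globe.face false (T.lt_right p)) =
            TCell.mk T p.castSucc (g ≫ Globe.face true (T.lt_left p)) := fun k g =>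
        (Quot.sound (Table.Rel.glue p g)).symm
      cases k with
      | zero =>
          refine Eq.trans ?_ (congrArg (fun c => abCell c - abCell (baseVtx T)) (hs 0 g)).symm
          exact ih 0 (g ≫ Globe.face true (T.lt_left p))
      | succ k =>
          show (Ab T).d (k + 1 + 1) (hVals T p.castSucc (k + 1) (g ≫ _)) +
            (hVals T p.castSucc k ((Globe.face true _ ≫ g) ≫ _) -
              hVals T p.castSucc k ((Globe.face false _ ≫ g) ≫ _)) = abCell _
          refine Eq.trans ?_ (congrArg abCell (hs (k + 1) g)).symm
          rw [Category.assoc, Category.assoc]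
          exact ih (k + 1) (g ≫ Globe.face true (T.lt_left p))

theorem hVals_glue (T : Table) (p : Fin T.len) {k : ℕ} (g : (⟨k⟩ : Globe) ⟶ ⟨T.bot p⟩) :
    hVals T p.castSucc k (g ≫ Globe.face true (T.lt_left p)) =
      hVals T p.succ k (g ≫ Globe.face false (T.lt_right p)) := by
  obtain ⟨o, ho⟩ := g
  cases o with
  | none =>
      have h : k = T.bot p := ho
      refine Eq.symm ?_
      rw [hVals_succ]
      show stepVals p.succ (T.bot p) _ k (Globe.face false (h.trans_lt (T.lt_right p))) = _
      rw [stepVals_eq _ _ _ h]
      simp
  | some e =>
      have h : k < T.bot p := ho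
      refine Eq.symm ?_
      rw [hVals_succ]
      show stepVals p.succ (T.bot p) _ k (Globe.face e (h.trans (T.lt_right p))) = _
      rw [stepVals_lt _ _ _ h]
      rfl

/-- The contraction on all cells. -/
def hCell (T : Table) {k : ℕ} : TCell T k → (Ab T).X (k + 1 + 1) :=
  cellLift (fun p g => hVals T p k g) fun p g => hVals_glue T p g

/-- The contraction, linearly. -/
def hLin (T : Table) : ∀ n, (Ab T).X n →+ (Ab T).X (n + 1)
  | 0 => lin fun _ => abCell (baseVtx T)
  | k + 1 => lin fun c => hCell T c

theorem d_hLin (T : Table) (n : ℕ) (x : (Ab T).X (n + 1)) :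
    (Ab T).d (n + 1) (hLin T (n + 1) x) + hLin T n ((Ab T).d n x) = x := by
  refine hom_ext (f := ((Ab T).d (n + 1)).comp (hLin T (n + 1)) + (hLin T n).comp ((Ab T).d n))
    (g := AddMonoidHom.id _) ?_ x
  intro c
  have hc : hLin T (n + 1) (abCell c) = hCell T c := (lin_single _ _ _).trans (one_smul _ _)
  show (Ab T).d (n + 1) (hLin T (n + 1) (abCell c)) + hLin T n ((Ab T).d n (abCell c)) = abCell c
  rw [hc]
  obtain ⟨p, g, rfl⟩ := TCell.exists_mk c
  cases n with
  | zero =>
      rw [d_abCell_zero, show hLin T 0 (abE T) = abCell (baseVtx T) from
        (lin_single _ _ _).trans (one_smul _ _)]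
      show (Ab T).d 1 (hVals T p 0 g) + _ = _
      rw [show (Ab T).d 1 (hVals T p 0 g) = _ from good_hVals T p 0 g]
      exact sub_add_cancel _ _
  | succ k =>
      rw [d_abCell, map_sub,
        show hLin T (k + 1) (abCell (TCell.face true (TCell.mk T p g))) = hCell T _ from
          (lin_single _ _ _).trans (one_smul _ _),
        show hLin T (k + 1) (abCell (TCell.face false (TCell.mk T p g))) = hCell T _ from
          (lin_single _ _ _).trans (one_smul _ _)]
      exact good_hVals T p (k + 1) g

/-- **Exactness**: the complex of a globular sum is acyclic. -/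
theorem ab_exact (T : Table) (n : ℕ) : (Ab T).Exact n := by
  intro x hx
  cases n with
  | zero =>
      refine ⟨hLin T 0 x, ?_⟩
      refine hom_ext (f := ((Ab T).d 0).comp (hLin T 0)) (g := AddMonoidHom.id _) ?_ x
      intro c
      show (Ab T).d 0 (hLin T 0 (Finsupp.single c 1)) = _
      rw [show hLin T 0 (Finsupp.single c 1) = abCell (baseVtx T) from
        (lin_single _ _ _).trans (one_smul _ _), d_abCell_zero]
      cases c
      rfl
  | succ k =>
      refine ⟨hLin T (k + 1) x, ?_⟩
      have h := d_hLin T k x
      rw [show (Ab T).d k x = 0 from hx, map_zero, add_zero] at h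
      exact h

end

end Vale.Agent.P259.Free
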