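import Vale.Agent.P259.Glob.Table
import Vale.Agent.P259.Free.TableExact

/-!
# P259, module D: chains of representables and the comparison with cells
-/

namespace Vale.Agent.P259.Free

open CategoryTheory Opposite
open Vale.Agent.P259.Cat

noncomputable section

/-- Globular sums with the maps of an extension. -/
@[ext]
structure Tb (E : Ext) : Type where
  T : Table

instance Tb.category (E : Ext) : Category (Tb E) where
  Hom S T := E.M S.T T.T
  id S := 𝟙 (E.i.obj S.T)
  comp f g := f ≫ g
  id_comp := Category.id_comp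
  comp_id := Category.comp_id
  assoc := Category.assoc

variable {E : Ext}

/-- A map, in `Tb E`. -/
abbrev tbHom {S T : Table} (φ : E.M S T) : (⟨S⟩ : Tb E) ⟶ ⟨T⟩ := φ

/-- The functor of points of a globular sum. -/
abbrev pts (E : Ext) (T : Table) : Sh (Tb E)ᵒᵖ := hom (op (⟨T⟩ : Tb E))

/-- The chains of a representable. -/
abbrev repCx (E : Ext) (T : Table) : Cx.{0} := chains (pts E T)

/-- The map of chains of representables. -/
def repMap {S T : Table} (φ : E.M S T) : CxHom (repCx E S) (repCx E T) :=
  chainsMap (ShHom.yon (pts E T) (tbHom φ).op)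

theorem repMap_id (T : Table) : repMap (𝟙 (E.i.obj T)) = CxHom.id (repCx E T) := by
  refine cxHom_ext fun n x => ?_
  show mapL (ShHom.yon (pts E T) (𝟙 (op (⟨T⟩ : Tb E)))) n x = x
  rw [ShHom.yon_id, mapL_id]

theorem repMap_comp {R S T : Table} (φ : E.M R S) (ψ : E.M S T) :
    repMap (φ ≫ ψ) = (repMap ψ).comp (repMap φ) := by
  refine cxHom_ext fun n x => ?_
  show mapL (ShHom.yon (pts E T) (tbHom (φ ≫ ψ)).op) n x =
    mapL (ShHom.yon (pts E T) (tbHom ψ).op) n (mapL (ShHom.yon (pts E S) (tbHom φ).op) n x)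
  rw [mapL_mapL, ShHom.comp_yon]
  rfl

/-- The augmentation element. -/
def repE (E : Ext) (T : Table) : (repCx E T).X 0 := Finsupp.single (Seq.nil _) 1

theorem repMap_e {S T : Table} (φ : E.M S T) : (repMap φ).f 0 (repE E S) = repE E T :=
  mapL_single _ _ _ _

theorem repCx_exact (E : Ext) (T : Table) (n : ℕ) : (repCx E T).Exact n :=
  exact_of_univ
    { pt := op (⟨T⟩ : Tb E)
      elt := 𝟙 _
      inv := fun _ x => x
      map_inv := fun _ x => Category.id_comp x
      inv_map := fun f => Category.id_comp f } n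

open Classical in
/-- A chosen primitive. -/
def primitive (K : Cx.{0}) {n : ℕ} (z : K.X n) : K.X (n + 1) :=
  if h : ∃ w, K.d n w = z then h.choose else 0

theorem d_primitive {K : Cx.{0}} {n : ℕ} (hK : K.Exact n) (z : K.X n) (hz : z ∈ K.cyc n) :
    K.d n (primitive K z) = z := by
  have h := hK z hz
  rw [primitive, dif_pos h]
  exact h.choose_spec

/-- The chains of the discs, chosen dimension by dimension. -/
def iotaDisc (E : Ext) : ∀ k, (repCx E (disc k)).X (k + 1)
  | 0 => primitive _ (repE E (disc 0))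
  | k + 1 => primitive _ ((repMap (E.face true k)).f (k + 1) (iotaDisc E k) -
      (repMap (E.face false k)).f (k + 1) (iotaDisc E k))

theorem face_comp_face (E : Ext) (e e' : Bool) (k : ℕ) :
    E.face e k ≫ E.face e' (k + 1) = E.i.map (side e (k.lt_succ_self.trans (k + 1).lt_succ_self)) := by
  rw [← E.i.map_comp, Glob.side_comp]

theorem d_iotaDisc_zero (E : Ext) : (repCx E (disc 0)).d 0 (iotaDisc E 0) = repE E (disc 0) :=
  d_primitive (repCx_exact E _ _) _ (Cx.mem_cyc_zero _ _)

theorem d_iotaDisc (E : Ext) : ∀ k, (repCx E (disc (k + 1))).d (k + 1) (iotaDisc E (k + 1)) =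
    (repMap (E.face true k)).f (k + 1) (iotaDisc E k) -
      (repMap (E.face false k)).f (k + 1) (iotaDisc E k) := by
  intro k
  induction k with
  | zero =>
      refine d_primitive (repCx_exact E _ _) _ ?_
      rw [Cx.mem_cyc_succ, map_sub, ← CxHom.comm, ← CxHom.comm, d_iotaDisc_zero, repMap_e,
        repMap_e, sub_self]
  | succ k ih =>
      refine d_primitive (repCx_exact E _ _) _ ?_
      rw [Cx.mem_cyc_succ, map_sub, ← CxHom.comm, ← CxHom.comm, ih, map_sub, map_sub]
      have key : ∀ (e e' : Bool) (x : (repCx E (disc k)).X (k + 1)),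
          (repMap (E.face e' (k + 1))).f (k + 1) ((repMap (E.face e k)).f (k + 1) x) =
            (repMap (E.i.map (side e (k.lt_succ_self.trans (k + 1).lt_succ_self)))).f (k + 1) x :=
        fun e e' x => by
          rw [← face_comp_face E e e' k, repMap_comp]
          rfl
      rw [key, key, key, key, sub_self]

theorem ofCell_face {T : Table} (e : Bool) {k : ℕ} (c : TCell T (k + 1)) :
    Glob.ofCell T (TCell.face e c) = side e k.lt_succ_self ≫ Glob.ofCell T c := by
  refine Glob.disc_hom_ext ?_
  rw [Glob.ofCell_topCell]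
  refine Eq.symm ?_
  show TCell.map (Glob.ofCell T c) (TCell.map (side e _) (TCell.top k)) = _
  rw [TCell.map_side_top, ← TCell.face_top, TCell.map_face]
  exact congrArg (TCell.face e) (Glob.ofCell_topCell T c)

theorem ofCell_map {S T : Table} (f : S ⟶ T) {k : ℕ} (c : TCell S k) :
    Glob.ofCell T (TCell.map f c) = Glob.ofCell S c ≫ f := by
  refine Glob.disc_hom_ext ?_
  rw [Glob.ofCell_topCell]
  exact (congrArg (TCell.map f) (Glob.ofCell_topCell S c)).symm

theorem ofCell_top (k : ℕ) : Glob.ofCell (disc k) (TCell.top k) = 𝟙 (disc k) :=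
  Glob.ofCell_self (𝟙 (disc k))

/-- The comparison on a cell. -/
def iotaCell (E : Ext) (T : Table) (k : ℕ) (c : TCell T k) : (repCx E T).X (k + 1) :=
  (repMap (E.i.map (Glob.ofCell T c))).f (k + 1) (iotaDisc E k)

theorem d_iotaCell (E : Ext) (T : Table) (k : ℕ) (c : TCell T (k + 1)) :
    (repCx E T).d (k + 1) (iotaCell E T (k + 1) c) =
      iotaCell E T k (TCell.face true c) - iotaCell E T k (TCell.face false c) := by
  rw [iotaCell, ← CxHom.comm, d_iotaDisc, map_sub]
  simp only [iotaCell, ofCell_face, E.i.map_comp, repMap_comp]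
  rfl

/-- The comparison of cells with chains of the representable. -/
def iota (E : Ext) (T : Table) : CxHom (Ab T) (repCx E T) :=
  abHom (repE E T) (iotaCell E T)
    (fun c => by rw [iotaCell, ← CxHom.comm, d_iotaDisc_zero, repMap_e])
    (d_iotaCell E T)

theorem iota_e (T : Table) : (iota E T).f 0 (abE T) = repE E T := abHom_e _ _ _ _

theorem iota_cell (T : Table) {k : ℕ} (c : TCell T k) :
    (iota E T).f (k + 1) (abCell c) = iotaCell E T k c := abHom_cell _ _ _ _ _ _

theorem iota_nat {S T : Table} (f : S ⟶ T) :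
    (repMap (E.i.map f)).comp (iota E S) = (iota E T).comp (abMap f) := by
  refine ab_ext ?_ fun k c => ?_
  · show (repMap (E.i.map f)).f 0 ((iota E S).f 0 (abE S)) = (iota E T).f 0 ((abMap f).f 0 (abE S))
    rw [iota_e, abMap_e, iota_e, repMap_e]
  · show (repMap (E.i.map f)).f (k + 1) ((iota E S).f (k + 1) (abCell c)) =
      (iota E T).f (k + 1) ((abMap f).f (k + 1) (abCell c))
    rw [iota_cell, abMap_cell, iota_cell, iotaCell, iotaCell, ofCell_map, E.i.map_comp, repMap_comp]
    rfl

theorem iota_top (k : ℕ) : (iota E (disc k)).f (k + 1) (abCell (TCell.top k)) = iotaDisc E k := by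
  rw [iota_cell, iotaCell, ofCell_top, E.i.map_id, repMap_id]
  rfl

end

end Vale.Agent.P259.Free
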