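import Vale.Agent.P259.Free.Tabled
import Vale.Agent.P259.Free.CylSystem

/-!
# P259, module D: the model of maps of cylinders into the chains of a model

An element is a value of the model with an extension of its map of chains to the cylinder,
vanishing on the prism over the augmentation. The projection lifts cells with given sides.
-/

namespace Vale.Agent.P259.Free

open CategoryTheory Opposite
open Vale.Agent.P259.Cat

noncomputable section

variable {E : Ext}

/-- The values of a presheaf, as a functor on globular sums. -/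
def xPsh (E : Ext) (X : E.Psh) : Sh (Tb E)ᵒᵖ where
  obj U := E.at X U.unop.T
  map f x := E.act X f.unop x
  map_id _ x := E.act_id X x
  map_comp f g x := E.act_comp X g.unop f.unop x

/-- The chains of the elements of a presheaf. -/
abbrev xCx (E : Ext) (X : E.Psh) : Cx.{0} := chains (xPsh E X)

/-- The augmentation element. -/
def xE (E : Ext) (X : E.Psh) : (xCx E X).X 0 := Finsupp.single (Seq.nil _) 1

/-- The map of chains of an element. -/
def xMap {X : E.Psh} {T : Table} (x : E.at X T) : CxHom (repCx E T) (xCx E X) :=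
  chainsMap (ShHom.yon (xPsh E X) (a := op (⟨T⟩ : Tb E)) x)

theorem xMap_e {X : E.Psh} {T : Table} (x : E.at X T) : (xMap x).f 0 (repE E T) = xE E X :=
  mapL_single _ _ _ _

theorem xMap_act {X : E.Psh} {R T : Table} (φ : E.M R T) (x : E.at X T) :
    xMap (E.act X φ x) = (xMap x).comp (repMap φ) := by
  refine cxHom_ext fun n z => ?_
  show mapL _ n z = mapL (ShHom.yon (xPsh E X) (a := op (⟨T⟩ : Tb E)) x) n
    (mapL (ShHom.yon (pts E T) (tbHom φ).op) n z)
  rw [mapL_mapL, ShHom.comp_yon]
  rfl

/-- A value with an extension to the cylinder. -/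
@[ext]
structure MVal (E : Ext) (X : E.Psh) (T : Table) : Type where
  x : E.at X T
  G : CxHom (tcyl E T) (xCx E X)
  hover : IsOver (xMap x) 0 G

/-- On the copy of the augmentation, an extension has the augmentation element as value. -/
theorem MVal.base {X : E.Psh} {T : Table} (m : MVal E X T) :
    m.G.f 0 ((cylA (iota E T)).f 0 (abE T)) = xE E X := by
  have h := congrArg ((xCx E X).d 0) m.hover.2
  rw [← m.G.comm, d_cE, map_sub, map_zero,
    show m.G.f 0 ((cylK (iota E T)).f 0 (repE E T)) = (xMap m.x).f 0 (repE E T) from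
      congrArg (fun F => F.f 0 (repE E T)) m.hover.1, xMap_e] at h
  exact sub_eq_zero.1 h

/-- The action of a map. -/
def MVal.act {X : E.Psh} (S : CylSys E) {R T : Table} (φ : E.M R T) (m : MVal E X T) :
    MVal E X R where
  x := E.act X φ m.x
  G := m.G.comp (S.hom φ).P
  hover := by
    refine ⟨?_, ?_⟩
    · rw [comp_assoc, (S.hom φ).hover.1, ← comp_assoc, m.hover.1, S.hom_φ, xMap_act]
    · show m.G.f 1 ((S.hom φ).P.f 1 (cE E R)) = 0
      rw [(S.hom φ).hover.2, m.hover.2]

theorem MVal.act_G_map {X : E.Psh} (S : CylSys E) {R T : Table} (f : R ⟶ T) (m : MVal E X T) :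
    (MVal.act S (E.i.map f) m).G = m.G.comp (cylMap E f) := by
  show m.G.comp (S.hom (E.i.map f)).P = _
  rw [S.hom_map]
  rfl

/-- The model. -/
def mT (S : CylSys E) (X : E.Gpd) : Tabled E where
  obj := MVal E X.obj
  act φ m := m.act S φ
  act_id m := MVal.ext (E.act_id _ _) (by
    show m.G.comp (S.hom _).P = m.G
    rw [S.hom_id]
    rfl)
  act_comp f g m := MVal.ext (E.act_comp _ _ _ _) (by
    show m.G.comp (S.hom _).P = (m.G.comp (S.hom g).P).comp (S.hom f).P
    rw [S.hom_comp]
    rfl)
  glue T c hc := by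
    obtain ⟨x, hx, hxu⟩ := X.property T (fun p => (c p).x) fun p => congrArg MVal.x (hc p)
    obtain ⟨G, hG, hGp⟩ := exists_over_sum (xMap x) 0 (fun p => (c p).G)
      (fun p => by
        rw [← xMap_act, hx p]
        exact (c p).hover)
      (fun p => by rw [← MVal.act_G_map S, ← MVal.act_G_map S, hc p])
    refine ⟨⟨x, G, hG⟩, fun p => MVal.ext (hx p) ((MVal.act_G_map S _ _).trans (hGp p)),
      fun m hm => ?_⟩
    have hxm : m.x = x := hxu _ fun p => congrArg MVal.x (hm p)
    refine MVal.ext hxm (over_ext_sum (φ := xMap x) (h₀ := 0) ?_ hG fun p => ?_)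
    · rw [← hxm]
      exact m.hover
    · rw [hGp p, ← hm p, MVal.act_G_map S]

variable (S : CylSys E) {X : E.Gpd}

/-- The projection. -/
def mProj (S : CylSys E) (X : E.Gpd) : (mT S X).gpd ⟶ X :=
  Tabled.homTo (fun _ m => MVal.x m) fun _ _ => rfl

/-- The extension carried by an element. -/
def mG {T : Table} (z : E.at (mT S X).gpd.obj T) : CxHom (tcyl E T) (xCx E X.obj) :=
  MVal.G ((mT S X).atEquiv T z)

theorem mProj_app {T : Table} (z : E.at (mT S X).gpd.obj T) :
    (mProj S X).hom.app _ z = MVal.x ((mT S X).atEquiv T z) :=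
  Tabled.homTo_app (Y := mT S X) (X := X) (fun _ m => MVal.x m) (fun _ _ => rfl) T z

theorem mG_over {T : Table} (z : E.at (mT S X).gpd.obj T) :
    IsOver (xMap ((mProj S X).hom.app _ z)) 0 (mG S z) := by
  rw [mProj_app]
  exact ((mT S X).atEquiv T z).hover

theorem mG_base {T : Table} (z : E.at (mT S X).gpd.obj T) :
    (mG S z).f 0 ((cylA (iota E T)).f 0 (abE T)) = xE E X.obj :=
  MVal.base ((mT S X).atEquiv T z)

theorem mG_act {R T : Table} (φ : E.M R T) (z : E.at (mT S X).gpd.obj T) :
    mG S (E.act (mT S X).gpd.obj φ z) = (mG S z).comp (S.hom φ).P :=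
  congrArg MVal.G ((mT S X).atEquiv_act φ z)

theorem mG_side {n : ℕ} (e : Bool) {j : ℕ} (h : j < n) (z : E.cells (mT S X).gpd.obj n) :
    mG S (E.act (mT S X).gpd.obj (E.i.map (side e h)) z) = (mG S z).comp (cylMap E (side e h)) := by
  rw [mG_act, S.hom_map]
  rfl

theorem exists_mcell {T : Table} (x : E.at X.obj T) (G : CxHom (tcyl E T) (xCx E X.obj))
    (hG : IsOver (xMap x) 0 G) :
    ∃ z, (mProj S X).hom.app _ z = x ∧ mG S z = G := by
  exact ⟨((mT S X).atEquiv T).symm ⟨x, G, hG⟩,
    (mProj_app S _).trans (congrArg MVal.x (Equiv.apply_symm_apply ((mT S X).atEquiv T) _)),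
    congrArg MVal.G (Equiv.apply_symm_apply ((mT S X).atEquiv T) _)⟩

theorem mcell_ext {T : Table} {z z' : E.at (mT S X).gpd.obj T}
    (hx : (mProj S X).hom.app _ z = (mProj S X).hom.app _ z') (hG : mG S z = mG S z') : z = z' := by
  rw [mProj_app, mProj_app] at hx
  exact ((mT S X).atEquiv T).injective (MVal.ext hx hG)

/-- Points lift. -/
theorem exists_mlift_zero (x : E.cells X.obj 0) :
    ∃ z, (mProj S X).hom.app _ z = x := by
  let v := (xMap x).f 1 (iotaDisc E 0)
  have hd : (xCx E X.obj).d 0 v = (xMap x).f 0 (repE E (disc 0)) := by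
    rw [← (xMap x).comm, d_iotaDisc_zero]
  have hc : ∀ c : TCell (disc 0) 0, c = TCell.top 0 := fun c => by
    rcases TCell.disc_cells c with ⟨h, rfl⟩ | ⟨e, h, -⟩
    · rfl
    · exact absurd h (Nat.not_lt_zero 0)
  have hno : ∀ k, TCell (disc 0) (k + 1) → False := fun k c => by
    rcases TCell.disc_cells c with ⟨h, -⟩ | ⟨e, h, -⟩
    · exact Nat.succ_ne_zero k h
    · exact Nat.not_lt_zero _ h
  let V : CylVals E (disc 0) (xCx E X.obj) (xMap x) 0 :=
    { vA := fun k _ => match k with | 0 => v | _ + 1 => 0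
      vH := fun _ _ => 0
      a_zero := fun c => by rw [map_zero, add_zero]; exact hd
      a_succ := fun k c => (hno k c).elim
      h_zero := fun c => by
        rw [hc c, iotaCell, ofCell_top, E.i.map_id, repMap_id, map_zero, sub_zero]
        exact (sub_self v).symm
      h_succ := fun k c => (hno k c).elim }
  obtain ⟨z, hz, -⟩ := exists_mcell S x V.toHom V.isOver
  exact ⟨z, hz⟩

/-- Cells with given sides lift. -/
theorem exists_mlift {n : ℕ} (x : E.cells X.obj (n + 1)) (a c : E.cells (mT S X).gpd.obj n)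
    (hpar : E.Par (mT S X).gpd.obj a c)
    (hx : E.HasSides X.obj x ((mProj S X).hom.app _ a) ((mProj S X).hom.app _ c)) :
    ∃ z, (mProj S X).hom.app _ z = x ∧ E.HasSides (mT S X).gpd.obj z a c := by
  let γ : Bool → CxHom (tcyl E (disc n)) (xCx E X.obj) := fun e => bif e then mG S c else mG S a
  have hγ : ∀ e, IsOver ((xMap x).comp (repMap (E.face e n))) 0 (γ e) := fun e => by
    cases e
    · rw [← xMap_act, hx.1]
      exact mG_over S a
    · rw [← xMap_act, hx.2]
      exact mG_over S c
  have hp : ∀ j (_ : j + 1 = n) (h : j < n) e,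
      (γ false).comp (cylMap E (side e h)) = (γ true).comp (cylMap E (side e h)) := by
    intro j hj h e
    subst hj
    show (mG S a).comp _ = (mG S c).comp _
    rw [← mG_side, ← mG_side]
    exact congrArg (mG S) (hpar e)
  let dH := (γ true).f (n + 1 + 1) (cH E (TCell.top n)) -
    (γ false).f (n + 1 + 1) (cH E (TCell.top n))
  let v := (xMap x).f (n + 1 + 1) (iotaDisc E (n + 1)) + dH
  have hK : ∀ e m y, (γ e).f m ((cylK (iota E _)).f m y) =
      (xMap x).f m ((repMap (E.face e n)).f m y) := fun e m y =>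
    congrArg (fun F => F.f m y) (hγ e).1
  have hv : (xCx E X.obj).d (n + 1) v = (γ true).f (n + 1) (cA E (TCell.top n)) -
      (γ false).f (n + 1) (cA E (TCell.top n)) := by
    simp only [v, dH]
    rw [map_add, map_sub, ← (xMap x).comm, d_iotaDisc, map_sub, ← (γ true).comm,
      ← (γ false).comm]
    cases n with
    | zero =>
        rw [d_cH_zero, map_sub, map_sub, map_sub, map_sub, (hγ true).2, (hγ false).2, hK, hK,
          iotaCell, ofCell_top, E.i.map_id, repMap_id]
        show (xMap x).f 1 ((repMap (E.face true 0)).f 1 (iotaDisc E 0)) - _ +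
          (_ - (xMap x).f 1 ((repMap (E.face true 0)).f 1 (iotaDisc E 0)) - 0 -
            (_ - (xMap x).f 1 ((repMap (E.face false 0)).f 1 (iotaDisc E 0)) - 0)) = _
        abel
    | succ m =>
        have key : ∀ e, (γ true).f (m + 1 + 1) (cH E (TCell.face e (TCell.top (m + 1)))) =
            (γ false).f (m + 1 + 1) (cH E (TCell.face e (TCell.top (m + 1)))) := fun e => by
          rw [TCell.face_top, ← TCell.map_side_top e m.lt_succ_self, ← cylMap_H]
          exact (congrArg (fun F => F.f (m + 1 + 1) (cH E (TCell.top m)))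
            (hp m rfl m.lt_succ_self e)).symm
        rw [d_cH, map_sub, map_sub, map_sub, map_sub, map_sub, map_sub, hK, hK, key, key,
          iotaCell, ofCell_top, E.i.map_id, repMap_id]
        show (xMap x).f _ ((repMap (E.face true (m + 1))).f _ (iotaDisc E (m + 1))) - _ +
          (_ - (xMap x).f _ ((repMap (E.face true (m + 1))).f _ (iotaDisc E (m + 1))) - _ -
            (_ - (xMap x).f _ ((repMap (E.face false (m + 1))).f _ (iotaDisc E (m + 1))) - _)) = _
        abel
  have hw : (xCx E X.obj).d (n + 1 + 1) 0 = v - (xMap x).f (n + 1 + 1) (iotaDisc E (n + 1)) -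
      ((γ true).f (n + 1 + 1) (cH E (TCell.top n)) -
        (γ false).f (n + 1 + 1) (cH E (TCell.top n))) := by
    rw [map_zero]
    simp only [v, dH]
    abel
  obtain ⟨G, hG, hGs, -, -⟩ := exists_over_disc (xMap x) 0 γ hγ hp v 0 hv hw
  obtain ⟨z, hz, hzG⟩ := exists_mcell S x G hG
  refine ⟨z, hz, mcell_ext S ?_ ?_, mcell_ext S ?_ ?_⟩
  · rw [← E.act_natural, hz]
    exact hx.1
  · rw [mG_side, hzG]
    exact hGs false
  · rw [← E.act_natural, hz]
    exact hx.2
  · rw [mG_side, hzG]
    exact hGs true

end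

end Vale.Agent.P259.Free
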