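import Vale.Agent.P259.SimpModels

/-!
# P259, module D: simplices with faces only, up to a dimension

The properties of simplices of models which do not mention degeneracies, and the lifting
principle for the free models they generate.
-/

namespace Vale.Agent.P259.Free

open CategoryTheory

noncomputable section

/-- Models indexed by finite ordinals, functorial in the injective monotone maps. -/
structure SemiBase (E : Ext) : Type 1 where
  F : ℕ → E.Gpd
  map : ∀ {k j : ℕ} (δ : Op k j), Function.Injective δ → (F k ⟶ F j)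
  map_id : ∀ k, map (OrderHom.id : Op k k) Function.injective_id = 𝟙 (F k)
  map_comp : ∀ {i k j : ℕ} (δ : Op i k) (ε : Op k j) (hδ : Function.Injective δ)
    (hε : Function.Injective ε), map δ hδ ≫ map ε hε = map (ε.comp δ) (hε.comp hδ)

variable {E : Ext}

namespace SemiBase

variable (B : SemiBase E)

theorem map_congr {k j : ℕ} {δ δ' : Op k j} (h : δ = δ') (hδ : Function.Injective δ)
    (hδ' : Function.Injective δ') : B.map δ hδ = B.map δ' hδ' := by
  subst h
  rfl

/-- A compatible family of simplices on an ordered complex. -/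
@[ext]
structure SFam (B : SemiBase E) (Q : OCx) (X : E.Gpd) : Type where
  app : ∀ {k : ℕ}, Q.Simp k → (B.F k ⟶ X)
  nat : ∀ {k j : ℕ} (v : Q.Simp k) (δ : Op j k) (h : Function.Injective δ),
    B.map δ h ≫ app v = app (v.face δ h)

/-- The image of a family. -/
def SFam.push {Q : OCx} {X Y : E.Gpd} (g : B.SFam Q X) (f : X ⟶ Y) : B.SFam Q Y where
  app v := g.app v ≫ f
  nat v δ h := by rw [← Category.assoc, g.nat v δ h]

/-- The vertex map of a simplex of a standard simplex. -/
def simpOp {k j : ℕ} (v : Fin (j + 1) → Fin (k + 1)) (h : StrictMono v) : Op j k := ⟨v, h.monotone⟩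

/-- The tautological family. -/
def taut (k : ℕ) : B.SFam (OCx.simplex k) (B.F k) where
  app v := B.map (simpOp v.1 v.2) v.2.injective
  nat _ _ _ := B.map_comp _ _ _ _

/-- The tautological family on the boundary. -/
def bdryTaut (k : ℕ) : B.SFam (OCx.bdry k) (B.F k) where
  app v := B.map (simpOp v.1 v.2.1) (StrictMono.injective v.2.1)
  nat _ _ _ := B.map_comp _ _ _ _

/-- The boundary of a simplex. -/
def bdryOf {k : ℕ} {X : E.Gpd} (g : B.F k ⟶ X) : B.SFam (OCx.bdry k) X := (B.bdryTaut k).push _ g

/-- The horn part of a boundary family. -/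
def SFam.toHorn {k : ℕ} {X : E.Gpd} (b : B.SFam (OCx.bdry (k + 1)) X) (j : Fin (k + 2)) :
    B.SFam (OCx.horn (k + 1) j) X where
  app v := b.app ⟨v.1, v.2.1, fun h => by
    obtain ⟨i, -, hi⟩ := v.2.2
    exact hi (h ▸ Set.mem_univ i)⟩
  nat v δ h := b.nat _ δ h

/-- A free model on an ordered complex. -/
structure SRep (B : SemiBase E) (Q : OCx) : Type 1 where
  G : E.Gpd
  fam : B.SFam Q G
  univ : ∀ (X : E.Gpd) (φ : B.SFam Q X), ∃! g : G ⟶ X, fam.push B g = φ

theorem SRep.hom_ext {Q : OCx} (R : B.SRep Q) {X : E.Gpd} {g g' : R.G ⟶ X}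
    (h : ∀ {k : ℕ} (v : Q.Simp k), R.fam.app v ≫ g = R.fam.app v ≫ g') : g = g' := by
  obtain ⟨u, -, hu⟩ := R.univ X (R.fam.push B g)
  refine (hu g rfl).trans (hu g' (SFam.ext ?_)).symm
  funext k v
  exact (h v).symm

theorem SRep.exists_desc {Q : OCx} (R : B.SRep Q) {X : E.Gpd} (φ : B.SFam Q X) :
    ∃ g : R.G ⟶ X, ∀ {k : ℕ} (v : Q.Simp k), R.fam.app v ≫ g = φ.app v := by
  obtain ⟨g, hg⟩ := (R.univ X φ).exists
  exact ⟨g, fun v => congrArg (fun f : B.SFam Q X => f.app v) hg⟩

end SemiBase

open SemiBase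

/-- Simplices up to dimension `N`. -/
structure Semi (E : Ext) (N : ℕ) : Type 1 extends SemiBase E where
  top : ∀ k, k ≤ N → E.cells (F k).obj k
  zero_univ : ∀ (X : E.Gpd) (x : E.cells X.obj 0),
    ∃! g : F 0 ⟶ X, E.appCell g.hom 0 (top 0 N.zero_le) = x
  fillOf : ∀ {k : ℕ}, k < N → ∀ {X : E.Gpd},
    toSemiBase.SFam (OCx.horn (k + 1) 0) X → E.cells X.obj k
  fillOf_natural : ∀ {k : ℕ} (hk : k < N) {X Y : E.Gpd} (f : X ⟶ Y)
    (h : toSemiBase.SFam (OCx.horn (k + 1) 0) X),
    fillOf hk (h.push toSemiBase f) = E.appCell f.hom k (fillOf hk h)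
  par : ∀ {k : ℕ} (hk : k < N) {X : E.Gpd} (b : toSemiBase.SFam (OCx.bdry (k + 1)) X),
    E.Par X.obj (E.appCell (b.app (OCx.bdryFace k 0)).hom k (top k hk.le))
      (fillOf hk (b.toHorn toSemiBase 0))
  top_src : ∀ {k : ℕ} (hk : k < N), E.act (F (k + 1)).obj (E.face false k) (top (k + 1) hk) =
    E.appCell (map (Op.delta 0) (Op.delta_injective 0)).hom k (top k hk.le)
  top_tgt : ∀ {k : ℕ} (hk : k < N), E.act (F (k + 1)).obj (E.face true k) (top (k + 1) hk) =
    fillOf hk ((toSemiBase.bdryTaut (k + 1)).toHorn toSemiBase 0)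
  univ : ∀ {k : ℕ} (hk : k < N) {X : E.Gpd} (b : toSemiBase.SFam (OCx.bdry (k + 1)) X)
    (z : E.cells X.obj (k + 1)),
    E.HasSides X.obj z (E.appCell (b.app (OCx.bdryFace k 0)).hom k (top k hk.le))
      (fillOf hk (b.toHorn toSemiBase 0)) →
    ∃! g : F (k + 1) ⟶ X, E.appCell g.hom (k + 1) (top (k + 1) hk) = z ∧
      toSemiBase.bdryOf g = b

/-- The dimension of a complex is bounded. -/
def DimLE (Q : OCx) (N : ℕ) : Prop := ∀ k, Q.Simp k → k ≤ N

/-- The faces-only system of a simplex system of models. -/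
def semiBase (B : SimpBase E) : SemiBase E where
  F := B.F
  map δ _ := B.map δ
  map_id := B.map_id
  map_comp δ ε hδ _ := B.map_face_op δ ε hδ

/-- Families, with faces only. -/
def famOf {B : SimpBase E} {Q : OCx} {X : E.Gpd} (g : (semiBase B).SFam Q X) : Fam Q (B.sys X) :=
  ⟨g.app, g.nat⟩

/-- Simplices give simplices up to every dimension. -/
def semiOf (S : Simplices E) (N : ℕ) : Semi E N where
  toSemiBase := semiBase S.toSimpBase
  top k _ := S.top k
  zero_univ := S.zero_univ
  fillOf _ _ h := S.fillOf (famOf h)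
  fillOf_natural _ _ _ f h := S.fillOf_natural f (famOf h)
  par _ _ b := S.par (famOf b)
  top_src _ := S.top_src _
  top_tgt _ := S.top_tgt _
  univ {k} _ {X} b z hz := by
    obtain ⟨g, ⟨hg, hgb⟩, hu⟩ := S.univ (famOf b) z hz
    refine ⟨g, ⟨hg, ?_⟩, fun g' hg' => hu g' ⟨hg'.1, ?_⟩⟩
    · refine SFam.ext ?_
      funext j v
      exact congrArg (fun f : Fam _ _ => f.app v) hgb
    · refine Fam.ext ?_
      funext j v
      exact congrArg (fun f : SemiBase.SFam _ _ _ => f.app v) hg'.2

/-- A free model, with faces only. -/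
def repOf {B : SimpBase E} {Q : OCx} (R : B.Rep Q) : (semiBase B).SRep Q where
  G := R.G
  fam := ⟨R.fam.app, R.fam.nat⟩
  univ X φ := by
    obtain ⟨g, hg, hu⟩ := R.univ X (famOf φ)
    refine ⟨g, ?_, fun g' hg' => hu g' ?_⟩
    · refine SFam.ext ?_
      funext j v
      exact congrArg (fun f : Fam _ _ => f.app v) hg
    · refine Fam.ext ?_
      funext j v
      exact congrArg (fun f : SemiBase.SFam _ _ _ => f.app v) hg'

namespace Semi

variable {N : ℕ} (A : Semi E N)

theorem hom_ext_zero {X : E.Gpd} {g g' : A.F 0 ⟶ X}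
    (h : E.appCell g.hom 0 (A.top 0 N.zero_le) = E.appCell g'.hom 0 (A.top 0 N.zero_le)) :
    g = g' :=
  (A.zero_univ X _).unique rfl h.symm

theorem top_sides {k : ℕ} (hk : k < N) {X : E.Gpd} (g : A.F (k + 1) ⟶ X) :
    E.HasSides X.obj (E.appCell g.hom (k + 1) (A.top (k + 1) hk))
      (E.appCell ((A.bdryOf g).app (OCx.bdryFace k 0)).hom k (A.top k hk.le))
      (A.fillOf hk ((A.bdryOf g).toHorn A.toSemiBase 0)) := by
  constructor
  · refine (E.act_natural g.hom _ _).trans ?_
    exact congrArg (E.appCell g.hom k) (A.top_src hk)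
  · refine (E.act_natural g.hom _ _).trans ?_
    refine (congrArg (E.appCell g.hom k) (A.top_tgt hk)).trans ?_
    exact (A.fillOf_natural hk g _).symm

theorem hom_ext_succ {k : ℕ} (hk : k < N) {X : E.Gpd} {g g' : A.F (k + 1) ⟶ X}
    (hb : A.bdryOf g = A.bdryOf g')
    (h : E.appCell g.hom (k + 1) (A.top (k + 1) hk) =
      E.appCell g'.hom (k + 1) (A.top (k + 1) hk)) : g = g' :=
  (A.univ hk _ _ (A.top_sides hk g)).unique ⟨rfl, rfl⟩ ⟨h.symm, hb.symm⟩

/-- A boundary simplex has smaller dimension. -/
theorem bdry_lt {k j : ℕ} (v : (OCx.bdry k).Simp j) : j < k := by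
  rcases Nat.lt_or_ge j k with h | h
  · exact h
  · exfalso
    refine v.2.2 (Set.eq_univ_of_forall fun x => ?_)
    have hle : j + 1 ≤ k + 1 := by
      simpa using Fintype.card_le_of_injective (α := Fin (j + 1)) (β := Fin (k + 1)) v.1
        (StrictMono.injective v.2.1)
    obtain rfl : j = k := by omega
    exact Finite.injective_iff_surjective.1 (StrictMono.injective v.2.1) x

/-- **Lifting principle**: simplices lifted one by one, with any property on the way, give a
section over a free model. -/
theorem exists_lift {Q : OCx} (hQ : DimLE Q N) (R : A.SRep Q) {Y : E.Gpd} (p : Y ⟶ R.G)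
    (Good : ∀ {k : ℕ}, Q.Simp k → (A.F k ⟶ Y) → Prop)
    (step0 : ∀ v : Q.Simp 0, ∃ y : E.cells Y.obj 0,
      E.appCell p.hom 0 y = E.appCell (R.fam.app v).hom 0 (A.top 0 N.zero_le) ∧
      ∀ g, E.appCell g.hom 0 (A.top 0 N.zero_le) = y → Good v g)
    (step : ∀ {k : ℕ} (hk : k < N) (v : Q.Simp (k + 1)) (b : A.SFam (OCx.bdry (k + 1)) Y),
      (∀ {j : ℕ} (w : (OCx.bdry (k + 1)).Simp j), b.app w ≫ p =
        R.fam.app (v.face (simpOp w.1 w.2.1) (StrictMono.injective w.2.1))) →
      (∀ {j : ℕ} (w : (OCx.bdry (k + 1)).Simp j),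
        Good (v.face (simpOp w.1 w.2.1) (StrictMono.injective w.2.1)) (b.app w)) →
      ∃ z : E.cells Y.obj (k + 1),
        E.appCell p.hom (k + 1) z = E.appCell (R.fam.app v).hom (k + 1) (A.top (k + 1) hk) ∧
        E.HasSides Y.obj z (E.appCell (b.app (OCx.bdryFace k 0)).hom k (A.top k hk.le))
          (A.fillOf hk (b.toHorn A.toSemiBase 0)) ∧
        ∀ g, E.appCell g.hom (k + 1) (A.top (k + 1) hk) = z → A.bdryOf g = b → Good v g) :
    ∃ σ : R.G ⟶ Y, σ ≫ p = 𝟙 _ ∧ ∀ {k : ℕ} (v : Q.Simp k), Good v (R.fam.app v ≫ σ) := by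
  classical
  have key : ∀ n : ℕ, ∃ f : ∀ k, k ≤ n → ∀ _ : Q.Simp k, A.F k ⟶ Y,
      (∀ k hk v, f k hk v ≫ p = R.fam.app v ∧ Good v (f k hk v)) ∧
      ∀ k hk v j (hj : j ≤ n) (δ : Op j k) (h : Function.Injective δ),
        A.map δ h ≫ f k hk v = f j hj (v.face δ h) := by
    intro n
    induction n with
    | zero =>
        choose y hy using step0
        let g : Q.Simp 0 → (A.F 0 ⟶ Y) := fun v => (A.zero_univ Y (y v)).exists.choose
        have hg : ∀ v, E.appCell (g v).hom 0 (A.top 0 N.zero_le) = y v := fun v =>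
          (A.zero_univ Y (y v)).exists.choose_spec
        refine ⟨fun k hk v => (Nat.le_zero.1 hk) ▸ g ((Nat.le_zero.1 hk) ▸ v), ?_, ?_⟩
        · intro k hk v
          obtain rfl := Nat.le_zero.1 hk
          refine ⟨A.hom_ext_zero ?_, (hy v).2 _ (hg v)⟩
          exact (congrArg (E.appCell p.hom 0) (hg v)).trans (hy v).1
        · intro k hk v j hj δ h
          obtain rfl := Nat.le_zero.1 hk
          obtain rfl := Nat.le_zero.1 hj
          obtain rfl : δ = OrderHom.id := OrderHom.ext _ _ (funext fun i => Subsingleton.elim (α := Fin 1) _ _)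
          show A.map OrderHom.id _ ≫ g v = g (v.face OrderHom.id h)
          rw [A.map_id, Category.id_comp]
          rfl
    | succ n ih =>
        obtain ⟨f, hf, hnat⟩ := ih
        by_cases hn : n < N
        · have hb : ∀ v : Q.Simp (n + 1), ∃ b : A.SFam (OCx.bdry (n + 1)) Y,
              ∀ {j : ℕ} (w : (OCx.bdry (n + 1)).Simp j), b.app w =
                f j (Nat.le_of_lt_succ (bdry_lt w))
                  (v.face (simpOp w.1 w.2.1) (StrictMono.injective w.2.1)) := fun v =>
            ⟨⟨fun {j} w => f j (Nat.le_of_lt_succ (bdry_lt w))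
                (v.face (simpOp w.1 w.2.1) (StrictMono.injective w.2.1)),
              fun {k j} w δ h => hnat _ _ _ _ _ δ h⟩, fun _ => rfl⟩
          choose b hb using hb
          have hz : ∀ v : Q.Simp (n + 1), ∃ g : A.F (n + 1) ⟶ Y,
              g ≫ p = R.fam.app v ∧ Good v g ∧ A.bdryOf g = b v := by
            intro v
            obtain ⟨z, hz1, hz2, hz3⟩ := step hn v (b v)
              (fun w => by rw [hb]; exact (hf _ _ _).1) (fun w => by rw [hb]; exact (hf _ _ _).2)
            obtain ⟨g, hg, -⟩ := A.univ hn (b v) z hz2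
            refine ⟨g, A.hom_ext_succ hn ?_ ?_, hz3 g hg.1 hg.2, hg.2⟩
            · refine SFam.ext ?_
              funext j w
              show A.map _ _ ≫ g ≫ p = A.map _ _ ≫ R.fam.app v
              rw [R.fam.nat, ← Category.assoc, show A.map _ _ ≫ g = (b v).app w from
                congrArg (fun q : SemiBase.SFam _ _ _ => q.app w) hg.2, hb]
              exact (hf _ _ _).1
            · exact (congrArg (E.appCell p.hom (n + 1)) hg.1).trans hz1
          choose g hg using hz
          let f' : ∀ k, k ≤ n + 1 → ∀ _ : Q.Simp k, A.F k ⟶ Y := fun k hk v =>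
            if h : k ≤ n then f k h v else (show n + 1 = k by omega) ▸ g ((show k = n + 1 by omega) ▸ v)
          have hlo : ∀ k (h : k ≤ n) hk v, f' k hk v = f k h v := fun k h hk v => dif_pos h
          have hhi : ∀ hk v, f' (n + 1) hk v = g v := fun hk v => dif_neg (Nat.not_succ_le_self n)
          refine ⟨f', ?_, ?_⟩
          · intro k hk v
            by_cases h : k ≤ n
            · rw [hlo k h hk]
              exact hf k h v
            · obtain rfl : k = n + 1 := by omega
              rw [hhi hk]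
              exact ⟨(hg v).1, (hg v).2.1⟩
          · intro k hk v j hj δ h
            have hjk : j ≤ k := by
              have := Fintype.card_le_of_injective δ h
              simp at this
              omega
            by_cases hk' : k ≤ n
            · rw [hlo k hk' hk, hlo j (hjk.trans hk') hj, hnat]
            · obtain rfl : k = n + 1 := by omega
              rw [hhi hk]
              by_cases hj' : j ≤ n
              · rw [hlo j hj' hj]
                have hne : Set.range δ ≠ Set.univ := fun hr => by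
                  have := Fintype.card_le_of_surjective δ (Set.range_eq_univ.1 hr)
                  simp at this
                  omega
                let w : (OCx.bdry (n + 1)).Simp j :=
                  ⟨δ, δ.monotone.strictMono_of_injective h, hne⟩
                refine Eq.trans ?_ (hb v w)
                exact congrArg (fun q : SemiBase.SFam _ _ _ => q.app w) (hg v).2.2
              · obtain rfl : j = n + 1 := by omega
                have hid : δ = OrderHom.id := OrderHom.ext _ _
                  (((δ.monotone.strictMono_of_injective h).range_inj strictMono_id).1 (by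
                    rw [Set.range_id]
                    exact (Finite.injective_iff_surjective.1 h).range_eq))
                subst hid
                rw [hhi hj, A.map_id, Category.id_comp]
                rfl
        · have hle : ∀ k, k ≤ n + 1 → Q.Simp k → k ≤ n := fun k _ v => by
            have := hQ k v
            omega
          exact ⟨fun k hk v => f k (hle k hk v) v, fun k hk v => hf _ _ _,
            fun k hk v j hj δ h => hnat _ _ _ _ _ δ h⟩
  obtain ⟨f, hf, hnat⟩ := key N
  obtain ⟨σ, hσ⟩ := R.exists_desc A.toSemiBase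
    ⟨fun {k} v => f k (hQ k v) v, fun {k j} v δ h => hnat _ _ _ _ _ δ h⟩
  refine ⟨σ, R.hom_ext A.toSemiBase fun v => ?_, fun v => by rw [hσ]; exact (hf _ _ v).2⟩
  rw [← Category.assoc, hσ]
  exact (hf _ _ v).1.trans (Category.comp_id _).symm

end Semi

/-- Free models on finite cones are contractible, with faces only and up to a dimension: proved
in `Free/Cone`, used to construct the simplices. -/
def SemiCtrCone : Prop :=
  ∀ (C : Coherator) (N : ℕ) (A : Semi C.C N) (Q : OCx) (j : Q.V), Finite Q.V → DimLE Q N →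
    (∃ v : Q.Simp 0, v.1 0 = j) → Q.IsCone j → ∀ R : A.SRep Q, C.C.Ctr R.G.obj

end

end Vale.Agent.P259.Free
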