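import Vale.Agent.P259.Free.Nerve
import Vale.Agent.P259.Free.ConeExact
import Vale.Agent.P259.Free.Semi

/-!
# P259, module D: the linearisation of free models on ordered complexes

The top cell of a simplex has the class of the simplex with sign `(-1) ^ k`.
-/

namespace Vale.Agent.P259.Free

open CategoryTheory Opposite
open Vale.Agent.P259.Cat

noncomputable section

variable {E : Ext}

/-- The sign of a top cell. -/
def eps (k : ℕ) : ℤ := (-1) ^ k

/-- The fundamental simplex. -/
def fundSimp (k : ℕ) : (OCx.simplex k).Simp k := ⟨fun i => i, strictMono_id⟩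

/-- The linear model on the chains of a complex. -/
abbrev linModel (S : CylSys E) (Q : OCx) : E.Gpd := (nerveT S (ch Q) (chE Q)).gpd

/-- The map of linear models of a simplicial map. -/
def linMap (S : CylSys E) {Q Q' : OCx} {φ : Q.V → Q'.V} (h : IsSimpMap Q Q' φ) :
    linModel S Q ⟶ linModel S Q' :=
  nerveMap S (chMap h) (chMap_e h)

theorem simpMap_of_simp {Q : OCx} {k : ℕ} (v : Q.Simp k) :
    IsSimpMap (OCx.simplex k) Q v.1 := fun w =>
  Q.face ⟨w.1, (StrictMono.monotone w.2)⟩ v.2 (StrictMono.injective w.2)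

theorem nval_linMap (S : CylSys E) {Q Q' : OCx} {φ : Q.V → Q'.V} (h : IsSimpMap Q Q' φ)
    {T : Table} (x : E.at (linModel S Q).obj T) :
    nval S ((linMap S h).hom.app _ x) = (chMap h).comp (nval S x) :=
  nval_map S (chMap h) (chMap_e h) x

theorem model_hom_ext {X Y : E.Gpd} {f g : X ⟶ Y}
    (h : ∀ (T : Table) (x : E.at X.obj T), f.hom.app _ x = g.hom.app _ x) : f = g := by
  refine InducedCategory.hom_ext (NatTrans.ext (funext fun U => ?_))
  obtain ⟨T, hT⟩ := E.obj_bij.2 U.unop
  obtain rfl : op (E.i.obj T) = U := congrArg op hT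
  exact ConcreteCategory.hom_ext _ _ (h T)

theorem linMap_comp (S : CylSys E) {Q Q' Q'' : OCx} {φ : Q.V → Q'.V} {ψ : Q'.V → Q''.V}
    (h : IsSimpMap Q Q' φ) (h' : IsSimpMap Q' Q'' ψ) (h'' : IsSimpMap Q Q'' (ψ ∘ φ)) :
    linMap S h ≫ linMap S h' = linMap S h'' := by
  refine model_hom_ext fun T x => nval_injective S ?_
  show nval S ((linMap S h').hom.app _ ((linMap S h).hom.app _ x)) = _
  rw [nval_linMap, nval_linMap, nval_linMap, chMap_comp h h' h'']
  rfl

theorem linMap_id (S : CylSys E) {Q : OCx} (h : IsSimpMap Q Q id) :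
    linMap S h = 𝟙 (linModel S Q) := by
  refine model_hom_ext fun T x => nval_injective S ?_
  show nval S ((linMap S h).hom.app _ x) = nval S x
  rw [nval_linMap, chMap_id]
  rfl

theorem linMap_face (S : CylSys E) {Q : OCx} {k j : ℕ} (v : Q.Simp k) (δ : Op j k)
    (h : Function.Injective δ) :
    linMap S (simpMap_of_simp (Q := OCx.simplex k)
        ⟨δ, δ.monotone.strictMono_of_injective h⟩) ≫ linMap S (simpMap_of_simp v) =
      linMap S (simpMap_of_simp (v.face δ h)) :=
  linMap_comp S (simpMap_of_simp (Q := OCx.simplex k) ⟨δ, δ.monotone.strictMono_of_injective h⟩)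
    (simpMap_of_simp v) (simpMap_of_simp (v.face δ h))

theorem simplex_isCone (k : ℕ) : (OCx.simplex k).IsCone (0 : Fin (k + 1)) := by
  intro j v
  by_cases h : (0 : Fin (k + 1)) ∈ Set.range v.1
  · exact ⟨j, v, (Set.insert_eq_of_mem h).symm⟩
  · refine ⟨j + 1, ⟨Fin.cons (α := fun _ => Fin (k + 1)) 0 v.1,
      Fin.strictMono_iff_lt_succ.2 fun i => ?_⟩, ?_⟩
    · induction i using Fin.cases with
      | zero =>
          simp only [Fin.castSucc_zero, Fin.cons_zero, Fin.cons_succ]
          exact Fin.pos_of_ne_zero fun h0 => h ⟨0, h0⟩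
      | succ i =>
          simp only [← Fin.succ_castSucc, Fin.cons_succ]
          exact v.2 i.castSucc_lt_succ
    · exact Fin.range_cons (0 : Fin (k + 1)) v.1

theorem simplex_exact (k n : ℕ) : (ch (OCx.simplex k)).Exact n :=
  cone_exact _ (0 : Fin (k + 1))
    ⟨⟨fun _ => (0 : Fin (k + 1)), fun a b hab => absurd hab (by
      rw [Subsingleton.elim (α := Fin 1) a b]; exact lt_irrefl _)⟩, rfl⟩
    (simplex_isCone k) n

theorem finsupp_unique {σ : Type} (u : σ) (hu : ∀ v, v = u) (y : σ →₀ ℤ) :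
    y = y u • Finsupp.single u (1 : ℤ) :=
  Finsupp.ext fun v => by rw [hu v, Finsupp.smul_apply, Finsupp.single_eq_same, smul_eq_mul, mul_one]

theorem top_gen_unique (k : ℕ) (x : (ch (OCx.simplex k)).X (k + 1)) :
    ∃ c : ℤ, x = c • chGen (fundSimp k) := by
  have hu : ∀ v : CGen (OCx.simplex k) (k + 1), v = fundSimp k := fun v => by
    refine Subtype.ext ?_
    have hs : StrictMono (v.1 : Fin (k + 1) → Fin (k + 1)) := v.2
    exact (hs.range_inj strictMono_id).1
      ((Finite.injective_iff_surjective.1 hs.injective).range_eq.trans Set.range_id.symm)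
  exact ⟨_, finsupp_unique (fundSimp k) hu x⟩

theorem coeff_d_fund (k : ℕ) :
    embT _ (k + 1) ((ch (OCx.simplex (k + 1))).d (k + 1) (chGen (fundSimp (k + 1)))) Fin.succ = 1 := by
  classical
  rw [embT_d, embT_chGen, lin_single, one_smul]
  show (Finsupp.single (Fin.tail (fundSimp (k + 1)).1) (1 : ℤ) -
    consT ((fundSimp (k + 1)).1 0) k (dT k (Fin.tail (fundSimp (k + 1)).1))) Fin.succ = 1
  have hsub : ∀ (p q : Tup (OCx.simplex (k + 1)).V (k + 1) →₀ ℤ) t, (p - q) t = p t - q t := fun p q t =>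
    Finsupp.sub_apply p q t
  refine (hsub _ _ _).trans ?_
  have h0 : ∀ x : Tup (OCx.simplex (k + 1)).V k →₀ ℤ,
      consT ((fundSimp (k + 1)).1 0) k x Fin.succ = 0 := fun x => by
    refine Finsupp.notMem_support_iff.1 fun h => ?_
    obtain ⟨t, -, ht⟩ := Finset.mem_image.1 (Finsupp.mapDomain_support h)
    exact Fin.succ_ne_zero 0 (congrFun ht 0).symm
  have h1 : (Finsupp.single (Fin.tail (fundSimp (k + 1)).1) (1 : ℤ)) Fin.succ = 1 :=
    Finsupp.single_eq_same
  exact (congrArg₂ (· - ·) h1 (h0 _)).trans (sub_zero _)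

theorem horn_simpMap (n : ℕ) :
    IsSimpMap (OCx.horn (n + 1) 0) (OCx.simplex (n + 1)) id := fun v => v.2.1

theorem horn_coeff (n : ℕ) (h : IsSimpMap (OCx.horn (n + 1) 0) (OCx.simplex (n + 1)) id)
    (x : (ch (OCx.horn (n + 1) 0)).X (n + 1)) :
    embT (OCx.simplex (n + 1)) (n + 1) ((chMap h).f (n + 1) x) Fin.succ = 0 := by
  classical
  refine Finsupp.notMem_support_iff.1 fun hm => ?_
  rw [chMap_emb h (n + 1) x] at hm
  obtain ⟨t, ht, hteq⟩ := Finset.mem_image.1 (Finsupp.mapDomain_support hm)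
  obtain ⟨g, -, rfl⟩ := Finset.mem_image.1 (Finsupp.mapDomain_support ht)
  obtain ⟨i, hi0, hi⟩ := g.2.2
  obtain ⟨i', rfl⟩ := Fin.exists_succ_eq.2 hi0
  exact hi ⟨i', congrFun hteq i'⟩

theorem coeff_fixed (n : ℕ) (co : ℤ) (a c : (ch (OCx.simplex (n + 1))).X (n + 1))
    (ha : a = eps n • chGen (⟨Fin.succ, Fin.strictMono_succ⟩ : (OCx.simplex (n + 1)).Simp n))
    (hc : embT (OCx.simplex (n + 1)) (n + 1) c Fin.succ = 0)
    (h : (ch (OCx.simplex (n + 1))).d (n + 1) (co • chGen (fundSimp (n + 1))) = c - a) :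
    co = eps (n + 1) := by
  let ev : (ch (OCx.simplex (n + 1))).X (n + 1) →+ ℤ :=
    (Finsupp.applyAddHom Fin.succ).comp (embT (OCx.simplex (n + 1)) (n + 1))
  have h1 := congrArg ev h
  have e1 : ev ((ch (OCx.simplex (n + 1))).d (n + 1) (chGen (fundSimp (n + 1)))) = 1 :=
    coeff_d_fund n
  have e2 : ev (chGen (⟨Fin.succ, Fin.strictMono_succ⟩ : (OCx.simplex (n + 1)).Simp n)) = 1 := by
    refine (congrArg (fun z : Tup (OCx.simplex (n + 1)).V (n + 1) →₀ ℤ => z Fin.succ)
      (embT_chGen _)).trans ?_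
    exact Finsupp.single_eq_same
  have e3 : ev c = 0 := hc
  subst ha
  rw [map_zsmul, map_zsmul, map_sub, map_zsmul, e1, e2, e3] at h1
  simp only [smul_eq_mul, mul_one, zero_sub] at h1
  rw [h1, eps, eps, pow_succ]
  ring

variable {N : ℕ} (A : Semi E N) (S : CylSys E)

/-- The value of a map into a linear model on the top cell. -/
def topVal {Q : OCx} {k : ℕ} (hk : k ≤ N) (g : A.F k ⟶ linModel S Q) : (ch Q).X (k + 1) :=
  (nval S (E.appCell g.hom k (A.top k hk))).f (k + 1) (abCell (TCell.top k))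

theorem topVal_linMap {Q Q' : OCx} {φ : Q.V → Q'.V} (h : IsSimpMap Q Q' φ) {k : ℕ} (hk : k ≤ N)
    (g : A.F k ⟶ linModel S Q) :
    topVal A S hk (g ≫ linMap S h) = (chMap h).f (k + 1) (topVal A S hk g) :=
  congrArg (fun F => F.f (k + 1) (abCell (TCell.top k)))
    (nval_linMap S h (E.appCell g.hom k (A.top k hk)))

/-- Linearisations of the simplices, up to dimension `n`. -/
def LinUpTo (n : ℕ) : Prop :=
  ∃ l : ∀ k, k ≤ n → (A.F k ⟶ linModel S (OCx.simplex k)),
    (∀ k hk (hN : k ≤ N), topVal A S hN (l k hk) = eps k • chGen (fundSimp k)) ∧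
    ∀ k hk j (hj : j ≤ n) (δ : Op j k) (hδ : Function.Injective δ) (_ : k ≤ N),
      A.map δ hδ ≫ l k hk =
        l j hj ≫ linMap S (simpMap_of_simp (Q := OCx.simplex k)
          ⟨δ, δ.monotone.strictMono_of_injective hδ⟩)

theorem linUpTo_zero : LinUpTo A S 0 := by
  obtain ⟨F, hF0, hF⟩ := exists_ab_zero (chE (OCx.simplex 0)) (chGen (fundSimp 0))
    (d_chGen_zero _)
  obtain ⟨x, hx⟩ := exists_nval S _ F hF0
  obtain ⟨g, hg⟩ := (A.zero_univ (linModel S (OCx.simplex 0)) x).exists
  refine ⟨fun k hk => (Nat.le_zero.1 hk) ▸ g, fun k hk hN => ?_, fun k hk j hj δ hδ hN => ?_⟩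
  · obtain rfl := Nat.le_zero.1 hk
    show (nval S (E.appCell g.hom 0 (A.top 0 _))).f 1 _ = _
    rw [hg, hx, hF, eps, pow_zero, one_smul]
  · obtain rfl := Nat.le_zero.1 hk
    obtain rfl := Nat.le_zero.1 hj
    obtain rfl : δ = OrderHom.id := OrderHom.ext _ _ (funext fun i => Subsingleton.elim (α := Fin 1) _ _)
    rw [A.map_id, Category.id_comp]
    exact ((congrArg (g ≫ ·) (linMap_id S (simpMap_of_simp (Q := OCx.simplex 0) ⟨id, strictMono_id⟩))).trans (Category.comp_id g)).symm

theorem linUpTo_succ (n : ℕ) (hn : n < N) (h : LinUpTo A S n) : LinUpTo A S (n + 1) := by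
  classical
  obtain ⟨l, hl, hnat⟩ := h
  let Δ := OCx.simplex (n + 1)
  let bH : SemiBase.SFam A.toSemiBase (OCx.horn (n + 1) 0) (linModel S (OCx.horn (n + 1) 0)) :=
    { app := fun {j} w => l j (by
        have := Semi.bdry_lt (k := n + 1) (⟨w.1, w.2.1, fun hu => by
          obtain ⟨i, -, hi⟩ := w.2.2
          exact hi (hu ▸ Set.mem_univ i)⟩ : (OCx.bdry (n + 1)).Simp j)
        omega) ≫ linMap S (simpMap_of_simp w)
      nat := fun {k j} w δ h => by
        rw [← Category.assoc, hnat k _ j (by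
          have h1 := Semi.bdry_lt (k := n + 1) (⟨w.1, w.2.1, fun hu => by
            obtain ⟨i, -, hi⟩ := w.2.2
            exact hi (hu ▸ Set.mem_univ i)⟩ : (OCx.bdry (n + 1)).Simp k)
          have h2 := Fintype.card_le_of_injective δ h
          simp at h2
          omega) δ h (by
            have h1 := Semi.bdry_lt (k := n + 1) (⟨w.1, w.2.1, fun hu => by
              obtain ⟨i, -, hi⟩ := w.2.2
              exact hi (hu ▸ Set.mem_univ i)⟩ : (OCx.bdry (n + 1)).Simp k)
            omega), Category.assoc]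
        exact congrArg (_ ≫ ·) (linMap_face S w δ h) }
  let b : SemiBase.SFam A.toSemiBase (OCx.bdry (n + 1)) (linModel S Δ) :=
    { app := fun {j} w => l j (Nat.le_of_lt_succ (Semi.bdry_lt w)) ≫
        linMap S (simpMap_of_simp (Q := Δ) ⟨w.1, w.2.1⟩)
      nat := fun {k j} w δ h => by
        have h1 := Semi.bdry_lt (k := n + 1) w
        have h2 := Fintype.card_le_of_injective δ h
        simp at h2
        rw [← Category.assoc, hnat k _ j (by omega) δ h (by omega), Category.assoc]
        exact congrArg (_ ≫ ·) (linMap_face S (Q := Δ) ⟨w.1, w.2.1⟩ δ h) }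
  have hincl : IsSimpMap (OCx.horn (n + 1) 0) Δ id := fun v => v.2.1
  have hb : bH.push A.toSemiBase (linMap S hincl) = b.toHorn A.toSemiBase 0 := by
    refine SemiBase.SFam.ext ?_
    funext j w
    show (_ ≫ _) ≫ _ = _
    rw [Category.assoc]
    exact congrArg (_ ≫ ·) (linMap_comp S (simpMap_of_simp w) hincl
      (simpMap_of_simp (Q := Δ) ⟨w.1, w.2.1⟩))
  let a := E.appCell (b.app (OCx.bdryFace n 0)).hom n (A.top n hn.le)
  let c := A.fillOf hn (b.toHorn A.toSemiBase 0)
  let va := (nval S a).f (n + 1) (abCell (TCell.top n))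
  let vc := (nval S c).f (n + 1) (abCell (TCell.top n))
  have hpar := A.par hn b
  have hcyc : vc - va ∈ (ch Δ).cyc (n + 1) := by
    refine (Cx.mem_cyc_succ (C := ch Δ) _).2 ?_
    rw [map_sub, ← CxHom.comm, ← CxHom.comm]
    cases n with
    | zero =>
        rw [d_abCell_zero, nval_aug, nval_aug, sub_self]
    | succ m =>
        have key : ∀ e, (nval S c).f (m + 1) (abCell (TCell.face e (TCell.top (m + 1)))) =
            (nval S a).f (m + 1) (abCell (TCell.face e (TCell.top (m + 1)))) := fun e => by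
          rw [TCell.face_top, ← TCell.map_side_top e m.lt_succ_self, ← abMap_cell]
          exact (congrArg (fun F => F.f (m + 1) (abCell (TCell.top m)))
            (nval_par S hpar m rfl m.lt_succ_self e)).symm
        rw [d_abCell, map_sub, map_sub, key, key, sub_self]
  obtain ⟨y, hy⟩ := simplex_exact (n + 1) (n + 1) _ hcyc
  obtain ⟨co, rfl⟩ := top_gen_unique (n + 1) y
  have hva : va = eps n • chGen (⟨Fin.succ, Fin.strictMono_succ⟩ : Δ.Simp n) := by
    have h1 := topVal_linMap A S (simpMap_of_simp (Q := Δ) ⟨(OCx.bdryFace n 0).1,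
      (OCx.bdryFace n 0).2.1⟩) hn.le (l n le_rfl)
    rw [hl n le_rfl hn.le, map_zsmul] at h1
    refine h1.trans (congrArg (eps n • ·)
      ((chMap_gen _ _).trans (congrArg (chGen (Q := Δ)) (Subtype.ext ?_))))
    funext i
    exact Fin.succAbove_zero_apply i
  have hvc : embT Δ (n + 1) vc Fin.succ = 0 := by
    have h1 : c = E.appCell (linMap S hincl).hom n (A.fillOf hn bH) :=
      (congrArg (A.fillOf hn) hb.symm).trans (A.fillOf_natural hn _ bH)
    have h2 : vc = (chMap hincl).f (n + 1)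
        ((nval S (A.fillOf hn bH)).f (n + 1) (abCell (TCell.top n))) := by
      show (nval S c).f _ _ = _
      rw [h1]
      exact congrArg (fun F => F.f (n + 1) (abCell (TCell.top n))) (nval_linMap S hincl _)
    rw [h2]
    exact horn_coeff n hincl _
  have hco : co = eps (n + 1) := coeff_fixed n co va vc hva hvc hy
  subst hco
  obtain ⟨z, hz, hzv⟩ := exists_nerve_cell S hpar (eps (n + 1) • chGen (fundSimp (n + 1))) hy
  obtain ⟨g, ⟨hg, hgb⟩, -⟩ := A.univ hn b z hz
  let l' : ∀ k, k ≤ n + 1 → (A.F k ⟶ linModel S (OCx.simplex k)) := fun k hk =>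
    if h : k ≤ n then l k h else (show n + 1 = k by omega) ▸ g
  have hlo : ∀ k (h : k ≤ n) hk, l' k hk = l k h := fun k h hk => dif_pos h
  have hhi : ∀ hk, l' (n + 1) hk = g := fun hk => dif_neg (Nat.not_succ_le_self n)
  refine ⟨l', fun k hk hN => ?_, fun k hk j hj δ hδ hN => ?_⟩
  · by_cases h : k ≤ n
    · rw [hlo k h hk]
      exact hl k h hN
    · obtain rfl : k = n + 1 := by omega
      rw [hhi hk]
      show (nval S (E.appCell g.hom (n + 1) (A.top (n + 1) hN))).f _ _ = _
      rw [hg]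
      exact hzv
  · have hjk : j ≤ k := by
      have := Fintype.card_le_of_injective δ hδ
      simp at this
      omega
    by_cases hk' : k ≤ n
    · rw [hlo k hk' hk, hlo j (hjk.trans hk') hj]
      exact hnat _ _ _ _ _ hδ hN
    · obtain rfl : k = n + 1 := by omega
      rw [hhi hk]
      by_cases hj' : j ≤ n
      · rw [hlo j hj' hj]
        have hne : Set.range δ ≠ Set.univ := fun hr => by
          have := Fintype.card_le_of_surjective δ (Set.range_eq_univ.1 hr)
          simp at this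
          omega
        exact congrArg (fun q : SemiBase.SFam _ _ _ => q.app
          (⟨δ, δ.monotone.strictMono_of_injective hδ, hne⟩ : (OCx.bdry (n + 1)).Simp j)) hgb
      · obtain rfl : j = n + 1 := by omega
        have hid : δ = OrderHom.id := OrderHom.ext _ _
          (((δ.monotone.strictMono_of_injective hδ).range_inj strictMono_id).1 (by
            rw [Set.range_id]
            exact (Finite.injective_iff_surjective.1 hδ).range_eq))
        subst hid
        rw [hhi hj, A.map_id, Category.id_comp]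
        exact ((congrArg (g ≫ ·) (linMap_id S (simpMap_of_simp (Q := OCx.simplex (n + 1)) ⟨id, strictMono_id⟩))).trans
          (Category.comp_id g)).symm

theorem linUpTo : LinUpTo A S N := by
  have key : ∀ n, n ≤ N → LinUpTo A S n := fun n => by
    induction n with
    | zero => exact fun _ => linUpTo_zero A S
    | succ n ih => exact fun hn => linUpTo_succ A S n hn (ih (Nat.le_of_succ_le hn))
  exact key N le_rfl

/-- **The linearisation** of a free model. -/
theorem exists_lin {Q : OCx} (hQ : DimLE Q N) (R : A.SRep Q) :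
    ∃ ρ : R.G ⟶ linModel S Q, ∀ {k : ℕ} (v : Q.Simp k),
      topVal A S (hQ k v) (R.fam.app v ≫ ρ) = eps k • chGen v := by
  obtain ⟨l, hl, hnat⟩ := linUpTo A S
  obtain ⟨ρ, hρ⟩ := R.exists_desc A.toSemiBase
    (⟨fun {k} v => l k (hQ k v) ≫ linMap S (simpMap_of_simp v), fun {k j} v δ h => by
      rw [← Category.assoc, hnat k _ j (hQ j (v.face δ h)) δ h (hQ k v), Category.assoc,
        linMap_face]⟩ : A.SFam Q (linModel S Q))
  refine ⟨ρ, fun {k} v => ?_⟩
  rw [hρ]
  refine (topVal_linMap A S (simpMap_of_simp v) (hQ k v) _).trans ?_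
  rw [hl k (hQ k v) (hQ k v), map_zsmul]
  exact congrArg (eps k • ·) (chMap_gen (simpMap_of_simp v) (fundSimp k))

end

end Vale.Agent.P259.Free
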