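import Vale.Agent.P259.Core

/-!
# P259, module D: models given on globular sums
-/

namespace Vale.Agent.P259.Free

open CategoryTheory Opposite

noncomputable section

/-- A model given by its values on globular sums. -/
structure Tabled (E : Ext) : Type 1 where
  obj : Table → Type
  act : ∀ {S T : Table}, E.M S T → obj T → obj S
  act_id : ∀ {T : Table} (x : obj T), act (𝟙 (E.i.obj T)) x = x
  act_comp : ∀ {R S T : Table} (f : E.M R S) (g : E.M S T) (x : obj T),
    act (f ≫ g) x = act f (act g x)
  glue : ∀ (T : Table) (c : ∀ p, obj (disc (T.top p))),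
    (∀ p : Fin T.len, act (E.i.map (side true (T.lt_left p))) (c p.castSucc) =
      act (E.i.map (side false (T.lt_right p))) (c p.succ)) →
    ∃! x : obj T, ∀ p, act (E.i.map (incl T p)) x = c p

namespace Tabled

variable {E : Ext} (Y : Tabled E)

/-- The inverse of the object bijection. -/
def tbl (E : Ext) : Table ≃ E.Obj := Equiv.ofBijective E.i.obj E.obj_bij

theorem tbl_obj (U : E.Obj) : E.i.obj ((tbl E).symm U) = U := (tbl E).apply_symm_apply U

/-- A morphism between images of globular sums. -/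
def tblMap {U V : E.Obj} (f : U ⟶ V) : E.M ((tbl E).symm U) ((tbl E).symm V) :=
  eqToHom (tbl_obj U) ≫ f ≫ eqToHom (tbl_obj V).symm

/-- The presheaf. -/
def psh : E.Psh where
  obj U := Y.obj ((tbl E).symm U.unop)
  map f := TypeCat.ofHom (Y.act (tblMap f.unop))
  map_id U := by
    refine ConcreteCategory.hom_ext _ _ fun x => ?_
    show Y.act (tblMap (𝟙 U.unop)) x = x
    rw [show tblMap (𝟙 U.unop) = 𝟙 _ by simp [tblMap], Y.act_id]
  map_comp {U V W} f g := by
    refine ConcreteCategory.hom_ext _ _ fun x => ?_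
    show Y.act (tblMap (g.unop ≫ f.unop)) x = Y.act (tblMap g.unop) (Y.act (tblMap f.unop) x)
    rw [← Y.act_comp]
    simp [tblMap]

theorem sigma_act {S S' T T' : Table} (hS : S' = S) (hT : T' = T) (f : E.M S T) (x : Y.obj T') :
    cast (congrArg Y.obj hS) (Y.act (eqToHom (congrArg E.i.obj hS) ≫ f ≫
      eqToHom (congrArg E.i.obj hT).symm) x) = Y.act f (cast (congrArg Y.obj hT) x) := by
  subst hS hT
  simp

/-- Values of the presheaf at globular sums. -/
def atEquiv (T : Table) : E.at Y.psh T ≃ Y.obj T :=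
  Equiv.cast (congrArg Y.obj ((tbl E).symm_apply_apply T))

theorem atEquiv_act {S T : Table} (f : E.M S T) (x : E.at Y.psh T) :
    Y.atEquiv S (E.act Y.psh f x) = Y.act f (Y.atEquiv T x) := by
  refine Eq.trans ?_ (Y.sigma_act ((tbl E).symm_apply_apply S) ((tbl E).symm_apply_apply T) f x)
  rfl

theorem isGpd : E.IsGpd Y.psh := by
  intro T c hc
  obtain ⟨x, hx, hu⟩ := Y.glue T (fun p => Y.atEquiv _ (c p)) fun p => by
    rw [← Y.atEquiv_act, ← Y.atEquiv_act]
    exact congrArg _ (hc p)
  refine ⟨(Y.atEquiv T).symm x, fun p => (Y.atEquiv _).injective ?_, fun y hy => ?_⟩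
  · rw [Y.atEquiv_act, Equiv.apply_symm_apply, hx]
  · rw [Equiv.eq_symm_apply]
    exact hu _ fun p => by rw [← Y.atEquiv_act, hy p]

/-- The model. -/
def gpd : E.Gpd := ⟨Y.psh, Y.isGpd⟩

variable {Y}

/-- A natural map to a model. -/
def homTo {X : E.Gpd} (p : ∀ T, Y.obj T → E.at X.obj T)
    (hp : ∀ {S T : Table} (f : E.M S T) (y : Y.obj T), p S (Y.act f y) = E.act X.obj f (p T y)) :
    Y.gpd ⟶ X :=
  ObjectProperty.homMk
    { app := fun U => TypeCat.ofHom fun y =>
        X.obj.map (eqToHom (tbl_obj U.unop).symm).op (p _ y)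
      naturality := fun U V f => by
        refine ConcreteCategory.hom_ext _ _ fun y => ?_
        show X.obj.map (eqToHom _).op (p _ (Y.act (tblMap f.unop) y)) =
          X.obj.map f (X.obj.map (eqToHom _).op (p _ y))
        refine (congrArg (X.obj.map (eqToHom (tbl_obj V.unop).symm).op)
          (hp (tblMap f.unop) y)).trans ?_
        show X.obj.map (eqToHom _).op (X.obj.map (tblMap f.unop).op (p _ y)) = _
        rw [← Functor.map_comp_apply, ← Functor.map_comp_apply]
        refine congrArg (fun k => X.obj.map k (p _ y)) (Quiver.Hom.unop_inj ?_)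
        simp [tblMap] }

theorem act_eqToHom {X : E.Psh} (p : ∀ T, Y.obj T → E.at X T) {T' T : Table} (h : T' = T)
    (y : Y.obj T') : X.map (eqToHom (congrArg E.i.obj h).symm).op (p T' y) =
      p T (cast (congrArg Y.obj h) y) := by
  subst h
  simp

theorem homTo_app {X : E.Gpd} (p : ∀ T, Y.obj T → E.at X.obj T) (hp) (T : Table)
    (y : E.at Y.gpd.obj T) : (homTo (X := X) p hp).hom.app _ y = p T (Y.atEquiv T y) :=
  act_eqToHom (X := X.obj) p ((tbl E).symm_apply_apply T) y

/-- Naturality of values of a map into the model. -/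
theorem atEquiv_natural {X : E.Gpd} (g : X ⟶ Y.gpd) {S T : Table} (f : E.M S T)
    (x : E.at X.obj T) : Y.atEquiv S (g.hom.app _ (E.act X.obj f x)) =
      Y.act f (Y.atEquiv T (g.hom.app _ x)) :=
  (congrArg (Y.atEquiv S) (E.act_natural g.hom f x).symm).trans (Y.atEquiv_act f _)

end Tabled

end

end Vale.Agent.P259.Free
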