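import Vale.Agent.P259.Free.CylSystem
import Vale.Agent.P259.Free.Tabled

/-!
# P259, module D: models of chain maps out of the complexes of cells
-/

namespace Vale.Agent.P259.Free

open CategoryTheory Opposite
open Vale.Agent.P259.Cat

noncomputable section

variable {E : Ext}

theorem CylHom.P_A_e {S T : Table} (f : CylHom E S T) :
    f.P.f 0 ((cylA (iota E S)).f 0 (abE S)) = (cylA (iota E T)).f 0 (abE T) := by
  have h2 := congrArg ((tcyl E T).d 0) f.hover.2
  rw [← f.P.comm, d_cE, d_cE, map_sub] at h2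
  have hK := congrArg (fun K => K.f 0 (repE E S)) f.hover.1
  simp only [CxHom.comp, AddMonoidHom.comp_apply] at hK
  rw [hK, repMap_e] at h2
  exact sub_left_inj.1 h2

theorem CylHom.a_e {S T : Table} (f : CylHom E S T) : f.a.f 0 (abE S) = abE T :=
  cylA_injective (iota E T) 0
    ((congrArg (fun K => K.f 0 (abE S)) f.hkeep).symm.trans f.P_A_e)

/-- The restriction of the system to the complexes of cells. -/
def CylSys.ab (S : CylSys E) {R T : Table} (φ : E.M R T) : CxHom (Ab R) (Ab T) := (S.hom φ).a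

theorem CylSys.ab_id (S : CylSys E) (T : Table) : S.ab (𝟙 (E.i.obj T)) = CxHom.id (Ab T) := by
  rw [CylSys.ab, S.hom_id]
  rfl

theorem CylSys.ab_comp (S : CylSys E) {R U T : Table} (φ : E.M R U) (ψ : E.M U T) :
    S.ab (φ ≫ ψ) = (S.ab ψ).comp (S.ab φ) := by
  rw [CylSys.ab, S.hom_comp]
  rfl

theorem CylSys.ab_map (S : CylSys E) {R T : Table} (f : R ⟶ T) :
    S.ab (E.i.map f) = abMap f := by
  rw [CylSys.ab, S.hom_map]
  rfl

theorem CylSys.ab_e (S : CylSys E) {R T : Table} (φ : E.M R T) :
    (S.ab φ).f 0 (abE R) = abE T := (S.hom φ).a_e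

/-- Chain maps out of the cells with given augmentation. -/
@[ext]
structure NerveVal (L : Cx.{0}) (el : L.X 0) (T : Table) : Type where
  hom : CxHom (Ab T) L
  aug : hom.f 0 (abE T) = el

/-- The model of chain maps out of the cells. -/
def nerveT (S : CylSys E) (L : Cx.{0}) (el : L.X 0) : Tabled E where
  obj := NerveVal L el
  act φ x := ⟨x.hom.comp (S.ab φ), by
    show x.hom.f 0 ((S.ab φ).f 0 (abE _)) = el
    rw [S.ab_e, x.aug]⟩
  act_id x := NerveVal.ext (by
    show x.hom.comp (S.ab _) = x.hom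
    rw [S.ab_id]
    rfl)
  act_comp f g x := NerveVal.ext (by
    show x.hom.comp (S.ab _) = (x.hom.comp (S.ab g)).comp (S.ab f)
    rw [S.ab_comp]
    rfl)
  glue T c hc := by
    obtain ⟨F, hF, hFp⟩ := ab_glue T el (fun p => (c p).hom) (fun p => (c p).aug) fun p => by
      have h := congrArg NerveVal.hom (hc p)
      simp only [S.ab_map] at h
      exact h
    refine ⟨⟨F, hF⟩, fun p => NerveVal.ext ?_, fun x hx => NerveVal.ext (ab_ext_incl fun p => ?_)⟩
    · show F.comp (S.ab _) = _
      rw [S.ab_map, hFp]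
    · rw [hFp, ← S.ab_map]
      exact congrArg NerveVal.hom (hx p)

/-- The image under a chain map. -/
def NerveVal.push {L L' : Cx.{0}} {el : L.X 0} {el' : L'.X 0} {T : Table} (x : NerveVal L el T)
    (φ : CxHom L L') (h : φ.f 0 el = el') : NerveVal L' el' T :=
  ⟨φ.comp x.hom, by
    show φ.f 0 (x.hom.f 0 (abE T)) = el'
    rw [x.aug, h]⟩

/-- The values of the map of models of a chain map. -/
def pushAt (S : CylSys E) {L L' : Cx.{0}} {el : L.X 0} {el' : L'.X 0} (φ : CxHom L L')
    (h : φ.f 0 el = el') (T : Table) (x : (nerveT S L el).obj T) :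
    E.at (nerveT S L' el').gpd.obj T :=
  ((nerveT S L' el').atEquiv T).symm (NerveVal.push x φ h)

theorem pushAt_nat (S : CylSys E) {L L' : Cx.{0}} {el : L.X 0} {el' : L'.X 0} (φ : CxHom L L')
    (h : φ.f 0 el = el') {R T : Table} (f : E.M R T) (x : (nerveT S L el).obj T) :
    pushAt S φ h R ((nerveT S L el).act f x) =
      E.act (nerveT S L' el').gpd.obj f (pushAt S φ h T x) := by
  refine ((nerveT S L' el').atEquiv R).injective ?_
  refine (Equiv.apply_symm_apply _ _).trans (Eq.symm ?_)
  refine ((nerveT S L' el').atEquiv_act f _).trans ?_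
  refine (congrArg ((nerveT S L' el').act f) (Equiv.apply_symm_apply _ _)).trans ?_
  rfl

/-- The map of models of a chain map. -/
def nerveMap (S : CylSys E) {L L' : Cx.{0}} {el : L.X 0} {el' : L'.X 0} (φ : CxHom L L')
    (h : φ.f 0 el = el') : (nerveT S L el).gpd ⟶ (nerveT S L' el').gpd :=
  Tabled.homTo (X := (nerveT S L' el').gpd) (pushAt S φ h) fun f x => pushAt_nat S φ h f x

/-- The value of a cell of the model of chain maps. -/
def nval (S : CylSys E) {L : Cx.{0}} {el : L.X 0} {T : Table}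
    (x : E.at (nerveT S L el).gpd.obj T) : CxHom (Ab T) L :=
  ((nerveT S L el).atEquiv T x).hom

theorem nval_aug (S : CylSys E) {L : Cx.{0}} {el : L.X 0} {T : Table}
    (x : E.at (nerveT S L el).gpd.obj T) : (nval S x).f 0 (abE T) = el :=
  ((nerveT S L el).atEquiv T x).aug

theorem nval_act (S : CylSys E) {L : Cx.{0}} {el : L.X 0} {R T : Table} (φ : E.M R T)
    (x : E.at (nerveT S L el).gpd.obj T) :
    nval S (E.act (nerveT S L el).gpd.obj φ x) = (nval S x).comp (S.ab φ) :=
  congrArg NerveVal.hom ((nerveT S L el).atEquiv_act φ x)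

theorem nval_map (S : CylSys E) {L L' : Cx.{0}} {el : L.X 0} {el' : L'.X 0} (φ : CxHom L L')
    (h : φ.f 0 el = el') {T : Table} (x : E.at (nerveT S L el).gpd.obj T) :
    nval S ((nerveMap S φ h).hom.app _ x) = φ.comp (nval S x) := by
  show _ = (NerveVal.push ((nerveT S L el).atEquiv T x) φ h).hom
  refine congrArg NerveVal.hom ?_
  exact (congrArg ((nerveT S L' el').atEquiv T) (Tabled.homTo_app (X := (nerveT S L' el').gpd)
    (pushAt S φ h) (fun f x => pushAt_nat S φ h f x) T x)).trans (Equiv.apply_symm_apply _ _)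

theorem nval_injective (S : CylSys E) {L : Cx.{0}} {el : L.X 0} {T : Table}
    {x y : E.at (nerveT S L el).gpd.obj T} (h : nval S x = nval S y) : x = y :=
  ((nerveT S L el).atEquiv T).injective (NerveVal.ext h)

theorem exists_nval (S : CylSys E) {L : Cx.{0}} (el : L.X 0) {T : Table} (F : CxHom (Ab T) L)
    (hF : F.f 0 (abE T) = el) :
    ∃ x : E.at (nerveT S L el).gpd.obj T, nval S x = F :=
  ⟨((nerveT S L el).atEquiv T).symm ⟨F, hF⟩, congrArg NerveVal.hom (Equiv.apply_symm_apply _ _)⟩

theorem exists_side_of_cell {n k : ℕ} (c : TCell (disc (n + 1)) k) :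
    (∃ h : k = n + 1, c = h ▸ TCell.top (n + 1)) ∨
      ∃ (e : Bool) (c' : TCell (disc n) k), c = TCell.map (side e n.lt_succ_self) c' := by
  rcases TCell.disc_cells c with h | ⟨e, hk, rfl⟩
  · exact Or.inl h
  · rcases Nat.lt_or_eq_of_le (Nat.le_of_lt_succ hk) with h | h
    · exact Or.inr ⟨false, TCell.below e h, (TCell.map_side_below false e _ h).symm⟩
    · subst h
      exact Or.inr ⟨e, TCell.top k, (TCell.map_side_top e _).symm⟩

theorem ab_ext_zero {L : Cx.{0}} {F G : CxHom (Ab (disc 0)) L}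
    (h0 : F.f 0 (abE _) = G.f 0 (abE _))
    (h : F.f 1 (abCell (TCell.top 0)) = G.f 1 (abCell (TCell.top 0))) : F = G := by
  refine ab_ext h0 fun k c => ?_
  rcases TCell.disc_cells c with ⟨hk, rfl⟩ | ⟨e, hk, rfl⟩
  · subst hk
    exact h
  · exact absurd hk (Nat.not_lt_zero k)

theorem exists_ab_zero {L : Cx.{0}} (el : L.X 0) (v : L.X 1) (hv : L.d 0 v = el) :
    ∃ F : CxHom (Ab (disc 0)) L, F.f 0 (abE _) = el ∧ F.f 1 (abCell (TCell.top 0)) = v := by
  refine ⟨abHom el (fun k _ => match k with | 0 => v | _ + 1 => 0) (fun _ => hv) (fun k c => ?_),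
    abHom_e _ _ _ _, abHom_cell _ _ _ _ _ _⟩
  exfalso
  rcases TCell.disc_cells c with ⟨hk, -⟩ | ⟨e, hk, -⟩
  · exact absurd hk (Nat.succ_ne_zero k)
  · exact absurd hk (Nat.not_lt_zero _)

theorem ab_ext_disc {n : ℕ} {L : Cx.{0}} {F G : CxHom (Ab (disc (n + 1))) L}
    (hs : ∀ e, F.comp (abMap (side e n.lt_succ_self)) = G.comp (abMap (side e n.lt_succ_self)))
    (h : F.f (n + 1 + 1) (abCell (TCell.top (n + 1))) =
      G.f (n + 1 + 1) (abCell (TCell.top (n + 1)))) : F = G := by
  refine ab_ext ?_ fun k c => ?_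
  · have h0 := congrArg (fun K => K.f 0 (abE _)) (hs false)
    exact (congrArg (F.f 0) (abMap_e _)).symm.trans (h0.trans (congrArg (G.f 0) (abMap_e _)))
  · rcases exists_side_of_cell c with ⟨hk, rfl⟩ | ⟨e, c', rfl⟩
    · subst hk
      exact h
    · rw [← abMap_cell]
      exact congrArg (fun K => K.f (k + 1) (abCell c')) (hs e)

theorem exists_ab_disc {n : ℕ} {L : Cx.{0}} (el : L.X 0) (a : Bool → CxHom (Ab (disc n)) L)
    (ha : ∀ e, (a e).f 0 (abE _) = el)
    (hpar : ∀ j (_ : j + 1 = n) (h : j < n) e,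
      (a false).comp (abMap (side e h)) = (a true).comp (abMap (side e h)))
    (v : L.X (n + 1 + 1))
    (hv : L.d (n + 1) v = (a true).f (n + 1) (abCell (TCell.top n)) -
      (a false).f (n + 1) (abCell (TCell.top n))) :
    ∃ F : CxHom (Ab (disc (n + 1))) L, (∀ e, F.comp (abMap (side e n.lt_succ_self)) = a e) ∧
      F.f 0 (abE _) = el ∧ F.f (n + 1 + 1) (abCell (TCell.top (n + 1))) = v := by
  have hlow : ∀ k (b : Bool) (h : k < n),
      (a true).f (k + 1) (abCell (TCell.below b h)) = (a false).f (k + 1) (abCell (TCell.below b h)) := by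
    intro k b h
    obtain ⟨j, rfl⟩ : ∃ j, n = j + 1 := ⟨n - 1, by omega⟩
    rcases exists_side_of_cell (TCell.below b h) with ⟨hk, -⟩ | ⟨e, c', hc⟩
    · omega
    · rw [hc, ← abMap_cell]
      exact (congrArg (fun K => K.f (k + 1) (abCell c')) (hpar j rfl j.lt_succ_self e)).symm
  let val : ∀ k, TCell (disc (n + 1)) k → L.X (k + 1) := fun k =>
    cellLift (fun _ g => match g with
      | ⟨none, hk⟩ => (show n + 1 = k from hk.symm) ▸ v
      | ⟨some b, hk⟩ =>
        if h : k < n then (a false).f (k + 1) (abCell (TCell.below b h))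
        else (show n = k by have h' : k < n + 1 := hk; omega) ▸
          (a b).f (n + 1) (abCell (TCell.top n))) fun p => p.elim0
  have hval : ∀ k e (c' : TCell (disc n) k),
      val k (TCell.map (side e n.lt_succ_self) c') = (a e).f (k + 1) (abCell c') := by
    intro k e c'
    rcases TCell.disc_cells c' with ⟨hk, rfl⟩ | ⟨b, hk, rfl⟩
    · subst hk
      rw [TCell.map_side_top]
      exact dif_neg (lt_irrefl k)
    · rw [TCell.map_side_below]
      refine (dif_pos hk).trans ?_
      cases e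
      · rfl
      · exact (hlow k b hk).symm
  have htop : val (n + 1) (TCell.top (n + 1)) = v := rfl
  have h0 : ∀ c, L.d 0 (val 0 c) = el := fun c => by
    rcases exists_side_of_cell c with ⟨hk, -⟩ | ⟨e, c', rfl⟩
    · omega
    · rw [hval, ← (a e).comm, d_abCell_zero, ha]
  have h1 : ∀ k c, L.d (k + 1) (val (k + 1) c) =
      val k (TCell.face true c) - val k (TCell.face false c) := fun k c => by
    rcases exists_side_of_cell c with ⟨hk, hc⟩ | ⟨e, c', rfl⟩
    · obtain rfl : k = n := Nat.succ.inj hk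
      obtain rfl : c = TCell.top (k + 1) := hc
      rw [TCell.face_top, TCell.face_top, ← TCell.map_side_top true k.lt_succ_self,
        ← TCell.map_side_top false k.lt_succ_self, hval, hval, htop, hv]
    · rw [← TCell.map_face, ← TCell.map_face, hval, hval, hval, ← (a e).comm, d_abCell, map_sub]
  refine ⟨abHom el val h0 h1, fun e => ab_ext ?_ fun k c => ?_, abHom_e _ _ _ _,
    (abHom_cell _ _ _ _ _ _).trans htop⟩
  · exact (congrArg ((abHom el val h0 h1).f 0) (abMap_e _)).trans
      ((abHom_e _ _ _ _).trans (ha e).symm)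
  · exact (congrArg ((abHom el val h0 h1).f (k + 1)) (abMap_cell _ c)).trans
      ((abHom_cell _ _ _ _ _ _).trans (hval k e c))

theorem nval_par (S : CylSys E) {L : Cx.{0}} {el : L.X 0} {n : ℕ}
    {a b : E.cells (nerveT S L el).gpd.obj n} (h : E.Par (nerveT S L el).gpd.obj a b)
    (j : ℕ) (hj : j + 1 = n) (hjn : j < n) (e : Bool) :
    (nval S a).comp (abMap (side e hjn)) = (nval S b).comp (abMap (side e hjn)) := by
  subst hj
  rw [← S.ab_map, ← nval_act, ← nval_act]
  exact congrArg (nval S) (h e)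

theorem nval_side (S : CylSys E) {L : Cx.{0}} {el : L.X 0} {n : ℕ} (e : Bool)
    (x : E.cells (nerveT S L el).gpd.obj (n + 1)) :
    nval S (E.act (nerveT S L el).gpd.obj (E.face e n) x) =
      (nval S x).comp (abMap (side e n.lt_succ_self)) := by
  rw [nval_act, S.ab_map]

/-- Cells of the model of chain maps with given sides and top value. -/
theorem exists_nerve_cell (S : CylSys E) {L : Cx.{0}} {el : L.X 0} {n : ℕ}
    {a b : E.cells (nerveT S L el).gpd.obj n} (h : E.Par (nerveT S L el).gpd.obj a b)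
    (v : L.X (n + 1 + 1))
    (hv : L.d (n + 1) v = (nval S b).f (n + 1) (abCell (TCell.top n)) -
      (nval S a).f (n + 1) (abCell (TCell.top n))) :
    ∃ z, E.HasSides (nerveT S L el).gpd.obj z a b ∧
      (nval S z).f (n + 1 + 1) (abCell (TCell.top (n + 1))) = v := by
  obtain ⟨F, hF, hF0, hFt⟩ := exists_ab_disc el (fun e => bif e then nval S b else nval S a)
    (fun e => by cases e <;> exact nval_aug S _)
    (fun j hj hjn e => nval_par S h j hj hjn e) v hv
  obtain ⟨z, hz⟩ := exists_nval S el F hF0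
  refine ⟨z, ⟨nval_injective S ?_, nval_injective S ?_⟩, by rw [hz]; exact hFt⟩
  · rw [nval_side, hz]
    exact hF false
  · rw [nval_side, hz]
    exact hF true

end

end Vale.Agent.P259.Free
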