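import Vale.Agent.P259.Simp
import Vale.Agent.P259.Free.Cellular

/-!
# P259, module D: chains of ordered complexes

Defined inside chains of tuples, with the recursive formula for the boundary.
-/

namespace Vale.Agent.P259.Free

open Vale.Agent.P259.Cat

noncomputable section

variable {V W : Type}

/-- Tuples. -/
abbrev Tup (V : Type) (k : ℕ) : Type := Fin k → V

/-- Prepend, linearly. -/
def consT (a : V) (k : ℕ) : (Tup V k →₀ ℤ) →+ (Tup V (k + 1) →₀ ℤ) :=
  Finsupp.mapDomain.addMonoidHom fun t => Fin.cons a t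

theorem consT_single (a : V) (k : ℕ) (t : Tup V k) (n : ℤ) :
    consT a k (Finsupp.single t n) = Finsupp.single (Fin.cons a t) n :=
  Finsupp.mapDomain_single

/-- The boundary of a tuple. -/
def dT : ∀ k, Tup V (k + 1) → (Tup V k →₀ ℤ)
  | 0, _ => Finsupp.single Fin.elim0 1
  | k + 1, t => Finsupp.single (Fin.tail t) 1 - consT (t 0) k (dT k (Fin.tail t))

theorem dT_cons (k : ℕ) (a : V) (y : Tup V (k + 1)) :
    dT (k + 1) (Fin.cons a y) = Finsupp.single y 1 - consT a k (dT k y) := by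
  rw [dT, Fin.tail_cons, Fin.cons_zero]

theorem lin_dT_consT (k : ℕ) (a : V) (x : Tup V (k + 1) →₀ ℤ) :
    lin (dT (k + 1)) (consT a (k + 1) x) = x - consT a k (lin (dT k) x) := by
  refine hom_ext (f := (lin (dT (k + 1))).comp (consT a (k + 1)))
    (g := AddMonoidHom.id _ - (consT a k).comp (lin (dT k))) ?_ x
  intro y
  simp [consT_single, lin_single, dT_cons]

theorem dT_dT : ∀ (k : ℕ) (t : Tup V (k + 1 + 1)), lin (dT k) (dT (k + 1) t) = 0
  | 0, t => by
      show lin (dT 0) (Finsupp.single (Fin.tail t) 1 - consT (t 0) 0 (dT 0 (Fin.tail t))) = 0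
      rw [dT, consT_single, map_sub, lin_single, lin_single]
      show (1 : ℤ) • dT 0 _ - (1 : ℤ) • dT 0 _ = 0
      rw [dT, dT, sub_self]
  | k + 1, t => by
      show lin (dT (k + 1)) (Finsupp.single (Fin.tail t) 1 -
        consT (t 0) (k + 1) (dT (k + 1) (Fin.tail t))) = 0
      rw [map_sub, lin_dT_consT, dT_dT k, map_zero, sub_zero, lin_single, one_smul, sub_self]

/-- Pushforward of tuples. -/
def pushT (φ : V → W) (k : ℕ) : (Tup V k →₀ ℤ) →+ (Tup W k →₀ ℤ) :=
  Finsupp.mapDomain.addMonoidHom fun t => φ ∘ t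

theorem pushT_single (φ : V → W) (k : ℕ) (t : Tup V k) (n : ℤ) :
    pushT φ k (Finsupp.single t n) = Finsupp.single (φ ∘ t) n := Finsupp.mapDomain_single

theorem pushT_consT (φ : V → W) (a : V) (k : ℕ) (x : Tup V k →₀ ℤ) :
    pushT φ (k + 1) (consT a k x) = consT (φ a) k (pushT φ k x) := by
  refine hom_ext (f := (pushT φ (k + 1)).comp (consT a k)) (g := (consT (φ a) k).comp (pushT φ k))
    ?_ x
  intro t
  simp [consT_single, pushT_single, Fin.comp_cons]

theorem pushT_dT (φ : V → W) : ∀ (k : ℕ) (t : Tup V (k + 1)),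
    pushT φ k (dT k t) = dT k (φ ∘ t)
  | 0, t => by
      show pushT φ 0 (Finsupp.single Fin.elim0 1) = _
      rw [pushT_single]
      exact congrArg (fun s => Finsupp.single s (1 : ℤ)) (funext fun i => i.elim0)
  | k + 1, t => by
      show pushT φ (k + 1) (Finsupp.single (Fin.tail t) 1 - consT (t 0) k (dT k (Fin.tail t))) =
        Finsupp.single (Fin.tail (φ ∘ t)) 1 - consT (φ (t 0)) k (dT k (Fin.tail (φ ∘ t)))
      rw [map_sub, pushT_single, pushT_consT, pushT_dT φ k]
      rfl

theorem mem_support_dT : ∀ (k : ℕ) (t : Tup V (k + 1)) (s : Tup V k), s ∈ (dT k t).support →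
    ∃ i : Fin (k + 1), s = t ∘ i.succAbove
  | 0, _, s, _ => ⟨0, funext fun i => i.elim0⟩
  | k + 1, t, s, hs => by
      classical
      rcases Finset.mem_union.1 (Finsupp.support_sub hs) with h | h
      · obtain rfl := Finset.mem_singleton.1 (Finsupp.support_single_subset h)
        exact ⟨0, funext fun i => congrArg t (Fin.succAbove_zero_apply i).symm⟩
      · obtain ⟨y, hy, rfl⟩ := Finset.mem_image.1 (Finsupp.mapDomain_support h)
        obtain ⟨i, rfl⟩ := mem_support_dT k (Fin.tail t) y hy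
        refine ⟨i.succ, funext fun x => ?_⟩
        induction x using Fin.cases with
        | zero => simp
        | succ x => simp [Fin.tail, Fin.succ_succAbove_succ]

/-- Being a generator: any value in degree `0`, a simplex above. -/
def Ok (Q : OCx) : ∀ n, Tup Q.V n → Prop
  | 0, _ => True
  | _ + 1, t => Q.mem t

theorem ok_face (Q : OCx) : ∀ (n : ℕ) (t : Tup Q.V (n + 1)) (i : Fin (n + 1)), Ok Q (n + 1) t →
    Ok Q n (t ∘ i.succAbove)
  | 0, _, _, _ => trivial
  | n + 1, _, i, h => Q.face ⟨i.succAbove, (Fin.strictMono_succAbove i).monotone⟩ h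
      Fin.succAbove_right_injective

/-- Generators of the chains. -/
abbrev CGen (Q : OCx) (n : ℕ) : Type := {t : Tup Q.V n // Ok Q n t}

/-- Chains read as sums of tuples. -/
def embT (Q : OCx) (n : ℕ) : (CGen Q n →₀ ℤ) →+ (Tup Q.V n →₀ ℤ) :=
  Finsupp.mapDomain.addMonoidHom Subtype.val

theorem embT_injective (Q : OCx) (n : ℕ) : Function.Injective (embT Q n) :=
  Finsupp.mapDomain_injective Subtype.val_injective

theorem embT_single (Q : OCx) (n : ℕ) (c : CGen Q n) (m : ℤ) :
    embT Q n (Finsupp.single c m) = Finsupp.single c.1 m := Finsupp.mapDomain_single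

theorem exists_embT {Q : OCx} {n : ℕ} (x : Tup Q.V n →₀ ℤ) (h : ∀ s ∈ x.support, Ok Q n s) :
    ∃ y, embT Q n y = x :=
  ⟨Finsupp.comapDomain Subtype.val x Subtype.val_injective.injOn,
    Finsupp.mapDomain_comapDomain _ Subtype.val_injective _ fun s hs => ⟨⟨s, h s hs⟩, rfl⟩⟩

/-- The boundary of a simplex. -/
def chBdy (Q : OCx) (n : ℕ) (c : CGen Q (n + 1)) : CGen Q n →₀ ℤ :=
  (exists_embT (dT n c.1) fun s hs => by
    obtain ⟨i, rfl⟩ := mem_support_dT n c.1 s hs
    exact ok_face Q n c.1 i c.2).choose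

theorem embT_chBdy (Q : OCx) (n : ℕ) (c : CGen Q (n + 1)) :
    embT Q n (chBdy Q n c) = dT n c.1 :=
  (exists_embT (dT n c.1) fun s hs => by
    obtain ⟨i, rfl⟩ := mem_support_dT n c.1 s hs
    exact ok_face Q n c.1 i c.2).choose_spec

theorem embT_lin_chBdy (Q : OCx) (n : ℕ) (x : CGen Q (n + 1) →₀ ℤ) :
    embT Q n (lin (chBdy Q n) x) = lin (dT n) (embT Q (n + 1) x) := by
  refine hom_ext (f := (embT Q n).comp (lin (chBdy Q n)))
    (g := (lin (dT n)).comp (embT Q (n + 1))) ?_ x
  intro c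
  simp [embT_single, lin_single, embT_chBdy]

/-- The chains of an ordered complex. -/
def chCells (Q : OCx) : Cells.{0} where
  σ := CGen Q
  bdy := chBdy Q
  bdd n c := embT_injective Q n (by rw [embT_lin_chBdy, embT_chBdy, dT_dT, map_zero])

/-- The complex. -/
abbrev ch (Q : OCx) : Cx.{0} := (chCells Q).cx

/-- The augmentation element. -/
def chE (Q : OCx) : (ch Q).X 0 := @Finsupp.single (CGen Q 0) ℤ _ ⟨Fin.elim0, trivial⟩ 1

/-- The generator of a simplex. -/
def chGen {Q : OCx} {k : ℕ} (v : Q.Simp k) : (ch Q).X (k + 1) :=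
  @Finsupp.single (CGen Q (k + 1)) ℤ _ v 1

theorem cgen_zero_eq {Q : OCx} (c : CGen Q 0) : c = ⟨Fin.elim0, trivial⟩ :=
  Subtype.ext (funext fun i => i.elim0)

theorem embT_chE (Q : OCx) : embT Q 0 (chE Q) = Finsupp.single Fin.elim0 1 := embT_single _ _ _ _

theorem embT_chGen {Q : OCx} {k : ℕ} (v : Q.Simp k) :
    embT Q (k + 1) (chGen v) = Finsupp.single v.1 1 := embT_single _ _ _ _

theorem embT_d (Q : OCx) (n : ℕ) (x : (ch Q).X (n + 1)) :
    embT Q n ((ch Q).d n x) = lin (dT n) (embT Q (n + 1) x) := embT_lin_chBdy Q n x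

theorem d_chGen_zero {Q : OCx} (v : Q.Simp 0) : (ch Q).d 0 (chGen v) = chE Q :=
  embT_injective Q 0 (by rw [embT_d, embT_chGen, lin_single, one_smul, embT_chE]; rfl)

/-- Extensionality for maps of chains. -/
theorem ch_ext {Q : OCx} {L : Cx.{0}} {f g : CxHom (ch Q) L} (h0 : f.f 0 (chE Q) = g.f 0 (chE Q))
    (h : ∀ k (v : Q.Simp k), f.f (k + 1) (chGen v) = g.f (k + 1) (chGen v)) : f = g := by
  refine Cells.hom_eq fun n c => ?_
  cases n with
  | zero => rw [cgen_zero_eq c]; exact h0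
  | succ k => exact h k c

/-- A vertex map sending simplices to simplices. -/
def IsSimpMap (Q Q' : OCx) (φ : Q.V → Q'.V) : Prop := ∀ {k} (v : Q.Simp k), Q'.mem (φ ∘ v.1)

theorem IsSimpMap.ok {Q Q' : OCx} {φ : Q.V → Q'.V} (h : IsSimpMap Q Q' φ) :
    ∀ {n} (c : CGen Q n), Ok Q' n (φ ∘ c.1)
  | 0, _ => trivial
  | _ + 1, c => h c

/-- Push forward of generators. -/
def pushGen {Q Q' : OCx} {φ : Q.V → Q'.V} (h : IsSimpMap Q Q' φ) (n : ℕ) (c : CGen Q n) :
    CGen Q' n := ⟨φ ∘ c.1, h.ok c⟩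

theorem embT_pushGen {Q Q' : OCx} {φ : Q.V → Q'.V} (h : IsSimpMap Q Q' φ) (n : ℕ)
    (x : CGen Q n →₀ ℤ) :
    embT Q' n (lin (fun c => Finsupp.single (pushGen h n c) 1) x) = pushT φ n (embT Q n x) := by
  refine hom_ext (f := (embT Q' n).comp (lin fun c => Finsupp.single (pushGen h n c) 1))
    (g := (pushT φ n).comp (embT Q n)) ?_ x
  intro c
  simp [lin_single, embT_single, pushT_single, pushGen]

/-- The chain map of a simplicial vertex map. -/
def chMap {Q Q' : OCx} {φ : Q.V → Q'.V} (h : IsSimpMap Q Q' φ) : CxHom (ch Q) (ch Q') :=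
  Cells.toHom (A := chCells Q) (fun n c => @Finsupp.single (CGen Q' n) ℤ _ (pushGen h n c) 1)
    fun n c => embT_injective Q' n (by
      refine (embT_pushGen h n _).trans ?_
      refine (congrArg (pushT φ n) (embT_chBdy Q n c)).trans ?_
      refine (pushT_dT φ n c.1).trans (Eq.symm ?_)
      refine (embT_d Q' n _).trans ?_
      refine (congrArg (lin (dT n)) (embT_single Q' (n + 1) (pushGen h (n + 1) c) 1)).trans ?_
      exact (lin_single _ _ _).trans (one_smul _ _))

theorem chMap_gen {Q Q' : OCx} {φ : Q.V → Q'.V} (h : IsSimpMap Q Q' φ) {k : ℕ} (v : Q.Simp k) :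
    (chMap h).f (k + 1) (chGen v) = chGen (⟨φ ∘ v.1, h v⟩ : Q'.Simp k) :=
  Cells.toHom_single (A := chCells Q) _ _ (k + 1) v

theorem chMap_e {Q Q' : OCx} {φ : Q.V → Q'.V} (h : IsSimpMap Q Q' φ) :
    (chMap h).f 0 (chE Q) = chE Q' :=
  (Cells.toHom_single (A := chCells Q) _ _ 0 _).trans
    (congrArg (fun c => @Finsupp.single (CGen Q' 0) ℤ _ c 1) (cgen_zero_eq _))

theorem chMap_emb {Q Q' : OCx} {φ : Q.V → Q'.V} (h : IsSimpMap Q Q' φ) (n : ℕ) (x : (ch Q).X n) :
    embT Q' n ((chMap h).f n x) = pushT φ n (embT Q n x) :=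
  embT_pushGen h n x

theorem chMap_comp {Q Q' Q'' : OCx} {φ : Q.V → Q'.V} {ψ : Q'.V → Q''.V} (h : IsSimpMap Q Q' φ)
    (h' : IsSimpMap Q' Q'' ψ) (h'' : IsSimpMap Q Q'' (ψ ∘ φ)) :
    chMap h'' = (chMap h').comp (chMap h) := by
  refine ch_ext ?_ fun k v => ?_
  · show _ = (chMap h').f 0 ((chMap h).f 0 _)
    rw [chMap_e, chMap_e, chMap_e]
  · show _ = (chMap h').f (k + 1) ((chMap h).f (k + 1) _)
    rw [chMap_gen, chMap_gen, chMap_gen]
    rfl

theorem chMap_id (Q : OCx) (h : IsSimpMap Q Q id) : chMap h = CxHom.id _ :=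
  ch_ext (chMap_e h) fun _ v => chMap_gen h v

/-- Tuples inside a set of vertices. -/
def Within {n : ℕ} (U : Set V) (x : Tup V n →₀ ℤ) : Prop :=
  ∀ s ∈ x.support, ∀ i, s i ∈ U

open Classical in
/-- The cone operator at a first vertex. -/
def coneT (m : V) : ∀ n, Tup V n → (Tup V (n + 1) →₀ ℤ)
  | 0, t => Finsupp.single (Fin.cons m t) 1
  | n + 1, t => if t 0 = m then 0 else Finsupp.single (Fin.cons m t) 1

theorem coneT_consT (m : V) (n : ℕ) (x : Tup V n →₀ ℤ) :
    lin (coneT m (n + 1)) (consT m n x) = 0 := by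
  refine hom_ext (f := (lin (coneT m (n + 1))).comp (consT m n)) (g := 0) ?_ x
  intro t
  simp [consT_single, lin_single, coneT]

theorem d_coneT (m : V) : ∀ (n : ℕ) (t : Tup V (n + 1)), (∀ i, i ≠ 0 → t i ≠ m) →
    lin (dT (n + 1)) (coneT m (n + 1) t) + lin (coneT m n) (dT n t) = Finsupp.single t 1 := by
  classical
  intro n t ht
  by_cases h0 : t 0 = m
  · rw [coneT, if_pos h0, map_zero, zero_add]
    obtain ⟨y, rfl⟩ : ∃ y, t = Fin.cons m y :=
      ⟨Fin.tail t, (congrArg (fun a => Fin.cons a (Fin.tail t)) h0).symm.trans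
        (Fin.cons_self_tail t) |>.symm⟩
    cases n with
    | zero =>
        show lin (coneT m 0) (Finsupp.single Fin.elim0 1) = _
        rw [lin_single, one_smul, coneT]
        exact congrArg (fun s : Tup V 0 => (Finsupp.single (Fin.cons m s) 1 : Tup V 1 →₀ ℤ)) (funext fun i => i.elim0)
    | succ k =>
        have hy : y 0 ≠ m := by
          have := ht (Fin.succ 0) (Fin.succ_ne_zero _)
          rwa [Fin.cons_succ] at this
        rw [dT_cons, map_sub, coneT_consT, sub_zero, lin_single, one_smul, coneT, if_neg hy]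
  · rw [coneT, if_neg h0, lin_single, one_smul, dT_cons]
    have hc : lin (coneT m n) (dT n t) = consT m n (dT n t) := by
      cases n with
      | zero =>
          show lin (coneT m 0) (Finsupp.single Fin.elim0 1) = consT m 0 (Finsupp.single Fin.elim0 1)
          rw [lin_single, one_smul, consT_single, coneT]
      | succ k =>
          simp only [lin, Finsupp.liftAddHom_apply]
          refine Eq.trans ?_ (congrArg (consT m (k + 1)) (Finsupp.sum_single (dT (k + 1) t)))
          simp only [Finsupp.sum, map_sum]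
          refine Finset.sum_congr rfl fun s hs => ?_
          obtain ⟨i, rfl⟩ := mem_support_dT (k + 1) t s hs
          have hne : (t ∘ i.succAbove) 0 ≠ m := by
            show t (i.succAbove 0) ≠ m
            by_cases hi : i.succAbove (0 : Fin (k + 1)) = 0
            · rw [hi]; exact h0
            · exact ht _ hi
          rw [zmultiplesHom_apply, coneT, if_neg hne, consT_single, Finsupp.smul_single]
          simp
    rw [hc]
    abel

theorem d_coneT_zero (m : V) (t : Tup V 0) :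
    lin (dT 0) (coneT m 0 t) = Finsupp.single t 1 := by
  rw [coneT, lin_single, one_smul, dT]
  exact congrArg (fun s => Finsupp.single s (1 : ℤ)) (funext fun i => i.elim0)

end

end Vale.Agent.P259.Free
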