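import Vale.Agent.P259.Free.Nerve
import Vale.Agent.P259.Glob.Rec
import Vale.Agent.P259.Glob.Table

/-!
# P259, module D: points of globular sums in a coherator

A map out of the point in a coherator is a vertex of the globular sum: this holds for the maps of
globular sums and persists over every lift.
-/

namespace Vale.Agent.P259.Free

open CategoryTheory Opposite

noncomputable section

variable {E : Ext}

/-- A point of a globular sum lies in a position. -/
theorem exists_position {T : Table} (c : disc 0 ⟶ T) :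
    ∃ (p : Fin (T.len + 1)) (d : disc 0 ⟶ disc (T.top p)), c = d ≫ incl T p := by
  rcases Glob.disc_hom_cases c with ⟨p, h, rfl⟩ | ⟨p, e, h, rfl⟩
  · exact ⟨p, eqToHom (congrArg disc h), rfl⟩
  · exact ⟨p, side e h, rfl⟩

/-- A point of a disc of positive dimension comes from a side. -/
theorem exists_side_point {n : ℕ} (c : disc 0 ⟶ disc (n + 1)) :
    ∃ (e : Bool) (d : disc 0 ⟶ disc n), c = d ≫ side e n.lt_succ_self := by
  rcases exists_side_of_cell (TCell.map c (TCell.top 0)) with ⟨h, -⟩ | ⟨e, c', hc⟩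
  · omega
  · refine ⟨e, Glob.ofCell (disc n) c', ?_⟩
    rw [← ofCell_map, ← hc]
    exact (Glob.ofCell_self c).symm

/-- A map sending vertices to vertices. -/
structure VHom (E : Ext) (S T : Table) : Type where
  φ : E.M S T
  vtx : ∀ c : disc 0 ⟶ S, ∃ c' : disc 0 ⟶ T, E.i.map c ≫ φ = E.i.map c'

theorem VHom.ext' {S T : Table} {f g : VHom E S T} (h : f.φ = g.φ) : f = g := by
  obtain ⟨φ, a⟩ := f
  obtain ⟨ψ, b⟩ := g
  dsimp at h
  subst h
  rfl

/-- Globular sums with maps sending vertices to vertices. -/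
structure VObj (E : Ext) : Type 1 where
  T : Table

instance VObj.category (E : Ext) : Category.{0} (VObj E) where
  Hom S T := VHom E S.T T.T
  id S := ⟨𝟙 _, fun c => ⟨c, Category.comp_id _⟩⟩
  comp f g := ⟨f.φ ≫ g.φ, fun c => by
    obtain ⟨c', hc'⟩ := f.vtx c
    obtain ⟨c'', hc''⟩ := g.vtx c'
    exact ⟨c'', by rw [← Category.assoc, hc', hc'']⟩⟩
  id_comp f := VHom.ext' (Category.id_comp _)
  comp_id f := VHom.ext' (Category.comp_id _)
  assoc f g h := VHom.ext' (Category.assoc _ _ _)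

/-- Globular sums in the displayed category. -/
def vOb (E : Ext) : Table ⥤ VObj E where
  obj T := ⟨T⟩
  map f := ⟨E.i.map f, fun c => ⟨c ≫ f, (E.i.map_comp _ _).symm⟩⟩
  map_id T := VHom.ext' (E.i.map_id T)
  map_comp f g := VHom.ext' (E.i.map_comp f g)

theorem vOb_sums (E : Ext) : PreservesSums (vOb E) := by
  intro T Z f hf
  obtain ⟨φ, hφ, hu⟩ := E.sums T (E.i.obj Z.T) (fun p => (f p).φ)
    (fun p => congrArg VHom.φ (hf p))
  refine ⟨⟨φ, fun c => ?_⟩, fun p => VHom.ext' (hφ p),
    fun q hq => VHom.ext' (hu q.φ fun p => congrArg VHom.φ (hq p))⟩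
  obtain ⟨p, d, rfl⟩ := exists_position c
  obtain ⟨c', hc'⟩ := (f p).vtx d
  exact ⟨c', ((congrArg (· ≫ φ) (E.i.map_comp _ _)).trans (Category.assoc _ _ _)).trans
    ((congrArg (E.i.map d ≫ ·) (hφ p)).trans hc')⟩

/-- Maps sending vertices to vertices, displayed over the extension. -/
def vDisplayed (E : Ext) : Glob.Displayed E where
  K := VObj E
  ob := vOb E
  sums := vOb_sums E
  proj := { obj := fun T => E.i.obj T.T, map := fun f => f.φ }
  proj_ob := rfl

theorem vDisplayed_lifts (E : Ext) : (vDisplayed E).HasLifts := by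
  intro n T _ f g _ h hhf hhg
  have hf : E.face false n ≫ h = f.φ := eq_of_heq hhf
  have hg : E.face true n ≫ h = g.φ := eq_of_heq hhg
  refine ⟨(⟨h, fun c => ?_⟩ : VHom E (disc (n + 1)) T), VHom.ext' hf, VHom.ext' hg, HEq.rfl⟩
  obtain ⟨e, d, rfl⟩ := exists_side_point c
  rw [E.i.map_comp, Category.assoc]
  cases e
  · obtain ⟨c', hc'⟩ := f.vtx d
    exact ⟨c', (congrArg (E.i.map d ≫ ·) hf).trans hc'⟩
  · obtain ⟨c', hc'⟩ := g.vtx d
    exact ⟨c', (congrArg (E.i.map d ≫ ·) hg).trans hc'⟩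

/-- **Points are vertices.** -/
theorem exists_vertex (C : Coherator) {T : Table} (π : C.C.M (disc 0) T) :
    ∃ c : disc 0 ⟶ T, C.C.i.map c = π := by
  obtain ⟨G, hG, hGp⟩ := Glob.exists_section (vDisplayed_lifts C.C)
  have hob : ∀ S, G.obj (C.C.i.obj S) = (vOb C.C).obj S := CategoryTheory.Functor.congr_obj hG
  let k : (vOb C.C).obj (disc 0) ⟶ (vOb C.C).obj T :=
    Glob.recast (hob _).symm (hob T) (G.map π)
  have hk : (vDisplayed C.C).proj.map k = π :=
    eq_of_heq ((Glob.heq_map_of_heq (vDisplayed C.C).proj (hob _).symm (hob T).symm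
      (Glob.recast_heq _ _ (G.map π))).trans (Glob.heq_map_functor hGp π))
  obtain ⟨c', hc'⟩ := k.vtx (𝟙 (disc 0))
  exact ⟨c', hc'.symm.trans
    (((congrArg (· ≫ k.φ) (C.C.i.map_id _)).trans (Category.id_comp _)).trans hk)⟩

end

end Vale.Agent.P259.Free
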