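import Vale.Agent.P259.Glob.Paths
import Vale.Agent.P259.Elem.Pi
import Vale.Agent.P259.Free.Points
import Vale.Agent.P259.Free.Tabled

/-!
# P259, module D: arrows of cells of dimension one; gauges

A gauge is a choice of an arrow to every vertex from a base point. The elements whose edges respect
a gauge form a model.
-/

namespace Vale.Agent.P259.Free

open CategoryTheory Opposite

noncomputable section

section General

variable {E : Ext} (hE : E.Contractible) {X : E.Gpd}

/-- The fundamental groupoid. -/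
abbrev P1 (hE : E.Contractible) (X : E.Gpd) : Type :=
  Elem.Pi (Ext.hFill hE) (E.glues_tabPsh X)

/-- A point, as an object. -/
abbrev pobj (a : E.cells X.obj 0) : P1 hE X := ⟨a⟩

/-- The arrow of a cell. -/
def arr (f : E.cells X.obj 1) {a b : E.cells X.obj 0}
    (ha : E.act X.obj (E.face false 0) f = a) (hb : E.act X.obj (E.face true 0) f = b) :
    pobj hE a ⟶ pobj hE b :=
  (E.edgeOfCell f ha hb).arrow (Ext.hFill hE) (E.glues_tabPsh X)

/-- Linked cells have the same arrow. -/
theorem arr_linked {f g : E.cells X.obj 1} (h : E.Linked X.obj f g) {a b : E.cells X.obj 0}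
    (ha : E.act X.obj (E.face false 0) f = a) (hb : E.act X.obj (E.face true 0) f = b)
    (ha' : E.act X.obj (E.face false 0) g = a) (hb' : E.act X.obj (E.face true 0) g = b) :
    arr hE f ha hb = arr hE g ha' hb' := by
  obtain ⟨c, hf, hg⟩ := h
  refine Elem.cls_eq_of_parallel (Ext.hFill hE) _ _ (U := (⟨disc 2⟩ : E.Tab)) c
    (Ext.Tab.mk' (E.i.map (suspDisc 0) ≫ E.face false 1))
    (Ext.Tab.mk' (E.i.map (suspDisc 0) ≫ E.face true 1)) ?_ ?_
    (InducedCategory.hom_ext (Ext.pole_suspDisc_face false))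
    (InducedCategory.hom_ext (Ext.pole_suspDisc_face true))
  · exact (E.act_comp X.obj _ _ _).trans (congrArg (E.act X.obj (E.i.map (suspDisc 0))) hf)
  · exact (E.act_comp X.obj _ _ _).trans (congrArg (E.act X.obj (E.i.map (suspDisc 0))) hg)

/-- Cells with the same arrow are linked. -/
theorem linked_of_arr {f g : E.cells X.obj 1} {a b : E.cells X.obj 0}
    (ha : E.act X.obj (E.face false 0) f = a) (hb : E.act X.obj (E.face true 0) f = b)
    (ha' : E.act X.obj (E.face false 0) g = a) (hb' : E.act X.obj (E.face true 0) g = b)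
    (h : arr hE f ha hb = arr hE g ha' hb') : E.Linked X.obj f g := by
  have hl := Ext.linked_of_cls hE X (E.edgeOfCell f ha hb) (E.edgeOfCell g ha' hb') h
  rw [← E.act_discSusp X.obj f, ← E.act_discSusp X.obj g]
  exact hl

/-- Every arrow is the arrow of a cell. -/
theorem exists_arr {a b : E.cells X.obj 0} (m : pobj hE a ⟶ pobj hE b) :
    ∃ (f : E.cells X.obj 1) (ha : E.act X.obj (E.face false 0) f = a)
      (hb : E.act X.obj (E.face true 0) f = b), arr hE f ha hb = m := by
  obtain ⟨u, rfl⟩ := Quot.exists_rep m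
  exact ⟨E.act X.obj (E.i.map (discSusp 0)) u.1, (E.act_pole_discSusp X.obj false _).trans u.2.1,
    (E.act_pole_discSusp X.obj true _).trans u.2.2,
    congrArg Elem.Edge.cls (Subtype.ext (E.act_suspDisc X.obj u.1))⟩

/-- A map of models, on presheaves indexed by tables. -/
def tabMap {Y : E.Gpd} (g : X ⟶ Y) : Cat.ShHom (E.tabPsh X.obj) (E.tabPsh Y.obj) where
  app _ x := g.hom.app _ x
  nat f x := (E.act_natural g.hom f.unop.hom x).symm

/-- The image of an arrow. -/
def mapP1 {Y : E.Gpd} (g : X ⟶ Y) {a b : E.cells X.obj 0} (m : pobj hE a ⟶ pobj hE b) :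
    pobj hE (E.appCell g.hom 0 a) ⟶ pobj hE (E.appCell g.hom 0 b) :=
  Quot.liftOn m
    (fun u => (u.mapTo (tabMap g) rfl rfl).arrow (Ext.hFill hE) (E.glues_tabPsh Y))
    fun u v h => Elem.Edge.mapTo_htp (tabMap g) _ _ (Quot.sound h : u.cls = v.cls)

theorem mapP1_comp {Y : E.Gpd} (g : X ⟶ Y) {a b c : E.cells X.obj 0}
    (m : pobj hE a ⟶ pobj hE b) (m' : pobj hE b ⟶ pobj hE c) :
    mapP1 hE g (m ≫ m') = mapP1 hE g m ≫ mapP1 hE g m' := by
  induction m using Quot.ind with
  | _ u =>
    induction m' using Quot.ind with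
    | _ v =>
      exact congrArg Elem.Edge.cls
        (Elem.Edge.mapTo_comp (Ext.hFill hE) (E.glues_tabPsh X) (E.glues_tabPsh Y) (tabMap g)
          rfl rfl rfl u v)

theorem mapP1_arr {Y : E.Gpd} (g : X ⟶ Y) (f : E.cells X.obj 1) {a b : E.cells X.obj 0}
    (ha : E.act X.obj (E.face false 0) f = a) (hb : E.act X.obj (E.face true 0) f = b) :
    mapP1 hE g (arr hE f ha hb) = arr hE (E.appCell g.hom 1 f)
      ((E.act_natural g.hom _ f).trans (congrArg (E.appCell g.hom 0) ha))
      ((E.act_natural g.hom _ f).trans (congrArg (E.appCell g.hom 0) hb)) :=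
  congrArg Elem.Edge.cls (Subtype.ext (E.act_natural g.hom _ f).symm)

theorem mapP1_id {Y : E.Gpd} (g : X ⟶ Y) (a : E.cells X.obj 0) :
    mapP1 hE g (𝟙 (pobj hE a)) = 𝟙 _ := by
  have h := mapP1_comp hE g (𝟙 (pobj hE a)) (𝟙 (pobj hE a))
  rw [Category.id_comp] at h
  exact (cancel_epi (mapP1 hE g (𝟙 (pobj hE a)))).1 (h.symm.trans (Category.comp_id _).symm)

include hE

/-- All parallel arrows of a representable agree. -/
theorem yon_thin (T : Table) {a b : E.cells (E.yon T).obj 0} (m m' : pobj hE a ⟶ pobj hE b) :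
    m = m' := by
  obtain ⟨f, ha, hb, rfl⟩ := exists_arr hE m
  obtain ⟨f', ha', hb', rfl⟩ := exists_arr hE m'
  refine arr_linked hE ((yonCtr E hE T).linked f f' fun e => ?_) _ _ _ _
  cases e
  · exact ha.trans ha'.symm
  · exact hb.trans hb'.symm

/-- There is an edge between two points of a globular sum. -/
theorem exists_tedge (T : Table) (π π' : E.M (disc 0) T) :
    ∃ η : E.M (disc 1) T, E.face false 0 ≫ η = π ∧ E.face true 0 ≫ η = π' :=
  (yonCtr E hE T).linked π π' trivial

/-- Parallel edges of a globular sum give linked cells. -/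
theorem act_linked {T : Table} (x : E.at X.obj T) (η η' : E.M (disc 1) T)
    (hs : E.face false 0 ≫ η = E.face false 0 ≫ η') (ht : E.face true 0 ≫ η = E.face true 0 ≫ η') :
    E.Linked X.obj (E.act X.obj η x) (E.act X.obj η' x) := by
  obtain ⟨l, l1, l2⟩ := hE η η' fun e => by
    cases e
    · exact hs
    · exact ht
  exact ⟨E.act X.obj l x, by rw [← E.act_comp, l1], by rw [← E.act_comp, l2]⟩

omit hE in
/-- The sides of the edge of an element. -/
theorem act_edge_end {T : Table} (x : E.at X.obj T) (η : E.M (disc 1) T) (e : Bool)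
    {π : E.M (disc 0) T} (h : E.face e 0 ≫ η = π) :
    E.act X.obj (E.face e 0) (E.act X.obj η x) = E.act X.obj π x := by
  rw [← E.act_comp, h]

/-- Composable edges of a globular sum give composable arrows. -/
theorem arr_act_comp {T : Table} (x : E.at X.obj T) {π π' π'' : E.M (disc 0) T}
    (η η' η'' : E.M (disc 1) T) (h1 : E.face false 0 ≫ η = π) (h2 : E.face true 0 ≫ η = π')
    (h3 : E.face false 0 ≫ η' = π') (h4 : E.face true 0 ≫ η' = π'')
    (h5 : E.face false 0 ≫ η'' = π) (h6 : E.face true 0 ≫ η'' = π'') :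
    arr hE (E.act X.obj η x) (act_edge_end x η false h1) (act_edge_end x η true h2) ≫
        arr hE (E.act X.obj η' x) (act_edge_end x η' false h3) (act_edge_end x η' true h4) =
      arr hE (E.act X.obj η'' x) (act_edge_end x η'' false h5) (act_edge_end x η'' true h6) := by
  have h := congrArg (mapP1 hE (E.ofValue X x)) (yon_thin hE T
    (arr hE (X := E.yon T) η h1 h2 ≫ arr hE (X := E.yon T) η' h3 h4)
    (arr hE (X := E.yon T) η'' h5 h6))
  have e1 := mapP1_arr hE (X := E.yon T) (E.ofValue X x) η h1 h2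
  have e2 := mapP1_arr hE (X := E.yon T) (E.ofValue X x) η' h3 h4
  have e3 := mapP1_arr hE (X := E.yon T) (E.ofValue X x) η'' h5 h6
  exact (((mapP1_comp hE (E.ofValue X x) _ _).trans (congrArg₂ (· ≫ ·) e1 e2)).symm.trans h).trans e3

/-- A loop of a globular sum gives an identity arrow. -/
theorem arr_act_loop {T : Table} (x : E.at X.obj T) {π : E.M (disc 0) T} (η : E.M (disc 1) T)
    (h1 : E.face false 0 ≫ η = π) (h2 : E.face true 0 ≫ η = π) :
    arr hE (E.act X.obj η x) (act_edge_end x η false h1) (act_edge_end x η true h2) = 𝟙 _ := by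
  have h := congrArg (mapP1 hE (E.ofValue X x))
    (yon_thin hE T (arr hE (X := E.yon T) η h1 h2) (𝟙 (pobj hE (X := E.yon T) π)))
  exact ((mapP1_arr hE (X := E.yon T) (E.ofValue X x) η h1 h2).symm.trans h).trans
    (mapP1_id hE (E.ofValue X x) _)

section Gauge

variable {V : Type} (vt : V → E.cells X.obj 0) {x₀ : E.cells X.obj 0}
  (U : ∀ v, pobj hE x₀ ⟶ pobj hE (vt v))

/-- The edge respects the gauge. -/
def Resp (f : E.cells X.obj 1) : Prop :=
  ∀ (v v' : V) (ha : E.act X.obj (E.face false 0) f = vt v)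
    (hb : E.act X.obj (E.face true 0) f = vt v'), U v ≫ arr hE f ha hb = U v'

theorem good_linked {f g : E.cells X.obj 1} (h : E.Linked X.obj f g) (hf : Resp hE vt U f) :
    Resp hE vt U g := by
  intro v v' ha hb
  rw [← arr_linked hE h ((h.par false).trans ha) ((h.par true).trans hb) ha hb]
  exact hf v v' _ _

theorem good_parallel {T : Table} (x : E.at X.obj T) (η η' : E.M (disc 1) T)
    (hs : E.face false 0 ≫ η = E.face false 0 ≫ η') (ht : E.face true 0 ≫ η = E.face true 0 ≫ η')
    (h : Resp hE vt U (E.act X.obj η x)) : Resp hE vt U (E.act X.obj η' x) :=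
  good_linked hE vt U (act_linked hE x η η' hs ht) h

variable (hvt : ∀ a, ∃ v, a = vt v)

include hvt in
theorem good_comp {T : Table} (x : E.at X.obj T) {π π' π'' : E.M (disc 0) T}
    (η η' η'' : E.M (disc 1) T) (h1 : E.face false 0 ≫ η = π) (h2 : E.face true 0 ≫ η = π')
    (h3 : E.face false 0 ≫ η' = π') (h4 : E.face true 0 ≫ η' = π'')
    (h5 : E.face false 0 ≫ η'' = π) (h6 : E.face true 0 ≫ η'' = π'')
    (hη : Resp hE vt U (E.act X.obj η x)) (hη' : Resp hE vt U (E.act X.obj η' x)) :
    Resp hE vt U (E.act X.obj η'' x) := by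
  intro v v'' ha hb
  obtain ⟨v', hv'⟩ := hvt (E.act X.obj π' x)
  have e0 := (act_edge_end x η'' false h5).symm.trans ha
  have e2 := (act_edge_end x η'' true h6).symm.trans hb
  have k := arr_act_comp hE x η η' η'' h1 h2 h3 h4 h5 h6
  have key : ∀ {a b c a' b' c' : E.cells X.obj 0} (q0 : a = a') (q1 : b = b') (q2 : c = c')
      (s1 : E.act X.obj (E.face false 0) (E.act X.obj η x) = a)
      (t1 : E.act X.obj (E.face true 0) (E.act X.obj η x) = b)
      (s2 : E.act X.obj (E.face false 0) (E.act X.obj η' x) = b)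
      (t2 : E.act X.obj (E.face true 0) (E.act X.obj η' x) = c)
      (s3 : E.act X.obj (E.face false 0) (E.act X.obj η'' x) = a)
      (t3 : E.act X.obj (E.face true 0) (E.act X.obj η'' x) = c),
      arr hE _ s1 t1 ≫ arr hE _ s2 t2 = arr hE _ s3 t3 →
      arr hE _ (s1.trans q0) (t1.trans q1) ≫ arr hE _ (s2.trans q1) (t2.trans q2) =
        arr hE _ (s3.trans q0) (t3.trans q2) := by
    intro a b c a' b' c' q0 q1 q2
    subst q0 q1 q2
    intros
    assumption
  have k' := key e0 hv' e2 _ _ _ _ _ _ k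
  rw [show arr hE (E.act X.obj η'' x) ha hb =
    arr hE _ ((act_edge_end x η'' false h5).trans e0) ((act_edge_end x η'' true h6).trans e2)
      from rfl, ← k', ← Category.assoc, hη v v', hη' v' v'']

theorem good_loop {T : Table} (x : E.at X.obj T) {π : E.M (disc 0) T} (η : E.M (disc 1) T)
    (h1 : E.face false 0 ≫ η = π) (h2 : E.face true 0 ≫ η = π) (hinj : Function.Injective vt) :
    Resp hE vt U (E.act X.obj η x) := by
  intro v v' ha hb
  obtain rfl : v = v' := hinj (ha.symm.trans (((act_edge_end x η false h1).trans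
    (act_edge_end x η true h2).symm).trans hb))
  have e0 := (act_edge_end x η false h1).symm.trans ha
  have key : ∀ {a a' : E.cells X.obj 0} (q : a = a')
      (s : E.act X.obj (E.face false 0) (E.act X.obj η x) = a)
      (t : E.act X.obj (E.face true 0) (E.act X.obj η x) = a),
      arr hE _ s t = 𝟙 _ → arr hE _ (s.trans q) (t.trans q) = 𝟙 _ := by
    intro a a' q
    subst q
    intros
    assumption
  rw [show arr hE (E.act X.obj η x) ha hb = arr hE _ ((act_edge_end x η false h1).trans e0)
    ((act_edge_end x η true h2).trans e0) from rfl, key e0 _ _ (arr_act_loop hE x η h1 h2),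
    Category.comp_id]

variable (hinj : Function.Injective vt)

include hvt hinj in
theorem good_rev {T : Table} (x : E.at X.obj T) {π π' : E.M (disc 0) T}
    (η η' : E.M (disc 1) T) (h1 : E.face false 0 ≫ η = π) (h2 : E.face true 0 ≫ η = π')
    (h3 : E.face false 0 ≫ η' = π') (h4 : E.face true 0 ≫ η' = π)
    (h : Resp hE vt U (E.act X.obj η x)) : Resp hE vt U (E.act X.obj η' x) := by
  intro v' v ha hb
  have e1 := (act_edge_end x η' false h3).symm.trans ha
  have e0 := (act_edge_end x η' true h4).symm.trans hb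
  obtain ⟨o, o1, o2⟩ := exists_tedge hE T π π
  have k := (arr_act_comp hE x η η' o h1 h2 h3 h4 o1 o2).trans (arr_act_loop hE x o o1 o2)
  have key : ∀ {a b a' b' : E.cells X.obj 0} (q0 : a = a') (q1 : b = b')
      (s1 : E.act X.obj (E.face false 0) (E.act X.obj η x) = a)
      (t1 : E.act X.obj (E.face true 0) (E.act X.obj η x) = b)
      (s2 : E.act X.obj (E.face false 0) (E.act X.obj η' x) = b)
      (t2 : E.act X.obj (E.face true 0) (E.act X.obj η' x) = a),
      arr hE _ s1 t1 ≫ arr hE _ s2 t2 = 𝟙 _ →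
      arr hE _ (s1.trans q0) (t1.trans q1) ≫ arr hE _ (s2.trans q1) (t2.trans q0) = 𝟙 _ := by
    intro a b a' b' q0 q1
    subst q0 q1
    intros
    assumption
  have k' := key e0 e1 _ _ _ _ k
  have hu := h v v' ((act_edge_end x η false h1).trans e0) ((act_edge_end x η true h2).trans e1)
  rw [← hu, Category.assoc]
  exact (congrArg (U v ≫ ·) k').trans (Category.comp_id _)

/-- All edges of the element respect the gauge. -/
def RespAt {T : Table} (x : E.at X.obj T) : Prop :=
  ∀ η : E.M (disc 1) T, Resp hE vt U (E.act X.obj η x)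

theorem goodAt_act {R T : Table} (φ : E.M R T) (x : E.at X.obj T) (h : RespAt hE vt U x) :
    RespAt hE vt U (E.act X.obj φ x) := fun η => by
  rw [← E.act_comp]
  exact h _

end Gauge

end General

section Coh

variable {C : Coherator} {X : C.C.Gpd} {V : Type} (vt : V → C.C.cells X.obj 0)
  {x₀ : C.C.cells X.obj 0} (U : ∀ v, pobj C.C_contractible x₀ ⟶ pobj C.C_contractible (vt v))
  (hvt : ∀ a, ∃ v, a = vt v) (hinj : Function.Injective vt)

include hvt hinj in
/-- Elements whose positions respect the gauge respect it. -/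
theorem goodAt_glue {T : Table} (x : C.C.at X.obj T)
    (h : ∀ p, RespAt C.C_contractible vt U (C.C.act X.obj (C.C.i.map (incl T p)) x)) :
    RespAt C.C_contractible vt U x := by
  obtain ⟨d₀⟩ := exists_point (disc (T.top 0))
  let π₀ := C.C.i.map (d₀ ≫ incl T 0)
  have hin : ∀ (p : Fin (T.len + 1)) (d d' : disc 0 ⟶ disc (T.top p)),
      ∃ η, C.C.face false 0 ≫ η = C.C.i.map (d ≫ incl T p) ∧
        C.C.face true 0 ≫ η = C.C.i.map (d' ≫ incl T p) ∧
        Resp C.C_contractible vt U (C.C.act X.obj η x) := fun p d d' => by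
    obtain ⟨η, h1, h2⟩ := exists_tedge C.C_contractible (disc (T.top p)) (C.C.i.map d) (C.C.i.map d')
    refine ⟨η ≫ C.C.i.map (incl T p), ?_, ?_, ?_⟩
    · rw [← Category.assoc, h1, C.C.i.map_comp]
    · rw [← Category.assoc, h2, C.C.i.map_comp]
    · rw [C.C.act_comp]
      exact h p η
  let Reach : C.C.M (disc 0) T → Prop := fun π => ∃ η, C.C.face false 0 ≫ η = π₀ ∧
    C.C.face true 0 ≫ η = π ∧ Resp C.C_contractible vt U (C.C.act X.obj η x)
  have hstep : ∀ π π' (_ : Reach π), (∃ η, C.C.face false 0 ≫ η = π ∧ C.C.face true 0 ≫ η = π' ∧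
      Resp C.C_contractible vt U (C.C.act X.obj η x)) → Reach π' := by
    rintro π π' ⟨η, a1, a2, a3⟩ ⟨η', b1, b2, b3⟩
    obtain ⟨o, o1, o2⟩ := exists_tedge C.C_contractible T π₀ π'
    exact ⟨o, o1, o2, good_comp C.C_contractible vt U hvt x η η' o a1 a2 b1 b2 o1 o2 a3 b3⟩
  have hpos : ∀ (p : Fin (T.len + 1)) (d : disc 0 ⟶ disc (T.top p)),
      Reach (C.C.i.map (d ≫ incl T p)) := by
    intro p
    induction p using Fin.induction with
    | zero => exact fun d => hin 0 d₀ d
    | succ p ih =>
        intro d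
        obtain ⟨b⟩ := exists_point (disc (T.bot p))
        have hg : (b ≫ side true (T.lt_left p)) ≫ incl T p.castSucc =
            (b ≫ side false (T.lt_right p)) ≫ incl T p.succ := by
          rw [Category.assoc, Category.assoc, side_incl_glue]
        refine hstep _ _ (ih (b ≫ side true (T.lt_left p))) ?_
        rw [hg]
        exact hin p.succ (b ≫ side false (T.lt_right p)) d
  intro η
  have hr : ∀ π, Reach π := fun π => by
    obtain ⟨c, rfl⟩ := exists_vertex C π
    obtain ⟨p, d, rfl⟩ := exists_position c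
    exact hpos p d
  obtain ⟨η₁, a1, a2, a3⟩ := hr (C.C.face false 0 ≫ η)
  obtain ⟨η₂, b1, b2, b3⟩ := hr (C.C.face true 0 ≫ η)
  obtain ⟨r, r1, r2⟩ := exists_tedge C.C_contractible T (C.C.face false 0 ≫ η) π₀
  exact good_comp C.C_contractible vt U hvt x r η₂ η r1 r2 b1 b2 rfl rfl
    (good_rev C.C_contractible vt U hvt hinj x η₁ r a1 a2 r1 r2 a3) b3

include hinj in
/-- Points respect the gauge. -/
theorem goodAt_zero (x : C.C.cells X.obj 0) : RespAt C.C_contractible vt U x := by
  intro η
  have h : ∀ π : C.C.M (disc 0) (disc 0), π = 𝟙 _ := fun π => by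
    obtain ⟨c, rfl⟩ := exists_vertex C π
    rw [show c = 𝟙 (disc 0) from Glob.disc_hom_ext (by
      rcases TCell.disc_cells (TCell.map c (TCell.top 0)) with ⟨_, hc⟩ | ⟨e, h, -⟩
      · exact hc
      · exact absurd h (Nat.not_lt_zero 0)), C.C.i.map_id]
  exact good_loop C.C_contractible vt U x η (h _) (h _) hinj

include hvt hinj in
/-- An edge respecting the gauge respects it everywhere. -/
theorem goodAt_one (z : C.C.cells X.obj 1) (h : Resp C.C_contractible vt U z) :
    RespAt C.C_contractible vt U z := by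
  have hid : Resp C.C_contractible vt U (C.C.act X.obj (𝟙 _) z) := by rwa [C.C.act_id]
  have hc : ∀ π : C.C.M (disc 0) (disc 1), ∃ e, π = C.C.face e 0 := fun π => by
    obtain ⟨c, rfl⟩ := exists_vertex C π
    obtain ⟨e, d, rfl⟩ := exists_side_point c
    refine ⟨e, ?_⟩
    rw [show d = 𝟙 (disc 0) from Glob.disc_hom_ext (by
      rcases TCell.disc_cells (TCell.map d (TCell.top 0)) with ⟨_, hd⟩ | ⟨e', h', -⟩
      · exact hd
      · exact absurd h' (Nat.not_lt_zero 0)), Category.id_comp]
  intro η
  obtain ⟨e, he⟩ := hc (C.C.face false 0 ≫ η)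
  obtain ⟨e', he'⟩ := hc (C.C.face true 0 ≫ η)
  cases e <;> cases e'
  · exact good_loop C.C_contractible vt U z η he he' hinj
  · exact good_parallel C.C_contractible vt U z (𝟙 _) η
      ((Category.comp_id _).trans he.symm) ((Category.comp_id _).trans he'.symm) hid
  · exact good_rev C.C_contractible vt U hvt hinj z (𝟙 _) η (Category.comp_id _)
      (Category.comp_id _) he he' hid
  · exact good_loop C.C_contractible vt U z η he he' hinj

/-- Above dimension one the sides decide. -/
theorem goodAt_high {n : ℕ} (z : C.C.cells X.obj (n + 1 + 1))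
    (h : RespAt C.C_contractible vt U (C.C.act X.obj (C.C.face false (n + 1)) z)) :
    RespAt C.C_contractible vt U z := by
  have hc : ∀ π : C.C.M (disc 0) (disc (n + 1 + 1)),
      ∃ π' : C.C.M (disc 0) (disc (n + 1)), π = π' ≫ C.C.face false (n + 1) := fun π => by
    obtain ⟨c, rfl⟩ := exists_vertex C π
    obtain ⟨e, d, rfl⟩ := exists_side_point c
    obtain ⟨e', d', rfl⟩ := exists_side_point d
    refine ⟨C.C.i.map (d' ≫ side e' n.lt_succ_self), ?_⟩
    rw [Category.assoc, side_comp_side, ← side_comp_side e' false n.lt_succ_self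
      (n + 1).lt_succ_self, ← Category.assoc, C.C.i.map_comp]
  intro η
  obtain ⟨π, hπ⟩ := hc (C.C.face false 0 ≫ η)
  obtain ⟨π', hπ'⟩ := hc (C.C.face true 0 ≫ η)
  obtain ⟨η', h1, h2⟩ := exists_tedge C.C_contractible (disc (n + 1)) π π'
  refine good_parallel C.C_contractible vt U z (η' ≫ C.C.face false (n + 1)) η ?_ ?_ ?_
  · rw [← Category.assoc, h1, ← hπ]
  · rw [← Category.assoc, h2, ← hπ']
  · rw [C.C.act_comp]
    exact h η'

/-- The elements respecting the gauge. -/
def goodT : Tabled C.C where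
  obj T := {x : C.C.at X.obj T // RespAt C.C_contractible vt U x}
  act φ x := ⟨C.C.act X.obj φ x.1, goodAt_act C.C_contractible vt U φ x.1 x.2⟩
  act_id x := Subtype.ext (C.C.act_id _ _)
  act_comp f g x := Subtype.ext (C.C.act_comp _ _ _ _)
  glue T c hc := by
    obtain ⟨x, hx, hxu⟩ := X.property T (fun p => (c p).1) fun p => congrArg Subtype.val (hc p)
    exact ⟨⟨x, goodAt_glue vt U hvt hinj x fun p => by rw [hx p]; exact (c p).2⟩,
      fun p => Subtype.ext (hx p),
      fun y hy => Subtype.ext (hxu _ fun p => congrArg Subtype.val (hy p))⟩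

include hvt in
/-- Respected by all edges, a gauge makes the model one connected. -/
theorem oneConn_of_good (h : ∀ f, Resp C.C_contractible vt U f) : C.C.OneConn X.obj := by
  refine ⟨⟨⟨x₀⟩, fun a b => ?_⟩, fun f g hfg => ?_⟩
  · obtain ⟨v, rfl⟩ := hvt a
    obtain ⟨v', rfl⟩ := hvt b
    obtain ⟨f, ha, hb, -⟩ := exists_arr C.C_contractible (inv (U v) ≫ U v')
    exact ⟨f, ha, hb⟩
  · obtain ⟨v, hv⟩ := hvt (C.C.act X.obj (C.C.face false 0) f)
    obtain ⟨v', hv'⟩ := hvt (C.C.act X.obj (C.C.face true 0) f)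
    refine linked_of_arr C.C_contractible hv hv' ((hfg false).symm.trans hv)
      ((hfg true).symm.trans hv') ((cancel_epi (U v)).1 ?_)
    rw [h f v v', h g v v']

end Coh

end

end Vale.Agent.P259.Free
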