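import Mathlib

/-!
# P259, module D: reflection into orthogonal presheaves

For a small category and a small family of maps of presheaves, every presheaf has a universal map
to a presheaf which is local for the family.
-/

universe u

open CategoryTheory

namespace Vale.Agent.P259.Free

variable {C : Type u} [SmallCategory C]

section

variable {ι : Type u} {A B : ι → (Cᵒᵖ ⥤ Type u)} (w : ∀ i, A i ⟶ B i)

/-- Local presheaves for the family. -/
def IsLoc (Z : Cᵒᵖ ⥤ Type u) : Prop :=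
  ∀ i, Function.Bijective fun g : B i ⟶ Z => w i ≫ g

theorem exists_regular (ι : Type u) (c : ι → Cardinal.{u}) :
    ∃ κ : Cardinal.{u}, κ.IsRegular ∧ ∀ i, c i ≤ κ := by
  refine ⟨Order.succ (max Cardinal.aleph0 (⨆ i, c i)), Cardinal.isRegular_succ (le_max_left _ _),
    fun i => ?_⟩
  exact le_trans (le_trans (le_ciSup (Cardinal.bddAbove_of_small) i) (le_max_right _ _))
    (Order.le_succ _)

/-- Every presheaf has a reflection in the local ones. -/
theorem exists_reflection (P : Cᵒᵖ ⥤ Type u) :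
    ∃ (L : Cᵒᵖ ⥤ Type u) (η : P ⟶ L), IsLoc w L ∧
      ∀ Z, IsLoc w Z → Function.Bijective fun g : L ⟶ Z => η ≫ g := by
  have hp : ∀ X : Cᵒᵖ ⥤ Type u, ∃ κ : Cardinal.{u}, ∃ _ : Fact κ.IsRegular,
      IsCardinalPresentable X κ := fun X =>
    let ⟨κ, h1, h2⟩ := (inferInstance : IsPresentable.{u} X).exists_cardinal
    ⟨κ, h1, h2⟩
  choose k hk hX using hp
  obtain ⟨κ, hκ, hle⟩ := exists_regular (ι ⊕ ι) (Sum.elim (fun i => k (A i)) fun i => k (B i))
  have : Fact κ.IsRegular := ⟨hκ⟩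
  have hA : ∀ i, IsCardinalPresentable (A i) κ := fun i =>
    @isCardinalPresentable_of_le _ _ _ _ (hk _) (hX (A i)) _ _ (hle (Sum.inl i))
  have hB : ∀ i, IsCardinalPresentable (B i) κ := fun i =>
    @isCardinalPresentable_of_le _ _ _ _ (hk _) (hX (B i)) _ _ (hle (Sum.inr i))
  let W : MorphismProperty (Cᵒᵖ ⥤ Type u) := MorphismProperty.ofHoms w
  have hW : ∀ ⦃X Y : Cᵒᵖ ⥤ Type u⦄ (f : X ⟶ Y), W f →
      IsCardinalPresentable X κ ∧ IsCardinalPresentable Y κ := by
    rintro _ _ _ ⟨i⟩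
    exact ⟨hA i, hB i⟩
  have := MorphismProperty.isRightAdjoint_ι_isLocal W κ hW
  let adj := Adjunction.ofIsRightAdjoint W.isLocal.ι
  have hloc : ∀ Z, IsLoc w Z ↔ W.isLocal Z := by
    intro Z
    constructor
    · rintro h X Y f ⟨i⟩
      exact h i
    · intro h i
      exact h _ (MorphismProperty.ofHoms.mk i)
  refine ⟨((W.isLocal.ι).leftAdjoint.obj P).obj, adj.unit.app P,
    (hloc _).2 ((W.isLocal.ι).leftAdjoint.obj P).property, fun Z hZ => ?_⟩
  let Z' : W.isLocal.FullSubcategory := ⟨Z, (hloc Z).1 hZ⟩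
  let e := ((ObjectProperty.fullyFaithfulι W.isLocal).homEquiv
    (X := (W.isLocal.ι).leftAdjoint.obj P) (Y := Z')).symm.trans (adj.homEquiv P Z')
  have h2 : (fun g : ((W.isLocal.ι).leftAdjoint.obj P).obj ⟶ Z => adj.unit.app P ≫ g) = e := by
    funext g
    exact ((adj.homEquiv_unit _ _ _).trans (congrArg (adj.unit.app P ≫ ·)
      ((ObjectProperty.fullyFaithfulι W.isLocal).map_preimage (X := (W.isLocal.ι).leftAdjoint.obj P) (Y := Z') g))).symm
  rw [h2]
  exact e.bijective

end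

end Vale.Agent.P259.Free
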