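import Vale.Agent.P259.Spec
import Vale.Agent.P259.Free.Reflect
import Vale.Agent.P259.Free.Semi
import Vale.Agent.P259.Model.Linked

/-!
# P259, module D: colimits of models; free models on ordered complexes exist

Models are the presheaves which are local for the inclusions of the glued discs into the
representable of a globular sum, so every small diagram of models has a colimit.
-/

namespace Vale.Agent.P259.Free

open CategoryTheory Opposite

noncomputable section

namespace Colim

variable (E : Ext)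

/-- Pieces of the glued discs of a globular sum, before gluing. -/
abbrev SumPre (T : Table) (U : E.Obj) : Type :=
  Σ p : Fin (T.len + 1), (U ⟶ E.i.obj (disc (T.top p)))

/-- The gluing of the discs. -/
inductive SumRel (T : Table) (U : E.Obj) : SumPre E T U → SumPre E T U → Prop
  | glue (p : Fin T.len) (g : U ⟶ E.i.obj (disc (T.bot p))) :
      SumRel T U ⟨p.castSucc, g ≫ E.i.map (side true (T.lt_left p))⟩
        ⟨p.succ, g ≫ E.i.map (side false (T.lt_right p))⟩

theorem sumRel_map (T : Table) {U V : E.Obj} (f : V ⟶ U) {a b : SumPre E T U}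
    (h : SumRel E T U a b) : SumRel E T V ⟨a.1, f ≫ a.2⟩ ⟨b.1, f ≫ b.2⟩ := by
  cases h with
  | glue p g =>
    dsimp only
    rw [← Category.assoc, ← Category.assoc]
    exact SumRel.glue p (f ≫ g)

/-- The discs of a globular sum, glued as presheaves. -/
def sumPsh (T : Table) : E.Psh where
  obj U := Quot (SumRel E T U.unop)
  map f := TypeCat.ofHom (Quot.map (fun a => ⟨a.1, f.unop ≫ a.2⟩) fun _ _ h =>
    sumRel_map E T f.unop h)
  map_id U := by
    refine ConcreteCategory.hom_ext _ _ fun a => ?_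
    induction a using Quot.ind with
    | _ a => exact congrArg (Quot.mk _) (Sigma.ext rfl (heq_of_eq (Category.id_comp a.2)))
  map_comp f g := by
    refine ConcreteCategory.hom_ext _ _ fun a => ?_
    induction a using Quot.ind with
    | _ a =>
      exact congrArg (Quot.mk _) (Sigma.ext rfl (heq_of_eq (Category.assoc g.unop f.unop a.2)))

theorem sumMap_rel (T : Table) {U : E.Obj} {a b : SumPre E T U} (h : SumRel E T U a b) :
    a.2 ≫ E.i.map (incl T a.1) = b.2 ≫ E.i.map (incl T b.1) := by
  cases h with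
  | glue p g =>
    simp only [Category.assoc]
    rw [← E.i.map_comp, ← E.i.map_comp, side_incl_glue T p]

/-- The glued discs go into the representable. -/
def sumMap (T : Table) : sumPsh E T ⟶ yoneda.obj (E.i.obj T) where
  app U := TypeCat.ofHom (Quot.lift (fun a => a.2 ≫ E.i.map (incl T a.1)) fun _ _ h =>
    sumMap_rel E T h)
  naturality U V f := by
    refine ConcreteCategory.hom_ext _ _ fun a => ?_
    induction a using Quot.ind with
    | _ a => exact Category.assoc f.unop a.2 _

/-- Being a model is being local for the inclusions of the glued discs. -/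
theorem isLoc_iff (X : E.Psh) : IsLoc (sumMap E) X ↔ E.IsGpd X := by
  constructor
  · intro hX T c hc
    let h : sumPsh E T ⟶ X :=
      { app := fun U => TypeCat.ofHom (Quot.lift (fun a => X.map a.2.op (c a.1)) fun a b r => by
          cases r with
          | glue p g =>
            simp only [op_comp, Functor.map_comp]
            exact congrArg (X.map g.op) (hc p))
        naturality := fun U V f => by
          refine ConcreteCategory.hom_ext _ _ fun a => ?_
          induction a using Quot.ind with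
          | _ a =>
            show X.map (f.unop ≫ a.2).op (c a.1) = X.map f (X.map a.2.op (c a.1))
            simp only [op_comp, Functor.map_comp]
            rfl }
    obtain ⟨g, hg⟩ := (hX T).2 h
    refine ⟨yonedaEquiv g, fun p => ?_, fun x hx => ?_⟩
    · have := ConcreteCategory.congr_hom (NatTrans.congr_app hg (op (E.i.obj (disc (T.top p)))))
        (Quot.mk _ ⟨p, 𝟙 _⟩)
      refine ((yonedaEquiv_naturality g _).trans ?_).trans (this.trans ?_)
      · show g.app _ (𝟙 _ ≫ E.i.map (incl T p)) = g.app _ (𝟙 _ ≫ E.i.map (incl T p))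
        rfl
      · show X.map (𝟙 _ : E.i.obj (disc (T.top p)) ⟶ _).op (c p) = c p
        simp
    · have hx' : yonedaEquiv.symm x = g := by
        refine (hX T).1 ?_
        show sumMap E T ≫ yonedaEquiv.symm x = sumMap E T ≫ g
        rw [show sumMap E T ≫ g = h from hg]
        refine NatTrans.ext (funext fun U => ConcreteCategory.hom_ext _ _ fun a => ?_)
        induction a using Quot.ind with
        | _ a =>
          show X.map (a.2 ≫ E.i.map (incl T a.1)).op x = X.map a.2.op (c a.1)
          simp only [op_comp, Functor.map_comp]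
          exact congrArg (X.map a.2.op) (hx a.1)
      rw [← hx', Equiv.apply_symm_apply]
  · intro hX T
    have val : ∀ (g : yoneda.obj (E.i.obj T) ⟶ X) p,
        E.act X (E.i.map (incl T p)) (yonedaEquiv g) =
          (sumMap E T ≫ g).app _ (Quot.mk _ ⟨p, 𝟙 _⟩) := fun g p => by
      refine (yonedaEquiv_naturality g _).trans ?_
      show g.app _ (𝟙 _ ≫ E.i.map (incl T p)) = g.app _ (𝟙 _ ≫ E.i.map (incl T p))
      rfl
    have glued : ∀ (h : sumPsh E T ⟶ X) (p : Fin T.len),
        E.act X (E.i.map (side true (T.lt_left p))) (h.app _ (Quot.mk _ ⟨p.castSucc, 𝟙 _⟩)) =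
          E.act X (E.i.map (side false (T.lt_right p))) (h.app _ (Quot.mk _ ⟨p.succ, 𝟙 _⟩)) := by
      intro h p
      have n1 := ConcreteCategory.congr_hom (h.naturality (E.i.map (side true (T.lt_left p))).op)
        (Quot.mk _ ⟨p.castSucc, 𝟙 _⟩)
      have n2 := ConcreteCategory.congr_hom (h.naturality (E.i.map (side false (T.lt_right p))).op)
        (Quot.mk _ ⟨p.succ, 𝟙 _⟩)
      refine (n1.symm.trans ?_).trans n2
      refine congrArg (h.app _) ?_
      show Quot.mk (SumRel E T _) ⟨p.castSucc, E.i.map (side true (T.lt_left p)) ≫ 𝟙 _⟩ =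
        Quot.mk (SumRel E T _) ⟨p.succ, E.i.map (side false (T.lt_right p)) ≫ 𝟙 _⟩
      have h0 := SumRel.glue (E := E) (T := T) p (𝟙 (E.i.obj (disc (T.bot p))))
      simp only [Category.id_comp] at h0
      simpa using Quot.sound h0
    refine ⟨fun g g' hgg => yonedaEquiv.injective ?_, fun h => ?_⟩
    · obtain ⟨x, -, hu⟩ := hX T (fun p => (sumMap E T ≫ g).app (op (E.i.obj (disc (T.top p))))
        (Quot.mk _ ⟨p, 𝟙 _⟩)) (glued (sumMap E T ≫ g))
      rw [hu (yonedaEquiv g) (val g), hu (yonedaEquiv g') fun p => (val g' p).trans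
        (congrArg (fun k : sumPsh E T ⟶ X => k.app (op (E.i.obj (disc (T.top p))))
          (Quot.mk _ ⟨p, 𝟙 _⟩)) hgg.symm)]
    · obtain ⟨x, hx, -⟩ := hX T (fun p => h.app (op (E.i.obj (disc (T.top p))))
        (Quot.mk _ ⟨p, 𝟙 _⟩)) (glued h)
      refine ⟨yonedaEquiv.symm x, NatTrans.ext (funext fun U =>
        ConcreteCategory.hom_ext _ _ fun a => ?_)⟩
      induction a using Quot.ind with
      | _ a =>
        show X.map (a.2 ≫ E.i.map (incl T a.1)).op x = h.app U (Quot.mk _ a)
        simp only [op_comp, Functor.map_comp]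
        refine ((congrArg (X.map a.2.op) (hx a.1)).trans
          (ConcreteCategory.congr_hom (h.naturality a.2.op) (Quot.mk _ ⟨a.1, 𝟙 _⟩)).symm).trans ?_
        refine congrArg (h.app U) ?_
        show Quot.mk (SumRel E T _) ⟨a.1, a.2 ≫ 𝟙 _⟩ = _
        simp

section

variable {E} {J R : Type} (F : J → E.Gpd) (src tgt : R → J) (m : ∀ r, F (src r) ⟶ F (tgt r))

/-- The diagram, before gluing. -/
abbrev Pre (U : E.Objᵒᵖ) : Type := Σ j, (F j).obj.obj U

/-- The gluing of the diagram. -/
inductive Rel (U : E.Objᵒᵖ) : Pre F U → Pre F U → Prop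
  | glue (r : R) (z : (F (src r)).obj.obj U) : Rel U ⟨src r, z⟩ ⟨tgt r, (m r).hom.app U z⟩

theorem rel_map {U V : E.Objᵒᵖ} (f : U ⟶ V) {a b : Pre F U} (h : Rel F src tgt m U a b) :
    Rel F src tgt m V ⟨a.1, (F a.1).obj.map f a.2⟩ ⟨b.1, (F b.1).obj.map f b.2⟩ := by
  cases h with
  | glue r z =>
    dsimp only
    rw [show (F (tgt r)).obj.map f ((m r).hom.app U z) =
      (m r).hom.app V ((F (src r)).obj.map f z) from
        (ConcreteCategory.congr_hom ((m r).hom.naturality f) z).symm]
    exact Rel.glue r _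

/-- The colimit as a presheaf. -/
def colimPsh : E.Psh where
  obj U := Quot (Rel F src tgt m U)
  map f := TypeCat.ofHom (Quot.map (fun a => ⟨a.1, (F a.1).obj.map f a.2⟩) fun _ _ h =>
    rel_map F src tgt m f h)
  map_id U := by
    refine ConcreteCategory.hom_ext _ _ fun a => ?_
    induction a using Quot.ind with
    | _ a => exact congrArg (Quot.mk _) (Sigma.ext rfl (heq_of_eq (by simp)))
  map_comp f g := by
    refine ConcreteCategory.hom_ext _ _ fun a => ?_
    induction a using Quot.ind with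
    | _ a => exact congrArg (Quot.mk _) (Sigma.ext rfl (heq_of_eq (by simp)))

/-- The maps into the presheaf colimit. -/
def inj (j : J) : (F j).obj ⟶ colimPsh F src tgt m where
  app _ := TypeCat.ofHom fun z => Quot.mk _ ⟨j, z⟩
  naturality _ _ _ := rfl

/-- A cocone gives a map out of the presheaf colimit. -/
def descPsh {X : E.Gpd} (φ : ∀ j, F j ⟶ X) (hφ : ∀ r, m r ≫ φ (tgt r) = φ (src r)) :
    colimPsh F src tgt m ⟶ X.obj where
  app U := TypeCat.ofHom (Quot.lift (fun a => (φ a.1).hom.app U a.2) fun a b h => by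
    cases h with
    | glue r z =>
      exact (ConcreteCategory.congr_hom (NatTrans.congr_app
        (congrArg (fun k => k.hom) (hφ r)) U) z).symm)
  naturality U V f := by
    refine ConcreteCategory.hom_ext _ _ fun a => ?_
    induction a using Quot.ind with
    | _ a => exact ConcreteCategory.congr_hom ((φ a.1).hom.naturality f) a.2

end

end Colim

/-- Small diagrams of models have colimits. -/
theorem exists_colim {E : Ext} {J R : Type} (F : J → E.Gpd) (src tgt : R → J)
    (m : ∀ r, F (src r) ⟶ F (tgt r)) :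
    ∃ (G : E.Gpd) (ι : ∀ j, F j ⟶ G), (∀ r, m r ≫ ι (tgt r) = ι (src r)) ∧
      ∀ (X : E.Gpd) (φ : ∀ j, F j ⟶ X), (∀ r, m r ≫ φ (tgt r) = φ (src r)) →
        ∃! g : G ⟶ X, ∀ j, ι j ≫ g = φ j := by
  obtain ⟨L, η, hL, hu⟩ := exists_reflection (Colim.sumMap E) (Colim.colimPsh F src tgt m)
  refine ⟨⟨L, (Colim.isLoc_iff E L).1 hL⟩,
    fun j => ObjectProperty.homMk (Colim.inj F src tgt m j ≫ η), fun r => ?_, fun X φ hφ => ?_⟩
  · refine ObjectProperty.hom_ext _ (NatTrans.ext (funext fun U =>
      ConcreteCategory.hom_ext _ _ fun z => ?_))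
    exact congrArg (η.app U) (Quot.sound (Colim.Rel.glue r z)).symm
  · obtain ⟨g, hg⟩ := (hu X.obj ((Colim.isLoc_iff E X.obj).2 X.property)).2
      (Colim.descPsh F src tgt m φ hφ)
    refine ⟨ObjectProperty.homMk g, fun j => ObjectProperty.hom_ext _ ?_, fun g' hg' =>
      ObjectProperty.hom_ext _ ?_⟩
    · show (Colim.inj F src tgt m j ≫ η) ≫ g = (φ j).hom
      rw [Category.assoc, show η ≫ g = _ from hg]
      rfl
    · refine (hu X.obj ((Colim.isLoc_iff E X.obj).2 X.property)).1 ?_
      show η ≫ g'.hom = η ≫ g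
      rw [show η ≫ g = _ from hg]
      refine NatTrans.ext (funext fun U => ConcreteCategory.hom_ext _ _ fun a => ?_)
      induction a using Quot.ind with
      | _ a =>
        exact ConcreteCategory.congr_hom
          (NatTrans.congr_app (congrArg (fun k => k.hom) (hg' a.1)) U) a.2

/-- Free models on ordered complexes exist. -/
theorem repExists : Spec.RepExists := by
  intro E B Q
  obtain ⟨G, ι, hι, hu⟩ := exists_colim (R := Σ k j, Q.Simp k × {δ : Op j k // Function.Injective δ})
    (fun v : Σ k, Q.Simp k => B.F v.1) (fun r => ⟨r.2.1, r.2.2.1.face r.2.2.2.1 r.2.2.2.2⟩)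
    (fun r => ⟨r.1, r.2.2.1⟩) (fun r => B.map r.2.2.2.1)
  refine ⟨⟨G, ⟨fun {k} v => ι ⟨k, v⟩, fun {k j} v δ h => hι ⟨k, j, v, δ, h⟩⟩, fun X φ => ?_⟩⟩
  obtain ⟨g, hg, hg'⟩ := hu X (fun v => φ.app v.2) (fun r => φ.nat r.2.2.1 r.2.2.2.1 r.2.2.2.2)
  refine ⟨g, Fam.ext (funext fun k => funext fun v => hg ⟨k, v⟩), fun g' h => hg' g' ?_⟩
  rintro ⟨k, v⟩
  exact congrFun (congrFun (congrArg (fun f : Fam Q (B.sys X) => @Fam.app _ _ f) h) k) v

/-- Free models on ordered complexes exist, with faces only. -/
theorem nonempty_srep {E : Ext} (B : SemiBase E) (Q : OCx) : Nonempty (B.SRep Q) := by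
  obtain ⟨G, ι, hι, hu⟩ := exists_colim (R := Σ k j, Q.Simp k × {δ : Op j k // Function.Injective δ})
    (fun v : Σ k, Q.Simp k => B.F v.1) (fun r => ⟨r.2.1, r.2.2.1.face r.2.2.2.1 r.2.2.2.2⟩)
    (fun r => ⟨r.1, r.2.2.1⟩) (fun r => B.map r.2.2.2.1 r.2.2.2.2)
  refine ⟨⟨G, ⟨fun {k} v => ι ⟨k, v⟩, fun {k j} v δ h => hι ⟨k, j, v, δ, h⟩⟩, fun X φ => ?_⟩⟩
  obtain ⟨g, hg, hg'⟩ := hu X (fun v => φ.app v.2) (fun r => φ.nat r.2.2.1 r.2.2.2.1 r.2.2.2.2)
  refine ⟨g, SemiBase.SFam.ext (funext fun k => funext fun v => hg ⟨k, v⟩), fun g' h => hg' g' ?_⟩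
  rintro ⟨k, v⟩
  exact congrFun (congrFun (congrArg (fun f : B.SFam Q X => @SemiBase.SFam.app _ _ _ _ f) h) k) v

end

end Vale.Agent.P259.Free
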