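import Vale.Agent.P259.Free.Retract
import Vale.Agent.P259.Free.Rep
import Vale.Agent.P259.Free.Pi1
import Vale.Agent.P259.Free.Gauge

/-!
# P259, module D: free models are one connected when their complexes have gauges

The points of a free model are the vertices, the edges of the complex give arrows composing on
triangles, and a gauge for these arrows is respected by every edge of the model.
-/

namespace Vale.Agent.P259.Free

open CategoryTheory Opposite
open Vale.Agent.P259.Cat

noncomputable section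

/-- Compositions of arrows do not depend on the names of the cells and of their ends. -/
theorem arr_comp_transport {E : Ext} (hE : E.Contractible) {X : E.Gpd}
    {f g h f' g' h' : E.cells X.obj 1} {a b c a' b' c' : E.cells X.obj 0}
    {f0 : E.act X.obj (E.face false 0) f = a} {f1 : E.act X.obj (E.face true 0) f = b}
    {g0 : E.act X.obj (E.face false 0) g = b} {g1 : E.act X.obj (E.face true 0) g = c}
    {h0 : E.act X.obj (E.face false 0) h = a} {h1 : E.act X.obj (E.face true 0) h = c}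
    (k : arr hE f f0 f1 ≫ arr hE g g0 g1 = arr hE h h0 h1)
    (ef : f = f') (eg : g = g') (eh : h = h')
    (f0' : E.act X.obj (E.face false 0) f' = a') (f1' : E.act X.obj (E.face true 0) f' = b')
    (g0' : E.act X.obj (E.face false 0) g' = b') (g1' : E.act X.obj (E.face true 0) g' = c')
    (h0' : E.act X.obj (E.face false 0) h' = a') (h1' : E.act X.obj (E.face true 0) h' = c') :
    arr hE f' f0' f1' ≫ arr hE g' g0' g1' = arr hE h' h0' h1' := by
  subst ef eg eh
  obtain rfl : a = a' := f0.symm.trans f0'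
  obtain rfl : b = b' := f1.symm.trans f1'
  obtain rfl : c = c' := g1.symm.trans g1'
  exact k

/-- In a one connected model parallel arrows agree. -/
theorem thin_of_oneConn {E : Ext} (hE : E.Contractible) {X : E.Gpd} (h : E.OneConn X.obj)
    {a b : E.cells X.obj 0} (m m' : pobj hE a ⟶ pobj hE b) : m = m' := by
  obtain ⟨f, ha, hb, rfl⟩ := exists_arr hE m
  obtain ⟨f', ha', hb', rfl⟩ := exists_arr hE m'
  refine arr_linked hE (h.2 f f' fun e => ?_) _ _ _ _
  cases e
  · exact ha.trans ha'.symm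
  · exact hb.trans hb'.symm

theorem point_disc_zero {C : Coherator} (π : C.C.M (disc 0) (disc 0)) : π = 𝟙 _ := by
  obtain ⟨c, rfl⟩ := exists_vertex C π
  rw [show c = 𝟙 (disc 0) from Glob.disc_hom_ext (by
    rcases TCell.disc_cells (TCell.map c (TCell.top 0)) with ⟨_, hc⟩ | ⟨e, h, -⟩
    · exact hc
    · exact absurd h (Nat.not_lt_zero 0)), C.C.i.map_id]

variable {C : Coherator} {N : ℕ} (A : Semi C.C N) {Q : OCx} (R : A.SRep Q)

/-- The point of a vertex. -/
def vtx (v : Q.Simp 0) : C.C.cells R.G.obj 0 :=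
  C.C.appCell (R.fam.app v).hom 0 (A.top 0 N.zero_le)

/-- The elements whose points are vertices. -/
def vtxT : Tabled C.C where
  obj T := {x : C.C.at R.G.obj T // ∀ π : C.C.M (disc 0) T, ∃ v, C.C.act R.G.obj π x = vtx A R v}
  act φ x := ⟨C.C.act R.G.obj φ x.1, fun π => by rw [← C.C.act_comp]; exact x.2 _⟩
  act_id x := Subtype.ext (C.C.act_id _ _)
  act_comp f g x := Subtype.ext (C.C.act_comp _ _ _ _)
  glue T c hc := by
    obtain ⟨x, hx, hxu⟩ := R.G.property T (fun p => (c p).1) fun p => congrArg Subtype.val (hc p)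
    refine ⟨⟨x, fun π => ?_⟩, fun p => Subtype.ext (hx p),
      fun y hy => Subtype.ext (hxu _ fun p => congrArg Subtype.val (hy p))⟩
    obtain ⟨d, rfl⟩ := exists_vertex C π
    obtain ⟨p, d', rfl⟩ := exists_position d
    rw [C.C.i.map_comp, C.C.act_comp, hx p]
    exact (c p).2 _

/-- **Points of free models are vertices.** -/
theorem exists_vtx (hQ : DimLE Q N) (a : C.C.cells R.G.obj 0) : ∃ v, a = vtx A R v := by
  let p : (vtxT A R).gpd ⟶ R.G := Tabled.homTo (fun _ x => Subtype.val x) fun _ _ => rfl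
  have happ : ∀ {T : Table} (z : C.C.at (vtxT A R).gpd.obj T),
      p.hom.app _ z = ((vtxT A R).atEquiv T z).1 := fun {T} z =>
    Tabled.homTo_app (Y := vtxT A R) (X := R.G) (fun _ x => Subtype.val x) (fun _ _ => rfl) T z
  have hlift : ∀ {T : Table} (x : C.C.at R.G.obj T),
      (∀ π : C.C.M (disc 0) T, ∃ v, C.C.act R.G.obj π x = vtx A R v) → ∃ z, p.hom.app _ z = x :=
    fun {T} x hx => ⟨((vtxT A R).atEquiv T).symm ⟨x, hx⟩, (happ _).trans
      (congrArg Subtype.val (Equiv.apply_symm_apply ((vtxT A R).atEquiv T) _))⟩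
  have hmem : ∀ {T : Table} (z : C.C.at (vtxT A R).gpd.obj T) (π : C.C.M (disc 0) T),
      ∃ v, C.C.act R.G.obj π (p.hom.app _ z) = vtx A R v := fun {T} z π => by
    rw [happ]
    exact ((vtxT A R).atEquiv T z).2 π
  have hinj : ∀ {T : Table} {z z' : C.C.at (vtxT A R).gpd.obj T},
      p.hom.app _ z = p.hom.app _ z' → z = z' := fun {T z z'} h =>
    ((vtxT A R).atEquiv T).injective (Subtype.ext ((happ z).symm.trans (h.trans (happ z'))))
  obtain ⟨τ, hτ, -⟩ := A.exists_lift hQ R p (fun _ _ => True)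
    (fun v => by
      obtain ⟨z, hz⟩ := hlift (C.C.appCell (R.fam.app v).hom 0 (A.top 0 N.zero_le)) fun π =>
        ⟨v, by rw [point_disc_zero π, C.C.act_id]; rfl⟩
      exact ⟨z, hz, fun _ _ => trivial⟩)
    (fun {n} hn v b hb _ => by
      have hs := top_sides_of A R hn v p b hb
      obtain ⟨z, hz⟩ := hlift (C.C.appCell (R.fam.app v).hom (n + 1) (A.top (n + 1) hn)) fun π => by
        obtain ⟨d, rfl⟩ := exists_vertex C π
        obtain ⟨e, d', rfl⟩ := exists_side_point d
        rw [C.C.i.map_comp, C.C.act_comp]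
        cases e
        · rw [show C.C.act R.G.obj (C.C.i.map (side false n.lt_succ_self))
            (C.C.appCell (R.fam.app v).hom (n + 1) (A.top (n + 1) hn)) = _ from hs.1]
          exact hmem _ _
        · rw [show C.C.act R.G.obj (C.C.i.map (side true n.lt_succ_self))
            (C.C.appCell (R.fam.app v).hom (n + 1) (A.top (n + 1) hn)) = _ from hs.2]
          exact hmem _ _
      exact ⟨z, hz, ⟨hinj ((C.C.act_natural p.hom _ z).symm.trans
          ((congrArg (C.C.act R.G.obj _) hz).trans hs.1)),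
        hinj ((C.C.act_natural p.hom _ z).symm.trans
          ((congrArg (C.C.act R.G.obj _) hz).trans hs.2))⟩, fun _ _ _ => trivial⟩)
  obtain ⟨v, hv⟩ := hmem (τ.hom.app _ a) (𝟙 _)
  refine ⟨v, ?_⟩
  rw [C.C.act_id] at hv
  exact (ConcreteCategory.congr_hom (NatTrans.congr_app (congrArg (fun f => f.hom) hτ) _) a).symm.trans hv

/-- Different vertices give different points. -/
theorem vtx_injective (hQ : DimLE Q N) : Function.Injective (vtx A R) := by
  intro v v' h
  obtain ⟨S⟩ := nonempty_cylSys C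
  obtain ⟨ρ, hρ⟩ := exists_lin A S hQ R
  have h1 : topVal A S (hQ 0 v) (R.fam.app v ≫ ρ) = topVal A S (hQ 0 v') (R.fam.app v' ≫ ρ) :=
    congrArg (fun z => (nval S (ρ.hom.app _ z)).f 1 (abCell (TCell.top 0))) h
  rw [hρ, hρ, eps, pow_zero, one_smul, one_smul] at h1
  exact Finsupp.single_left_injective one_ne_zero h1

theorem fin_two_aux : ∀ a i : Fin 2, a ≠ i → i ≠ 0 → a = 0 := by decide

theorem fin_three_aux : ∀ a b i : Fin 3, a < b → a ≠ i → b ≠ i → i ≠ 0 → a = 0 := by decide

theorem fin_three_miss : ∀ i : Fin 3, i ≠ 0 → ∃ m : Fin 3, m ≠ 0 ∧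
    ∀ k : Fin 2, ![(0 : Fin 3), i] k ≠ m := by decide

/-- The vertex of the horn on one edge. -/
def hornPt : (OCx.horn 1 0).Simp 0 :=
  ⟨fun _ => (0 : Fin 2), ⟨fun i k h => absurd h (by
      rw [Subsingleton.elim (α := Fin 1) i k]; exact lt_irrefl _),
    (1 : Fin 2), by decide, fun ⟨_, hi⟩ => absurd (show (0 : Fin 2) = 1 from hi) (by decide)⟩⟩

/-- Fillers of horns on one edge are the vertex. -/
theorem fillOf_zero (hN : 0 < N) {X : C.C.Gpd} (h : A.SFam (OCx.horn (0 + 1) 0) X) :
    A.fillOf hN h = C.C.appCell (h.app hornPt).hom 0 (A.top 0 N.zero_le) := by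
  obtain ⟨R₀⟩ := nonempty_srep A.toSemiBase (OCx.horn (0 + 1) 0)
  have hd : DimLE (OCx.horn (0 + 1) 0) N := fun k v => by
    have h1 := Semi.bdry_lt (k := 1) (⟨v.1, v.2.1, fun hu => by
      obtain ⟨i, -, hi⟩ := v.2.2
      exact hi (hu ▸ Set.mem_univ i)⟩ : (OCx.bdry 1).Simp k)
    omega
  obtain ⟨v, hv⟩ := exists_vtx A R₀ hd (A.fillOf hN R₀.fam)
  have hvp : v = hornPt := by
    refine simp_zero_ext ?_
    obtain ⟨i, hi, hiv⟩ := v.2.2
    exact fin_two_aux _ i (fun e => hiv ⟨0, e⟩) hi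
  subst hvp
  obtain ⟨g, hg⟩ := R₀.exists_desc A.toSemiBase h
  have e : R₀.fam.push A.toSemiBase g = h := SemiBase.SFam.ext (funext fun k => funext fun w => hg w)
  rw [← e, A.fillOf_natural, hv]
  rfl

/-- The cell of an edge. -/
def edgeCell (hQ : DimLE Q N) (a b : Q.Simp 0) (h : Q.mem ![a.1 0, b.1 0]) :
    C.C.cells R.G.obj 1 :=
  C.C.appCell (R.fam.app (⟨![a.1 0, b.1 0], h⟩ : Q.Simp 1)).hom 1
    (A.top 1 (hQ 1 ⟨![a.1 0, b.1 0], h⟩))

theorem edgeCell_src (hQ : DimLE Q N) (a b : Q.Simp 0) (h : Q.mem ![a.1 0, b.1 0]) :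
    C.C.act R.G.obj (C.C.face false 0) (edgeCell A R hQ a b h) = vtx A R b := by
  refine ((A.top_sides (hQ 1 ⟨![a.1 0, b.1 0], h⟩) (R.fam.app (⟨![a.1 0, b.1 0], h⟩ : Q.Simp 1))).1).trans ?_
  show C.C.appCell (A.map _ _ ≫ R.fam.app _).hom 0 _ = _
  rw [R.fam.nat]
  refine congrArg (fun v => C.C.appCell (R.fam.app v).hom 0 (A.top 0 N.zero_le)) (simp_zero_ext ?_)
  rfl

theorem edgeCell_tgt (hQ : DimLE Q N) (a b : Q.Simp 0) (h : Q.mem ![a.1 0, b.1 0]) :
    C.C.act R.G.obj (C.C.face true 0) (edgeCell A R hQ a b h) = vtx A R a := by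
  refine ((A.top_sides (hQ 1 ⟨![a.1 0, b.1 0], h⟩) (R.fam.app (⟨![a.1 0, b.1 0], h⟩ : Q.Simp 1))).2).trans ?_
  rw [fillOf_zero A]
  show C.C.appCell (A.map _ _ ≫ R.fam.app _).hom 0 _ = _
  rw [R.fam.nat]
  refine congrArg (fun v => C.C.appCell (R.fam.app v).hom 0 (A.top 0 N.zero_le)) (simp_zero_ext ?_)
  rfl

/-- The arrow of an edge. -/
def edgeArr (hQ : DimLE Q N) (a b : Q.Simp 0) (h : Q.mem ![a.1 0, b.1 0]) :
    pobj C.C_contractible (vtx A R b) ⟶ pobj C.C_contractible (vtx A R a) :=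
  arr C.C_contractible (edgeCell A R hQ a b h) (edgeCell_src A R hQ a b h)
    (edgeCell_tgt A R hQ a b h)

/-- **A gauge for the edges makes a free model one connected.** -/
theorem oneConn_of_gauge (hQ : DimLE Q N) (v₀ : Q.Simp 0)
    (U : ∀ a, pobj C.C_contractible (vtx A R v₀) ⟶ pobj C.C_contractible (vtx A R a))
    (hU : ∀ a b h, U b ≫ edgeArr A R hQ a b h = U a) : C.C.OneConn R.G.obj := by
  have hvt := exists_vtx A R hQ
  have hinj := vtx_injective A R hQ
  let p : (goodT (vtx A R) U hvt hinj).gpd ⟶ R.G :=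
    Tabled.homTo (fun _ x => Subtype.val x) fun _ _ => rfl
  have happ : ∀ {T : Table} (z : C.C.at (goodT (vtx A R) U hvt hinj).gpd.obj T),
      p.hom.app _ z = ((goodT (vtx A R) U hvt hinj).atEquiv T z).1 := fun {T} z =>
    Tabled.homTo_app (Y := goodT (vtx A R) U hvt hinj) (X := R.G) (fun _ x => Subtype.val x)
      (fun _ _ => rfl) T z
  have hlift : ∀ {T : Table} (x : C.C.at R.G.obj T), RespAt C.C_contractible (vtx A R) U x →
      ∃ z, p.hom.app _ z = x := fun {T} x hx =>
    ⟨((goodT (vtx A R) U hvt hinj).atEquiv T).symm ⟨x, hx⟩, (happ _).trans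
      (congrArg Subtype.val (Equiv.apply_symm_apply ((goodT (vtx A R) U hvt hinj).atEquiv T) _))⟩
  have hmem : ∀ {T : Table} (z : C.C.at (goodT (vtx A R) U hvt hinj).gpd.obj T),
      RespAt C.C_contractible (vtx A R) U (p.hom.app _ z) := fun {T} z => by
    rw [happ]
    exact ((goodT (vtx A R) U hvt hinj).atEquiv T z).2
  have hpinj : ∀ {T : Table} {z z' : C.C.at (goodT (vtx A R) U hvt hinj).gpd.obj T},
      p.hom.app _ z = p.hom.app _ z' → z = z' := fun {T z z'} h =>
    ((goodT (vtx A R) U hvt hinj).atEquiv T).injective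
      (Subtype.ext ((happ z).symm.trans (h.trans (happ z'))))
  obtain ⟨τ, hτ, -⟩ := A.exists_lift hQ R p (fun _ _ => True)
    (fun v => by
      obtain ⟨z, hz⟩ := hlift (C.C.appCell (R.fam.app v).hom 0 (A.top 0 N.zero_le))
        (goodAt_zero (vtx A R) U hinj _)
      exact ⟨z, hz, fun _ _ => trivial⟩)
    (fun {n} hn v b hb _ => by
      have hs := top_sides_of A R hn v p b hb
      have hgood : RespAt C.C_contractible (vtx A R) U
          (C.C.appCell (R.fam.app v).hom (n + 1) (A.top (n + 1) hn)) := by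
        cases n with
        | zero =>
            let a : Q.Simp 0 := v.face ⟨fun _ => 0, fun _ _ _ => le_rfl⟩
              fun i k _ => Subsingleton.elim (α := Fin 1) i k
            let c : Q.Simp 0 := v.face ⟨fun _ => 1, fun _ _ _ => le_rfl⟩
              fun i k _ => Subsingleton.elim (α := Fin 1) i k
            have hv : v.1 = ![a.1 0, c.1 0] := funext fun i => by fin_cases i <;> rfl
            have hm : Q.mem ![a.1 0, c.1 0] := hv ▸ v.2
            rw [show C.C.appCell (R.fam.app v).hom (0 + 1) (A.top (0 + 1) hn) =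
              edgeCell A R hQ a c hm from congrArg (fun w =>
                C.C.appCell (R.fam.app w).hom 1 (A.top 1 hn)) (Subtype.ext hv)]
            refine goodAt_one (vtx A R) U hvt hinj _ fun w w' ha hb => ?_
            obtain rfl : w = c := hinj (ha.symm.trans (edgeCell_src A R hQ a c hm))
            obtain rfl : w' = a := hinj (hb.symm.trans (edgeCell_tgt A R hQ a c hm))
            exact hU a c hm
        | succ m =>
            refine goodAt_high (vtx A R) U _ ?_
            rw [hs.1]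
            exact hmem _
      obtain ⟨z, hz⟩ := hlift _ hgood
      exact ⟨z, hz, ⟨hpinj ((C.C.act_natural p.hom _ z).symm.trans
          ((congrArg (C.C.act R.G.obj _) hz).trans hs.1)),
        hpinj ((C.C.act_natural p.hom _ z).symm.trans
          ((congrArg (C.C.act R.G.obj _) hz).trans hs.2))⟩, fun _ _ _ => trivial⟩)
  refine oneConn_of_good (vtx A R) U hvt fun f => ?_
  have h := hmem (τ.hom.app _ f) (𝟙 _)
  rw [C.C.act_id] at h
  have hf : p.hom.app _ (τ.hom.app _ f) = f :=
    ConcreteCategory.congr_hom (NatTrans.congr_app (congrArg (fun f => f.hom) hτ) _) f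
  rwa [hf] at h

/-- A vertex of the horn on a triangle. -/
def hornV (i : Fin 3) : (OCx.horn (1 + 1) 0).Simp 0 :=
  ⟨fun _ => i, ⟨fun a b h => absurd h (by
      rw [Subsingleton.elim (α := Fin 1) a b]; exact lt_irrefl _), by
    rcases eq_or_ne i 1 with rfl | h
    · exact ⟨(2 : Fin 3), by decide, fun ⟨_, e⟩ => absurd (show (1 : Fin 3) = 2 from e) (by decide)⟩
    · exact ⟨(1 : Fin 3), by decide, fun ⟨_, e⟩ => h e⟩⟩⟩

/-- The value of a vertex of the horn on a triangle. -/
def val3 (a : (OCx.horn (1 + 1) 0).Simp 0) : Fin 3 := a.1 0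

/-- An edge of the horn on a triangle starts at the vertex `0`. -/
theorem horn_edge {a b : (OCx.horn (1 + 1) 0).Simp 0}
    (h : (OCx.horn (1 + 1) 0).mem ![a.1 0, b.1 0]) : val3 a = 0 := by
  obtain ⟨hs, i, hi, hiv⟩ := h
  exact fin_three_aux (val3 a) (val3 b) i (hs (show (0 : Fin 2) < 1 by decide))
    (fun e => hiv ⟨0, e⟩) (fun e => hiv ⟨1, e⟩) hi

theorem horn_mem {i : Fin 3} (hi : i ≠ 0) :
    (OCx.horn (1 + 1) 0).mem ![(0 : Fin 3), i] := by
  obtain ⟨m, hm, hk⟩ := fin_three_miss i hi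
  exact ⟨strictMono_pair (Fin.pos_of_ne_zero hi), m, hm, fun ⟨k, e⟩ => hk k e⟩

/-- The horn on a triangle is one connected. -/
theorem horn_oneConn (H : A.SRep (OCx.horn (1 + 1) 0)) (hd : DimLE (OCx.horn (1 + 1) 0) N) :
    C.C.OneConn H.G.obj := by
  classical
  let U : ∀ a : (OCx.horn (1 + 1) 0).Simp 0, pobj C.C_contractible (vtx A H (hornV 0)) ⟶
      pobj C.C_contractible (vtx A H a) := fun a =>
    if h : val3 a = 0 then
      eqToHom (congrArg (fun v => pobj C.C_contractible (vtx A H v))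
        (simp_zero_ext (a := hornV 0) (b := a) h.symm))
    else inv (edgeArr A H hd (hornV 0) a (horn_mem h))
  refine oneConn_of_gauge A H hd (hornV 0) U fun a b h => ?_
  have ha := horn_edge h
  obtain rfl : a = hornV 0 := simp_zero_ext ha
  have hb : ¬ val3 b = 0 :=
    (show val3 (hornV 0) < val3 b from h.1 (show (0 : Fin 2) < 1 by decide)).ne'
  simp only [U, dif_neg hb]
  refine (IsIso.inv_hom_id _).trans (Eq.symm ?_)
  exact dif_pos rfl

/-- The edges of a free model compose on the triangles. -/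
theorem edgeArr_tri (hQ : DimLE Q N) (a b c : Q.Simp 0) (h01 : Q.mem ![a.1 0, b.1 0])
    (h12 : Q.mem ![b.1 0, c.1 0]) (h02 : Q.mem ![a.1 0, c.1 0])
    (h : Q.mem ![a.1 0, b.1 0, c.1 0]) :
    edgeArr A R hQ b c h12 ≫ edgeArr A R hQ a b h01 = edgeArr A R hQ a c h02 := by
  let v : Q.Simp 2 := ⟨![a.1 0, b.1 0, c.1 0], h⟩
  have hN : 1 < N := hQ 2 v
  obtain ⟨H⟩ := nonempty_srep A.toSemiBase (OCx.horn (1 + 1) 0)
  have hd : DimLE (OCx.horn (1 + 1) 0) N := fun k w => by
    have h1 := Semi.bdry_lt (k := 2) (⟨w.1, w.2.1, fun hu => by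
      obtain ⟨i, -, hi⟩ := w.2.2
      exact hi (hu ▸ Set.mem_univ i)⟩ : (OCx.bdry 2).Simp k)
    omega
  let hor := (A.bdryOf (R.fam.app v)).toHorn A.toSemiBase (0 : Fin 3)
  obtain ⟨g, hg⟩ := H.exists_desc A.toSemiBase hor
  have hgv : ∀ {k : ℕ} (w : (OCx.horn (1 + 1) 0).Simp k) (u : Q.Simp k),
      v.1 ∘ w.1 = u.1 → H.fam.app w ≫ g = R.fam.app u := fun {k} w u hu => by
    rw [hg]
    show A.map _ _ ≫ R.fam.app v = _
    rw [R.fam.nat]
    exact congrArg (fun s => R.fam.app s) (Subtype.ext hu)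
  let cH := A.fillOf hN H.fam
  have hc : C.C.appCell g.hom 1 cH = A.fillOf hN hor := by
    rw [← A.fillOf_natural]
    exact congrArg (A.fillOf hN) (SemiBase.SFam.ext (funext fun k => funext fun w => hg w))
  have hs := A.top_sides hN (R.fam.app v)
  have ha : C.C.appCell ((A.bdryOf (R.fam.app v)).app (OCx.bdryFace 1 0)).hom 1
      (A.top 1 hN.le) = edgeCell A R hQ b c h12 := by
    show C.C.appCell (A.map _ _ ≫ R.fam.app v).hom 1 _ = _
    rw [R.fam.nat]
    refine congrArg (fun s => C.C.appCell (R.fam.app s).hom 1 (A.top 1 hN.le)) (Subtype.ext ?_)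
    funext i
    fin_cases i <;> rfl
  have hlink : C.C.Linked R.G.obj (edgeCell A R hQ b c h12) (C.C.appCell g.hom 1 cH) :=
    ⟨_, hs.1.trans ha, hs.2.trans hc.symm⟩
  have hend : ∀ e i, C.C.act R.G.obj (C.C.face e 0) (C.C.appCell g.hom 1 cH) =
      vtx A R (v.face ⟨fun _ => i, fun _ _ _ => le_rfl⟩
        fun x y _ => Subsingleton.elim (α := Fin 1) x y) →
      C.C.act H.G.obj (C.C.face e 0) cH = vtx A H (hornV i) := by
    intro e i he
    obtain ⟨w, hw⟩ := exists_vtx A H hd (C.C.act H.G.obj (C.C.face e 0) cH)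
    rw [hw]
    refine congrArg (vtx A H) (simp_zero_ext ?_)
    rw [C.C.act_natural, hw] at he
    let u : Q.Simp 0 := v.face ⟨fun _ => (w.1 0 : Fin 3), fun _ _ _ => le_rfl⟩
      fun x y _ => Subsingleton.elim (α := Fin 1) x y
    have h1 : vtx A R u = vtx A R (v.face ⟨fun _ => i, fun _ _ _ => le_rfl⟩
          fun x y _ => Subsingleton.elim (α := Fin 1) x y) := by
      refine Eq.trans ?_ he
      exact congrArg (fun f => C.C.appCell f.hom 0 (A.top 0 N.zero_le))
        (hgv w u (funext fun x => congrArg (fun y => v.1 (w.1 y))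
          (Subsingleton.elim (α := Fin 1) x 0))).symm
    have h2 := congrArg (fun s : Q.Simp 0 => s.1 0) (vtx_injective A R hQ h1)
    exact (Q.strictMono v.2).injective h2
  have e2 : C.C.act H.G.obj (C.C.face false 0) cH = vtx A H (hornV 2) := hend false 2 (by
    rw [← hlink.par false, edgeCell_src]
    exact congrArg (vtx A R) (simp_zero_ext rfl))
  have e1 : C.C.act H.G.obj (C.C.face true 0) cH = vtx A H (hornV 1) := hend true 1 (by
    rw [← hlink.par true, edgeCell_tgt]
    exact congrArg (vtx A R) (simp_zero_ext rfl))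
  have m1 := horn_mem (i := 1) (by decide)
  have m2 := horn_mem (i := 2) (by decide)
  have k0 := congrArg (mapP1 C.C_contractible g)
    (thin_of_oneConn C.C_contractible (horn_oneConn A H hd)
      (arr C.C_contractible cH e2 e1 ≫ edgeArr A H hd (hornV 0) (hornV 1) m1)
      (edgeArr A H hd (hornV 0) (hornV 2) m2))
  have k := ((congrArg₂ (· ≫ ·) (mapP1_arr C.C_contractible g cH e2 e1)
    (mapP1_arr C.C_contractible g _ (edgeCell_src A H hd (hornV 0) (hornV 1) m1)
      (edgeCell_tgt A H hd (hornV 0) (hornV 1) m1))).symm.trans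
    ((mapP1_comp C.C_contractible g _ _).symm.trans k0)).trans
    (mapP1_arr C.C_contractible g _ (edgeCell_src A H hd (hornV 0) (hornV 2) m2)
      (edgeCell_tgt A H hd (hornV 0) (hornV 2) m2))
  have himg : ∀ (i : Fin 3) (u : Q.Simp 0) (m : (OCx.horn (1 + 1) 0).mem ![(0 : Fin 3), i])
      (m' : Q.mem ![a.1 0, u.1 0]), v.1 i = u.1 0 →
      C.C.appCell g.hom 1 (edgeCell A H hd (hornV 0) (hornV i) m) = edgeCell A R hQ a u m' := by
    intro i u m m' hu
    refine congrArg (fun f => C.C.appCell f.hom 1 (A.top 1 hN.le))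
      (hgv (⟨![(0 : Fin 3), i], m⟩ : (OCx.horn (1 + 1) 0).Simp 1) ⟨![a.1 0, u.1 0], m'⟩ ?_)
    funext x
    fin_cases x
    · rfl
    · exact hu
  have k' := arr_comp_transport C.C_contractible k rfl (himg 1 b m1 h01 rfl) (himg 2 c m2 h02 rfl)
    ((hlink.par false).symm.trans (edgeCell_src A R hQ b c h12))
    ((hlink.par true).symm.trans (edgeCell_tgt A R hQ b c h12))
    (edgeCell_src A R hQ a b h01) (edgeCell_tgt A R hQ a b h01)
    (edgeCell_src A R hQ a c h02) (edgeCell_tgt A R hQ a c h02)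
  rw [edgeArr, arr_linked C.C_contractible hlink (edgeCell_src A R hQ b c h12)
    (edgeCell_tgt A R hQ b c h12) ((hlink.par false).symm.trans (edgeCell_src A R hQ b c h12))
    ((hlink.par true).symm.trans (edgeCell_tgt A R hQ b c h12))]
  exact k'

/-- The arrows of the edges. -/
def edgeArrows (hQ : DimLE Q N) : EdgeArrows (P1 C.C_contractible R.G) Q where
  o a := pobj C.C_contractible (vtx A R a)
  e := edgeArr A R hQ
  tri := edgeArr_tri A R hQ

end

end Vale.Agent.P259.Free
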