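import Vale.Agent.P259.Free.Lin
import Vale.Agent.P259.Free.LiftModel
import Vale.Agent.P259.Cat.Comma
import Vale.Agent.P259.Cat.Elements

/-!
# P259, module D: chains of free models are retracts of simplicial chains

If the chains of a complex are exact then so are the chains of the elements of its free model.
-/

namespace Vale.Agent.P259.Free

open CategoryTheory Opposite
open Vale.Agent.P259.Cat

noncomputable section

variable {E : Ext}

/-- The systems of cylinders. -/
def tcSys (S : CylSys E) : Sys (Tb E)ᵒᵖ where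
  obj a := tcyl E a.unop.T
  map f := (S.hom f.unop).P
  map_id a n x := by
    show (S.hom (𝟙 (E.i.obj a.unop.T))).P.f n x = x
    rw [S.hom_id]
    rfl
  map_comp f g n x := by
    show (S.hom (g.unop ≫ f.unop : E.M _ _)).P.f n x = _
    rw [S.hom_comp]
    rfl
  e a := (cylK (iota E a.unop.T)).f 0 (repE E a.unop.T)
  map_e {a b} f := by
    refine (congrArg (fun F => F.f 0 (repE E b.unop.T)) (S.hom f.unop).hover.1).trans ?_
    show (cylK _).f 0 ((repMap _).f 0 (repE E b.unop.T)) = _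
    rw [repMap_e]

/-- The system of complexes of cells. -/
def abSys (S : CylSys E) : Sys (Tb E)ᵒᵖ where
  obj a := Ab a.unop.T
  map f := S.ab f.unop
  map_id a n x := by
    show (S.ab (𝟙 (E.i.obj a.unop.T))).f n x = x
    rw [S.ab_id]
    rfl
  map_comp f g n x := by
    show (S.ab (g.unop ≫ f.unop : E.M _ _)).f n x = _
    rw [S.ab_comp]
    rfl
  e a := abE a.unop.T
  map_e f := S.ab_e f.unop

/-- The cells of a representable. -/
def lam (S : CylSys E) (a : (Tb E)ᵒᵖ) : CxHom (chains (hom a)) (Ab a.unop.T) :=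
  (abSys S).tau (fun b => ab_exact b.unop.T) a

/-- The prism over the augmentation, linearly. -/
def kap (E : Ext) (a : (Tb E)ᵒᵖ) : CX 0 (hom a) →+ (tcyl E a.unop.T).X 1 :=
  lin fun _ => cE E a.unop.T

/-- Cells of representables, read in the cylinder, with corrected low degrees. -/
def lamFun (S : CylSys E) (a : (Tb E)ᵒᵖ) : ∀ n, CX n (hom a) →+ (tcyl E a.unop.T).X n
  | 0 => ((cylA (iota E a.unop.T)).f 0).comp ((lam S a).f 0) -
      ((tcyl E a.unop.T).d 0).comp (kap E a)
  | 1 => ((cylA (iota E a.unop.T)).f 1).comp ((lam S a).f 1) - (kap E a).comp (bd 0 (hom a))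
  | k + 2 => ((cylA (iota E a.unop.T)).f (k + 2)).comp ((lam S a).f (k + 2))

theorem lamFun_bd (S : CylSys E) (a : (Tb E)ᵒᵖ) : ∀ n (z : CX (n + 1) (hom a)),
    lamFun S a n (bd n (hom a) z) = (tcyl E a.unop.T).d n (lamFun S a (n + 1) z)
  | 0, z => by
      show (cylA _).f 0 ((lam S a).f 0 (bd 0 _ z)) - (tcyl E _).d 0 (kap E a (bd 0 _ z)) =
        (tcyl E _).d 0 ((cylA _).f 1 ((lam S a).f 1 z) - kap E a (bd 0 _ z))
      rw [map_sub, ← (cylA _).comm, ← (lam S a).comm]
  | 1, z => by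
      show (cylA _).f 1 ((lam S a).f 1 (bd 1 _ z)) - kap E a (bd 0 _ (bd 1 _ z)) =
        (tcyl E _).d 1 ((cylA _).f 2 ((lam S a).f 2 z))
      rw [bd_bd, map_zero, sub_zero, ← (cylA _).comm, ← (lam S a).comm]
  | k + 2, z => by
      show (cylA _).f (k + 2) ((lam S a).f (k + 2) (bd (k + 2) _ z)) =
        (tcyl E _).d (k + 2) ((cylA _).f (k + 2 + 1) ((lam S a).f (k + 2 + 1) z))
      rw [← (cylA _).comm, ← (lam S a).comm]

theorem lam_nat (S : CylSys E) {a b : (Tb E)ᵒᵖ} (f : a ⟶ b) (n : ℕ) (z : CX n (hom b)) :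
    (lam S a).f n (mapL (ShHom.yon (hom a) f) n z) = (S.ab f.unop).f n ((lam S b).f n z) :=
  (abSys S).tauF_nat n f z

theorem cylA_nat (S : CylSys E) {R T : Table} (φ : E.M R T) (n : ℕ) (y : (Ab R).X n) :
    (S.hom φ).P.f n ((cylA (iota E R)).f n y) = (cylA (iota E T)).f n ((S.ab φ).f n y) :=
  congrArg (fun F => F.f n y) (S.hom φ).hkeep

theorem kap_nat (S : CylSys E) {a b : (Tb E)ᵒᵖ} (f : a ⟶ b) (z : CX 0 (hom b)) :
    kap E a (mapL (ShHom.yon (hom a) f) 0 z) = (S.hom f.unop).P.f 1 (kap E b z) := by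
  refine hom_ext (f := (kap E a).comp (mapL (ShHom.yon (hom a) f) 0))
    (g := ((S.hom f.unop).P.f 1).comp (kap E b)) ?_ z
  intro s
  simp only [AddMonoidHom.comp_apply, mapL_single, kap, lin_single, one_smul]
  exact (S.hom f.unop).hover.2.symm

theorem lamFun_nat (S : CylSys E) {a b : (Tb E)ᵒᵖ} (f : a ⟶ b) : ∀ n (z : CX n (hom b)),
    lamFun S a n (mapL (ShHom.yon (hom a) f) n z) = (S.hom f.unop).P.f n (lamFun S b n z)
  | 0, z => by
      show (cylA _).f 0 ((lam S a).f 0 _) - (tcyl E _).d 0 (kap E a _) =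
        (S.hom f.unop).P.f 0 ((cylA _).f 0 ((lam S b).f 0 z) - (tcyl E _).d 0 (kap E b z))
      rw [map_sub, kap_nat S, lam_nat, ← cylA_nat S, (S.hom f.unop).P.comm]
  | 1, z => by
      show (cylA _).f 1 ((lam S a).f 1 _) - kap E a (bd 0 _ _) =
        (S.hom f.unop).P.f 1 ((cylA _).f 1 ((lam S b).f 1 z) - kap E b (bd 0 _ z))
      rw [map_sub, ← bd_nat, kap_nat S, lam_nat, ← cylA_nat S]
  | k + 2, z => by
      show (cylA _).f (k + 2) ((lam S a).f (k + 2) _) =
        (S.hom f.unop).P.f (k + 2) ((cylA _).f (k + 2) ((lam S b).f (k + 2) z))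
      rw [lam_nat, ← cylA_nat S]

/-- The comparison of chains and cells in the cylinders. -/
def tcPair (S : CylSys E) : (tcSys S).Pair where
  F a := cylK (iota E a.unop.T)
  G a := ⟨lamFun S a, lamFun_bd S a⟩
  F_nat {a b} f n z := by
    refine Eq.symm ?_
    refine (congrArg (fun F => F.f n z) (S.hom f.unop).hover.1).trans ?_
    rw [S.hom_φ]
    rfl
  G_nat f n z := lamFun_nat S f n z
  zero a z := by
    refine hom_ext (f := (cylK (iota E a.unop.T)).f 0) (g := lamFun S a 0) ?_ z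
    intro s
    show (cylK _).f 0 (Finsupp.single s 1) = (cylA _).f 0 ((lam S a).f 0 (Finsupp.single s 1)) -
      (tcyl E _).d 0 (kap E a (Finsupp.single s 1))
    rw [kap, lin_single, one_smul, d_cE,
      show (lam S a).f 0 (Finsupp.single s 1) = abE a.unop.T from
        (lin_single _ _ _).trans (one_smul _ _), sub_sub_cancel]
    rfl

theorem eps_mul_self (k : ℕ) : eps k * eps k = 1 := by
  rw [eps, ← mul_pow, neg_one_mul, neg_neg, one_pow]

section

variable {N : ℕ} (A : Semi E N) {Q : OCx} (R : A.SRep Q) (S : CylSys E)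

/-- The lifted boundary gives the sides of the top cell. -/
theorem top_sides_of {n : ℕ} (hn : n < N) (v : Q.Simp (n + 1)) {Y : E.Gpd} (p : Y ⟶ R.G)
    (b : A.SFam (OCx.bdry (n + 1)) Y)
    (hb : ∀ {j : ℕ} (w : (OCx.bdry (n + 1)).Simp j), b.app w ≫ p =
      R.fam.app (v.face (SemiBase.simpOp w.1 w.2.1) (StrictMono.injective w.2.1))) :
    E.HasSides R.G.obj (E.appCell (R.fam.app v).hom (n + 1) (A.top (n + 1) hn))
      (E.appCell p.hom n (E.appCell (b.app (OCx.bdryFace n 0)).hom n (A.top n hn.le)))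
      (E.appCell p.hom n (A.fillOf hn (b.toHorn A.toSemiBase 0))) := by
  have e : A.bdryOf (R.fam.app v) = b.push A.toSemiBase p := by
    refine SemiBase.SFam.ext ?_
    funext j w
    show A.map _ _ ≫ R.fam.app v = b.app w ≫ p
    rw [R.fam.nat, hb]
  have h := A.top_sides hn (R.fam.app v)
  rw [e] at h
  refine ⟨h.1, h.2.trans ?_⟩
  exact A.fillOf_natural hn p (b.toHorn A.toSemiBase 0)

theorem exists_section (hQ : DimLE Q N) :
    ∃ σ : R.G ⟶ (mT S R.G).gpd, σ ≫ mProj S R.G = 𝟙 _ := by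
  obtain ⟨σ, hσ, -⟩ := A.exists_lift hQ R (mProj S R.G) (fun _ _ => True)
    (fun v => by
      obtain ⟨z, hz⟩ := exists_mlift_zero S
        (E.appCell (R.fam.app v).hom 0 (A.top 0 N.zero_le))
      exact ⟨z, hz, fun _ _ => trivial⟩)
    (fun {k} hk v b hb _ => by
      obtain ⟨z, hz, hs⟩ := exists_mlift S _ _ _ (A.par hk b)
        (top_sides_of A R hk v (mProj S R.G) b hb)
      exact ⟨z, hz, hs, fun _ _ _ => trivial⟩)
  exact ⟨σ, hσ⟩

variable (σ : R.G ⟶ (mT S R.G).gpd) (hσ : σ ≫ mProj S R.G = 𝟙 _)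
  (ρ : R.G ⟶ linModel S Q) (hQ : DimLE Q N)

/-- The extension over the elements. -/
def gs {T : Table} (x : E.at R.G.obj T) : CxHom (tcyl E T) (xCx E R.G.obj) :=
  mG S (σ.hom.app _ x)

/-- The linearised elements. -/
def nv {T : Table} (x : E.at R.G.obj T) : CxHom (Ab T) (ch Q) := nval S (ρ.hom.app _ x)

theorem gs_act {U T : Table} (φ : E.M U T) (x : E.at R.G.obj T) :
    gs A R S σ (E.act R.G.obj φ x) = (gs A R S σ x).comp (S.hom φ).P := by
  rw [gs, gs, ← E.act_natural, mG_act]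

theorem nv_act {U T : Table} (φ : E.M U T) (x : E.at R.G.obj T) :
    nv A R S ρ (E.act R.G.obj φ x) = (nv A R S ρ x).comp (S.ab φ) := by
  rw [nv, nv, ← E.act_natural, nval_act]

include hσ in
theorem gs_over {T : Table} (x : E.at R.G.obj T) : IsOver (xMap x) 0 (gs A R S σ x) := by
  have hx : (mProj S R.G).hom.app _ (σ.hom.app _ x) = x :=
    ConcreteCategory.congr_hom (NatTrans.congr_app (congrArg (fun f => f.hom) hσ) _) x
  have h := mG_over S (σ.hom.app _ x)
  rw [hx] at h
  exact h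

/-- The values of the retraction on generators. -/
def psiV : ∀ n, CGen Q n → (xCx E R.G.obj).X n
  | 0, _ => xE E R.G.obj
  | k + 1, v => eps k • (gs A R S σ (E.appCell (R.fam.app (k := k) v).hom k
      (A.top k (hQ k v)))).f (k + 1) (cA E (TCell.top k))

/-- The retraction, degree by degree. -/
def psiF (n : ℕ) : (ch Q).X n →+ (xCx E R.G.obj).X n := lin (psiV A R S σ hQ n)

theorem psiF_gen {k : ℕ} (v : Q.Simp k) :
    psiF A R S σ hQ (k + 1) (chGen v) = eps k • (gs A R S σ (E.appCell (R.fam.app v).hom k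
      (A.top k (hQ k v)))).f (k + 1) (cA E (TCell.top k)) :=
  (lin_single _ _ _).trans (one_smul _ _)

theorem psiF_e : psiF A R S σ hQ 0 (chE Q) = xE E R.G.obj :=
  (lin_single _ _ _).trans (one_smul _ _)

/-- Agreement of the two descriptions of the cells of an element. -/
def Agrees {T : Table} (x : E.at R.G.obj T) : Prop :=
  ∀ n (y : (Ab T).X n), (gs A R S σ x).f n ((cylA (iota E T)).f n y) =
    psiF A R S σ hQ n ((nv A R S ρ x).f n y)

theorem agree_of_cells {T : Table} (x : E.at R.G.obj T)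
    (h : ∀ k (c : TCell T k), (gs A R S σ x).f (k + 1) (cA E c) =
      psiF A R S σ hQ (k + 1) ((nv A R S ρ x).f (k + 1) (abCell c))) :
    Agrees A R S σ ρ hQ x := by
  intro n y
  refine hom_ext (f := ((gs A R S σ x).f n).comp ((cylA (iota E T)).f n))
    (g := (psiF A R S σ hQ n).comp ((nv A R S ρ x).f n)) ?_ y
  intro c
  cases n with
  | zero =>
      cases c
      show (gs A R S σ x).f 0 ((cylA (iota E T)).f 0 (abE T)) =
        psiF A R S σ hQ 0 ((nv A R S ρ x).f 0 (abE T))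
      rw [show (nv A R S ρ x).f 0 (abE T) = chE Q from nval_aug S _, psiF_e]
      exact mG_base S _
  | succ k => exact h k c

theorem agree_act {U T : Table} (φ : E.M U T) (x : E.at R.G.obj T)
    (h : Agrees A R S σ ρ hQ x) : Agrees A R S σ ρ hQ (E.act R.G.obj φ x) := by
  intro n y
  rw [gs_act, nv_act]
  exact (congrArg ((gs A R S σ x).f n) (cylA_nat S φ n y)).trans (h n _)

theorem agree_map {U T : Table} (f : U ⟶ T) (x : E.at R.G.obj T)
    (h : Agrees A R S σ ρ hQ (E.act R.G.obj (E.i.map f) x)) {k : ℕ} (c : TCell U k) :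
    (gs A R S σ x).f (k + 1) (cA E (TCell.map f c)) =
      psiF A R S σ hQ (k + 1) ((nv A R S ρ x).f (k + 1) (abCell (TCell.map f c))) := by
  have h' := h (k + 1) (abCell c)
  rw [gs_act, nv_act, S.ab_map] at h'
  rw [← abMap_cell]
  refine Eq.trans ?_ h'
  refine congrArg ((gs A R S σ x).f (k + 1)) ?_
  rw [S.hom_map]
  exact (cylMap_A f c).symm

variable (hρ : ∀ {k : ℕ} (v : Q.Simp k),
  topVal A S (hQ k v) (R.fam.app v ≫ ρ) = eps k • chGen v)

include hρ in
theorem agree_top {k : ℕ} (v : Q.Simp k) :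
    (gs A R S σ (E.appCell (R.fam.app v).hom k (A.top k (hQ k v)))).f (k + 1)
        (cA E (TCell.top k)) =
      psiF A R S σ hQ (k + 1) ((nv A R S ρ (E.appCell (R.fam.app v).hom k
        (A.top k (hQ k v)))).f (k + 1) (abCell (TCell.top k))) := by
  rw [show (nv A R S ρ (E.appCell (R.fam.app v).hom k (A.top k (hQ k v)))).f (k + 1)
      (abCell (TCell.top k)) = eps k • chGen v from hρ v, map_zsmul, psiF_gen, smul_smul,
    eps_mul_self, one_smul]

/-- The elements on which the descriptions agree. -/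
def agreeT : Tabled E where
  obj T := {x : E.at R.G.obj T // Agrees A R S σ ρ hQ x}
  act φ x := ⟨E.act R.G.obj φ x.1, agree_act A R S σ ρ hQ φ x.1 x.2⟩
  act_id x := Subtype.ext (E.act_id _ _)
  act_comp f g x := Subtype.ext (E.act_comp _ _ _ _)
  glue T c hc := by
    obtain ⟨x, hx, hxu⟩ := R.G.property T (fun p => (c p).1) fun p => congrArg Subtype.val (hc p)
    refine ⟨⟨x, agree_of_cells A R S σ ρ hQ x fun k d => ?_⟩, fun p => Subtype.ext (hx p),
      fun y hy => Subtype.ext (hxu _ fun p => congrArg Subtype.val (hy p))⟩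
    obtain ⟨p, g, rfl⟩ := TCell.exists_mk d
    rw [← TCell.map_incl]
    refine agree_map A R S σ ρ hQ _ x ?_ _
    rw [hx p]
    exact (c p).2

/-- The inclusion of these elements. -/
def agreeIncl : (agreeT A R S σ ρ hQ).gpd ⟶ R.G :=
  Tabled.homTo (fun _ x => Subtype.val x) fun _ _ => rfl

theorem agreeIncl_app {T : Table} (z : E.at (agreeT A R S σ ρ hQ).gpd.obj T) :
    (agreeIncl A R S σ ρ hQ).hom.app _ z = ((agreeT A R S σ ρ hQ).atEquiv T z).1 :=
  Tabled.homTo_app (Y := agreeT A R S σ ρ hQ) (fun _ x => Subtype.val x) (fun _ _ => rfl) T z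

theorem exists_agree {T : Table} (x : E.at R.G.obj T) (h : Agrees A R S σ ρ hQ x) :
    ∃ z, (agreeIncl A R S σ ρ hQ).hom.app _ z = x :=
  ⟨((agreeT A R S σ ρ hQ).atEquiv T).symm ⟨x, h⟩, (agreeIncl_app A R S σ ρ hQ _).trans
    (congrArg Subtype.val (Equiv.apply_symm_apply ((agreeT A R S σ ρ hQ).atEquiv T) _))⟩

theorem agreeIncl_injective {T : Table} {z z' : E.at (agreeT A R S σ ρ hQ).gpd.obj T}
    (h : (agreeIncl A R S σ ρ hQ).hom.app _ z = (agreeIncl A R S σ ρ hQ).hom.app _ z') :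
    z = z' :=
  ((agreeT A R S σ ρ hQ).atEquiv T).injective (Subtype.ext
    ((agreeIncl_app A R S σ ρ hQ z).symm.trans (h.trans (agreeIncl_app A R S σ ρ hQ z'))))

theorem agree_image {T : Table} (z : E.at (agreeT A R S σ ρ hQ).gpd.obj T) :
    Agrees A R S σ ρ hQ ((agreeIncl A R S σ ρ hQ).hom.app _ z) := by
  rw [agreeIncl_app]
  exact ((agreeT A R S σ ρ hQ).atEquiv T z).2

include hρ in
/-- Every element agrees. -/
theorem agree_all {T : Table} (x : E.at R.G.obj T) : Agrees A R S σ ρ hQ x := by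
  obtain ⟨τ, hτ, -⟩ := A.exists_lift hQ R (agreeIncl A R S σ ρ hQ) (fun _ _ => True)
    (fun v => by
      obtain ⟨z, hz⟩ := exists_agree A R S σ ρ hQ (E.appCell (R.fam.app v).hom 0
          (A.top 0 N.zero_le)) (agree_of_cells A R S σ ρ hQ _ fun k c => by
        rcases TCell.disc_cells c with ⟨hk, rfl⟩ | ⟨e, hk, -⟩
        · subst hk
          exact agree_top A R S σ ρ hQ hρ v
        · exact absurd hk (Nat.not_lt_zero k))
      exact ⟨z, hz, fun _ _ => trivial⟩)
    (fun {n} hn v b hb _ => by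
      have hs := top_sides_of A R hn v (agreeIncl A R S σ ρ hQ) b hb
      have ha : ∀ e, Agrees A R S σ ρ hQ (E.act R.G.obj (E.face e n)
          (E.appCell (R.fam.app v).hom (n + 1) (A.top (n + 1) hn))) := fun e => by
        cases e
        · rw [hs.1]
          exact agree_image A R S σ ρ hQ _
        · rw [hs.2]
          exact agree_image A R S σ ρ hQ _
      obtain ⟨z, hz⟩ := exists_agree A R S σ ρ hQ (E.appCell (R.fam.app v).hom (n + 1)
          (A.top (n + 1) hn)) (agree_of_cells A R S σ ρ hQ _ fun k c => by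
        rcases exists_side_of_cell c with ⟨hk, rfl⟩ | ⟨e, c', rfl⟩
        · subst hk
          exact agree_top A R S σ ρ hQ hρ v
        · exact agree_map A R S σ ρ hQ _ _ (ha e) c')
      refine ⟨z, hz, ⟨agreeIncl_injective A R S σ ρ hQ ?_, agreeIncl_injective A R S σ ρ hQ ?_⟩,
        fun _ _ _ => trivial⟩
      · rw [← E.act_natural, hz]
        exact hs.1
      · rw [← E.act_natural, hz]
        exact hs.2)
  have hx : (agreeIncl A R S σ ρ hQ).hom.app _ (τ.hom.app _ x) = x :=
    ConcreteCategory.congr_hom (NatTrans.congr_app (congrArg (fun f => f.hom) hτ) _) x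
  rw [← hx]
  exact agree_image A R S σ ρ hQ _

include hρ in
theorem psiF_comm (n : ℕ) (v : Q.Simp n) :
    psiF A R S σ hQ n ((ch Q).d n (chGen v)) =
      (xCx E R.G.obj).d n (psiF A R S σ hQ (n + 1) (chGen v)) := by
  have h := agree_all A R S σ ρ hQ hρ (E.appCell (R.fam.app v).hom n (A.top n (hQ n v))) n
    ((Ab (disc n)).d n (abCell (TCell.top n)))
  rw [(cylA (iota E (disc n))).comm, CxHom.comm, CxHom.comm,
    show (nv A R S ρ (E.appCell (R.fam.app v).hom n (A.top n (hQ n v)))).f (n + 1)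
      (abCell (TCell.top n)) = eps n • chGen v from hρ v, map_zsmul, map_zsmul] at h
  rw [psiF_gen, map_zsmul]
  refine Eq.trans ?_ (congrArg (eps n • ·) h.symm)
  rw [smul_smul, eps_mul_self, one_smul]

/-- The retraction as a chain map. -/
def psiHom : CxHom (ch Q) (xCx E R.G.obj) :=
  Cells.toHom (A := chCells Q) (psiV A R S σ hQ) fun n c => by
    have h := psiF_comm A R S σ ρ hQ hρ n c
    rw [show (ch Q).d n (chGen (k := n) c) = (chCells Q).bdy n c from
      (lin_single _ _ _).trans (one_smul _ _)] at h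
    exact h.trans (congrArg ((xCx E R.G.obj).d n) ((lin_single _ _ _).trans (one_smul _ _)))

/-- The cone of extensions. -/
def gsCone : SysCone (tcSys S) (xPsh E R.G.obj) (xCx E R.G.obj) where
  app x := gs A R S σ x
  nat f x n z := congrArg (fun F => F.f n z) (gs_act A R S σ f.unop x)

/-- The cone of linearisations. -/
def nvCone : SysCone (abSys S) (xPsh E R.G.obj) (ch Q) where
  app x := nv A R S ρ x
  nat f x n z := congrArg (fun F => F.f n z) (nv_act A R S ρ f.unop x)

/-- Chains of elements to chains of the complex. -/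
def theta (n : ℕ) : CX n (xPsh E R.G.obj) →+ (ch Q).X n :=
  coneMap (fun a k => (lam S a).f k) (nvCone A R S ρ) (chE Q) n

theorem theta_single {k : ℕ} (b : (Tb E)ᵒᵖ) (x : E.at R.G.obj b.unop.T)
    (t : Seq (Tb E)ᵒᵖ k (hom b)) :
    theta A R S ρ (k + 1) (Finsupp.single (Seq.cons (P := xPsh E R.G.obj) b x t) 1) =
      (nv A R S ρ x).f (k + 1) ((lam S b).f (k + 1) (Sys.gen b t)) := by
  unfold theta
  have h := coneMap_single (fun a j => (lam S a).f j) (nvCone A R S ρ) (chE Q) b x t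
  exact h

theorem theta_bd (n : ℕ) (z : CX (n + 1) (xPsh E R.G.obj)) :
    theta A R S ρ n (bd n _ z) = (ch Q).d n (theta A R S ρ (n + 1) z) := by
  refine coneMap_bd _ _ _ (fun x s => ?_) (fun f k z => lam_nat S f k z)
    (fun a k z => (lam S a).comm k z) n z
  refine (congrArg _ ((lin_single _ _ _).trans (one_smul _ _))).trans ?_
  exact nval_aug S _

include hσ in
theorem coneMap_F (k : ℕ) (z : CX (k + 1) (xPsh E R.G.obj)) :
    coneMap (fun a n => ((tcPair S).F a).f n) (gsCone A R S σ) (xE E R.G.obj) (k + 1) z = z := by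
  refine hom_ext (f := coneMap (fun a n => ((tcPair S).F a).f n) (gsCone A R S σ)
    (xE E R.G.obj) (k + 1)) (g := AddMonoidHom.id _) ?_ z
  intro s
  obtain ⟨b, x, t, rfl⟩ := Seq.exists_cons s
  rw [coneMap_single]
  refine (congrArg (fun F => F.f (k + 1) (Sys.gen b t)) (gs_over A R S σ hσ x).1).trans ?_
  exact Sys.mapL_yon_gen x t

include hσ in
theorem gs_kap (b : (Tb E)ᵒᵖ) (x : E.at R.G.obj b.unop.T) (u : CX 0 (hom b)) :
    (gs A R S σ x).f 1 (kap E b u) = 0 := by
  refine hom_ext (f := ((gs A R S σ x).f 1).comp (kap E b)) (g := 0) ?_ u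
  intro s
  rw [AddMonoidHom.comp_apply, kap, lin_single, one_smul, AddMonoidHom.zero_apply]
  exact (gs_over A R S σ hσ x).2

include hσ in
theorem gs_lamFun (b : (Tb E)ᵒᵖ) (x : E.at R.G.obj b.unop.T) : ∀ k (y : CX (k + 1) (hom b)),
    (gs A R S σ x).f (k + 1) (lamFun S b (k + 1) y) =
      (gs A R S σ x).f (k + 1) ((cylA (iota E b.unop.T)).f (k + 1) ((lam S b).f (k + 1) y))
  | 0, y => by
      show (gs A R S σ x).f 1 ((cylA (iota E b.unop.T)).f 1 ((lam S b).f 1 y) -
        kap E b (bd 0 (hom b) y)) = _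
      rw [map_sub, gs_kap A R S σ hσ b x, sub_zero]
  | _ + 1, _ => rfl

include hρ hσ in
theorem gs_lamFun_psi (b : (Tb E)ᵒᵖ) (x : E.at R.G.obj b.unop.T) (k : ℕ)
    (y : CX (k + 1) (hom b)) : (gs A R S σ x).f (k + 1) (lamFun S b (k + 1) y) =
      psiF A R S σ hQ (k + 1) ((nv A R S ρ x).f (k + 1) ((lam S b).f (k + 1) y)) :=
  (gs_lamFun A R S σ hσ b x k y).trans (agree_all A R S σ ρ hQ hρ x (k + 1) _)

include hρ hσ in
theorem coneMap_G (k : ℕ) (z : CX (k + 1) (xPsh E R.G.obj)) :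
    coneMap (fun a n => ((tcPair S).G a).f n) (gsCone A R S σ) (xE E R.G.obj) (k + 1) z =
      psiF A R S σ hQ (k + 1) (theta A R S ρ (k + 1) z) := by
  refine hom_ext (f := coneMap (fun a n => ((tcPair S).G a).f n) (gsCone A R S σ)
    (xE E R.G.obj) (k + 1)) (g := (psiF A R S σ hQ (k + 1)).comp (theta A R S ρ (k + 1))) ?_ z
  intro s
  obtain ⟨b, x, t, rfl⟩ := Seq.exists_cons s
  refine (coneMap_single (fun a n => ((tcPair S).G a).f n) (gsCone A R S σ) _ b x t).trans ?_
  refine (gs_lamFun_psi A R S σ hσ ρ hQ hρ b x k (Sys.gen b t)).trans ?_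
  exact (congrArg (psiF A R S σ hQ (k + 1)) (theta_single A R S ρ b x t)).symm

include hσ hρ in
/-- Exactness of the chains of elements. -/
theorem xCx_exact (hex : ∀ n, (ch Q).Exact n) (n : ℕ) : (xCx E R.G.obj).Exact n := by
  intro z hz
  let ψ := psiHom A R S σ ρ hQ hρ
  cases n with
  | zero =>
      obtain ⟨w, hw⟩ := hex 0 (chE Q) (Cx.mem_cyc_zero _ _)
      induction z using Finsupp.induction_linear with
      | zero => exact ⟨0, map_zero _⟩
      | add a b ha hb =>
          obtain ⟨u, hu⟩ := ha (Cx.mem_cyc_zero _ _)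
          obtain ⟨u', hu'⟩ := hb (Cx.mem_cyc_zero _ _)
          exact ⟨u + u', by rw [map_add, hu, hu']⟩
      | single s m =>
          refine ⟨m • ψ.f 1 w, ?_⟩
          rw [map_zsmul, ← ψ.comm, hw, single_eq_zsmul]
          exact congrArg (m • ·) (psiF_e A R S σ hQ)
  | succ k =>
      have hz' : bd k _ z = 0 := hz
      obtain ⟨w, hw⟩ := Sys.coneMap_sub_mem_range (tcPair S)
        (fun a m => cyl_exact _ _ (repCx_exact E a.unop.T m)) (gsCone A R S σ) (xE E R.G.obj) z hz'
      rw [coneMap_F A R S σ hσ, coneMap_G A R S σ hσ ρ hQ hρ] at hw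
      obtain ⟨u, hu⟩ := hex (k + 1) (theta A R S ρ (k + 1) z) ((Cx.mem_cyc_succ (C := ch Q) _).2
        (by rw [← theta_bd, hz', map_zero]))
      refine ⟨w + ψ.f (k + 1 + 1) u, ?_⟩
      rw [map_add, hw, ← ψ.comm, hu]
      exact sub_add_cancel _ _

end

/-- The categories of elements agree. -/
def elEquiv (E : Ext) (X : E.Psh) : E.El X ≌ (Cat.El (xPsh E X))ᵒᵖ where
  functor :=
    { obj := fun e => op ⟨op ⟨e.T⟩, e.val⟩
      map := fun {e e'} f => Quiver.Hom.op
        (⟨(tbHom f.hom).op, f.w⟩ :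
          (⟨op ⟨e'.T⟩, e'.val⟩ : Cat.El (xPsh E X)) ⟶ ⟨op ⟨e.T⟩, e.val⟩) }
  inverse :=
    { obj := fun a => ⟨a.unop.pt.unop.T, a.unop.elt⟩
      map := fun f => ⟨f.unop.1.unop, f.unop.2⟩ }
  unitIso := Iso.refl _
  counitIso := Iso.refl _
  functor_unitIso_comp e := Category.comp_id _

theorem exact_el_of_chains (X : E.Psh) (n : ℕ) (h : (xCx E X).Exact n) :
    (Cat.nerveCx (E.El X)).Exact n := by
  rw [← Cat.El.exact_iff (xPsh E X) n, ← Cat.exact_op_iff (Cat.El (xPsh E X)) n,
    Cat.Cx.exact_iff_subsingleton] at h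
  rw [Cat.Cx.exact_iff_subsingleton]
  exact (Equiv.ofBijective _
    (Cat.nerveMap_bijective_of_equivalence (elEquiv E X) n)).subsingleton_congr.2 h

/-- **The chains of free models**: exact chains of a complex give acyclic free models. -/
theorem rep_acyclic (C : Coherator) {N : ℕ} (A : Semi C.C N) {Q : OCx} (hQ : DimLE Q N)
    (R : A.SRep Q) (hex : ∀ n, (ch Q).Exact n) (n : ℕ) :
    (Cat.nerveCx (C.C.El R.G.obj)).Exact n := by
  obtain ⟨S⟩ := nonempty_cylSys C
  obtain ⟨σ, hσ⟩ := exists_section A R S hQ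
  obtain ⟨ρ, hρ⟩ := exists_lin A S hQ R
  exact exact_el_of_chains _ n (xCx_exact A R S σ hσ ρ hQ hρ hex n)

end

end Vale.Agent.P259.Free
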