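import Vale.Agent.P259.Free.Rep
import Vale.Agent.P259.Free.Attach

/-!
# P259, module D: the stages of the construction of simplices

A stage up to dimension `N` gives one up to `N + 1`: in every degree, attach to the skeleton of
dimension `N` one cell for every face of dimension `N + 1`. The stages agree below the dimension,
so they give simplices with faces in all dimensions.
-/

namespace Vale.Agent.P259.Free

open CategoryTheory Opposite

noncomputable section

variable {E : Ext}

/-- Free attachment of a family of cells with prescribed sides to a model. -/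
theorem exists_attach (G : E.Gpd) {I : Type} (n : ℕ) (a b : I → E.cells G.obj n) :
    ∃ (P : E.Gpd) (inc : G ⟶ P) (c : I → E.cells P.obj (n + 1)),
      (∀ i, E.HasSides P.obj (c i) (E.appCell inc.hom n (a i)) (E.appCell inc.hom n (b i))) ∧
      ∀ (X : E.Gpd) (g : G ⟶ X) (z : I → E.cells X.obj (n + 1)),
        (∀ i, E.HasSides X.obj (z i) (E.appCell g.hom n (a i)) (E.appCell g.hom n (b i))) →
        ∃! g' : P ⟶ X, inc ≫ g' = g ∧ ∀ i, E.appCell g'.hom (n + 1) (c i) = z i := by
  let K : CellData G.obj :=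
    { I := I
      cell := fun _ => E.i.obj (disc (n + 1))
      R := fun _ => Bool
      obj := fun _ _ => E.i.obj (disc n)
      hom := fun _ e => E.face e n
      val := fun i e => if e then b i else a i }
  obtain ⟨L⟩ := nonempty_attached (w := Colim.sumMap E) K
  refine ⟨⟨L.obj, (Colim.isLoc_iff E L.obj).1 L.loc⟩, ObjectProperty.homMk L.incl, L.cell,
    fun i => ⟨L.cell_spec i false, L.cell_spec i true⟩, fun X g z hz => ?_⟩
  let z' : K.Fillers g.hom := ⟨z, fun i e => by
    cases e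
    · exact (hz i).1
    · exact (hz i).2⟩
  have hX := (Colim.isLoc_iff E X.obj).2 X.property
  refine ⟨ObjectProperty.homMk (L.desc hX g.hom z'), ⟨ObjectProperty.hom_ext _ ?_,
    L.desc_cell hX g.hom z'⟩, fun g' hg' => ObjectProperty.hom_ext _ ?_⟩
  · exact L.incl_desc hX g.hom z'
  · refine L.hom_ext hX ?_ fun i => (hg'.2 i).trans (L.desc_cell hX g.hom z' i).symm
    exact (congrArg (fun q => q.hom) hg'.1).trans (L.incl_desc hX g.hom z').symm

/-- One level of the properties of simplices. -/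
structure IsLevel (B : SemiBase E) (k : ℕ) (t : E.cells (B.F k).obj k)
    (t' : E.cells (B.F (k + 1)).obj (k + 1))
    (fill : ∀ X : E.Gpd, B.SFam (OCx.horn (k + 1) 0) X → E.cells X.obj k) : Prop where
  natural : ∀ {X Y : E.Gpd} (f : X ⟶ Y) (h : B.SFam (OCx.horn (k + 1) 0) X),
    fill Y (h.push B f) = E.appCell f.hom k (fill X h)
  par : ∀ {X : E.Gpd} (b : B.SFam (OCx.bdry (k + 1)) X),
    E.Par X.obj (E.appCell (b.app (OCx.bdryFace k 0)).hom k t) (fill X (b.toHorn B 0))
  top_src : E.act (B.F (k + 1)).obj (E.face false k) t' =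
    E.appCell (B.map (Op.delta 0) (Op.delta_injective 0)).hom k t
  top_tgt : E.act (B.F (k + 1)).obj (E.face true k) t' =
    fill _ ((B.bdryTaut (k + 1)).toHorn B 0)
  univ : ∀ {X : E.Gpd} (b : B.SFam (OCx.bdry (k + 1)) X) (z : E.cells X.obj (k + 1)),
    E.HasSides X.obj z (E.appCell (b.app (OCx.bdryFace k 0)).hom k t) (fill X (b.toHorn B 0)) →
    ∃! g : B.F (k + 1) ⟶ X, E.appCell g.hom (k + 1) t' = z ∧ B.bdryOf g = b

theorem Semi.level {N : ℕ} (A : Semi E N) {k : ℕ} (hk : k < N) :
    IsLevel A.toSemiBase k (A.top k hk.le) (A.top (k + 1) hk) fun _ h => A.fillOf hk h :=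
  ⟨A.fillOf_natural hk, A.par hk, A.top_src hk, A.top_tgt hk, A.univ hk⟩

theorem horn_le {k : ℕ} {i : Fin (k + 2)} {j : ℕ} (v : (OCx.horn (k + 1) i).Simp j) : j ≤ k := by
  refine Nat.le_of_lt_succ (Semi.bdry_lt ⟨v.1, v.2.1, fun h => ?_⟩)
  obtain ⟨x, -, hx⟩ := v.2.2
  exact hx (h ▸ Set.mem_univ x)

theorem bdry_le {k j : ℕ} (v : (OCx.bdry (k + 1)).Simp j) : j ≤ k :=
  Nat.le_of_lt_succ (Semi.bdry_lt v)

/-- Two systems agree up to a dimension. -/
structure Agree (A B : SemiBase E) (N : ℕ) : Type where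
  e : ∀ k, k ≤ N → (A.F k ≅ B.F k)
  nat : ∀ {k j : ℕ} (hk : k ≤ N) (hj : j ≤ N) (δ : Op k j) (h : Function.Injective δ),
    A.map δ h ≫ (e j hj).hom = (e k hk).hom ≫ B.map δ h

namespace Agree

variable {A B : SemiBase E} {N : ℕ} (P : Agree A B N)

/-- Families pulled back. -/
def back {Q : OCx} (hQ : DimLE Q N) {X : E.Gpd} (f : B.SFam Q X) : A.SFam Q X where
  app {j} v := (P.e j (hQ j v)).hom ≫ f.app v
  nat {k j} v δ h := by
    rw [← Category.assoc, P.nat (hQ j (v.face δ h)) (hQ k v), Category.assoc, f.nat v δ h]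

theorem back_push {Q : OCx} (hQ : DimLE Q N) {X Y : E.Gpd} (f : B.SFam Q X) (g : X ⟶ Y) :
    P.back hQ (f.push B g) = (P.back hQ f).push A g :=
  SemiBase.SFam.ext (funext fun _ => funext fun _ => (Category.assoc _ _ _).symm)

/-- Families on a boundary pulled back. -/
def backB {k : ℕ} (hk : k ≤ N) {X : E.Gpd} (f : B.SFam (OCx.bdry (k + 1)) X) :
    A.SFam (OCx.bdry (k + 1)) X :=
  P.back (fun _ v => (bdry_le v).trans hk) f

/-- Families on a horn pulled back. -/
def backH {k : ℕ} (hk : k ≤ N) {X : E.Gpd} (f : B.SFam (OCx.horn (k + 1) 0) X) :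
    A.SFam (OCx.horn (k + 1) 0) X :=
  P.back (fun _ v => (horn_le v).trans hk) f

theorem bdryOf_back {k : ℕ} (hk : k + 1 ≤ N) {X : E.Gpd} (g : B.F (k + 1) ⟶ X) :
    P.backB (Nat.le_of_succ_le hk) (B.bdryOf g) = A.bdryOf ((P.e (k + 1) hk).hom ≫ g) := by
  refine SemiBase.SFam.ext (funext fun j => funext fun v => ?_)
  show (P.e j _).hom ≫ B.map _ _ ≫ g = A.map _ _ ≫ (P.e (k + 1) hk).hom ≫ g
  rw [← Category.assoc, ← Category.assoc, P.nat]

theorem backB_injective {k : ℕ} (hk : k ≤ N) {X : E.Gpd} {f f' : B.SFam (OCx.bdry (k + 1)) X}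
    (h : P.backB hk f = P.backB hk f') : f = f' :=
  SemiBase.SFam.ext (funext fun _ => funext fun v => (cancel_epi _).1
    (congrArg (fun q : A.SFam _ _ => q.app v) h))

/-- A level is transported along agreeing systems. -/
theorem level {k : ℕ} (hk : k + 1 ≤ N) {t : E.cells (A.F k).obj k}
    {t' : E.cells (A.F (k + 1)).obj (k + 1)}
    {fill : ∀ X : E.Gpd, A.SFam (OCx.horn (k + 1) 0) X → E.cells X.obj k}
    (L : IsLevel A k t t' fill) {u : E.cells (B.F k).obj k}
    {u' : E.cells (B.F (k + 1)).obj (k + 1)}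
    {fill' : ∀ X : E.Gpd, B.SFam (OCx.horn (k + 1) 0) X → E.cells X.obj k}
    (hu : u = E.appCell (P.e k (Nat.le_of_succ_le hk)).hom.hom k t)
    (hu' : u' = E.appCell (P.e (k + 1) hk).hom.hom (k + 1) t')
    (hf : ∀ X h, fill' X h = fill X (P.backH (Nat.le_of_succ_le hk) h)) :
    IsLevel B k u u' fill' := by
  subst hu hu'
  have hk' := Nat.le_of_succ_le hk
  have hface : ∀ {X : E.Gpd} (b : B.SFam (OCx.bdry (k + 1)) X),
      fill' X (b.toHorn B 0) = fill X ((P.backB hk' b).toHorn A 0) := fun b => hf _ _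
  refine ⟨fun {X Y} f h => ?_, fun {X} b => ?_, ?_, ?_, fun {X} b z hz => ?_⟩
  · rw [hf, hf]
    exact (congrArg (fill Y) (P.back_push _ h f)).trans (L.natural f _)
  · rw [hface]
    exact L.par (P.backB hk' b)
  · refine (E.act_natural _ _ _).trans ((congrArg (E.appCell (P.e (k + 1) hk).hom.hom k)
      L.top_src).trans ?_)
    show E.appCell (A.map (Op.delta 0) _ ≫ (P.e (k + 1) hk).hom).hom k t = _
    rw [P.nat hk' hk]
    rfl
  · refine (E.act_natural _ _ _).trans ((congrArg (E.appCell (P.e (k + 1) hk).hom.hom k)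
      L.top_tgt).trans ?_)
    rw [hf, ← L.natural]
    congr 1
    refine SemiBase.SFam.ext (funext fun j => funext fun v => ?_)
    exact P.nat ((horn_le v).trans hk') hk _ _
  · obtain ⟨g, ⟨hg, hgb⟩, hgu⟩ := L.univ (P.backB hk' b) z (by rw [← hface]; exact hz)
    refine ⟨(P.e (k + 1) hk).inv ≫ g, ⟨?_, P.backB_injective hk' ?_⟩, fun g' hg' => ?_⟩
    · show E.appCell ((P.e (k + 1) hk).hom ≫ (P.e (k + 1) hk).inv ≫ g).hom (k + 1) t' = z
      rw [Iso.hom_inv_id_assoc]
      exact hg
    · rw [P.bdryOf_back hk, Iso.hom_inv_id_assoc]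
      exact hgb
    · rw [← hgu ((P.e (k + 1) hk).hom ≫ g') ⟨hg'.1, by rw [← P.bdryOf_back hk, hg'.2]⟩,
        Iso.inv_hom_id_assoc]

end Agree

/-- The skeleton of dimension `N` of a simplex. -/
def skel (N k : ℕ) : OCx where
  V := Fin (k + 1)
  mem {j} v := StrictMono v ∧ j ≤ N
  strictMono h := h.1
  face {j i} v δ hv hδ := ⟨hv.1.comp (δ.monotone.strictMono_of_injective hδ), by
    have := Fintype.card_le_of_injective δ hδ
    simp at this
    have := hv.2
    omega⟩

theorem dim_le_of_injective {k j : ℕ} {δ : Op k j} (h : Function.Injective δ) : k ≤ j := by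
  have := Fintype.card_le_of_injective δ h
  simp at this
  omega

/-- The data attached to a stage for the next one: fillers in the horns, the skeleta and the
cells attached to them. -/
structure Next {N : ℕ} (A : Semi E N) : Type 1 where
  fill : ∀ X : E.Gpd, A.SFam (OCx.horn (N + 1) 0) X → E.cells X.obj N
  natural : ∀ {X Y : E.Gpd} (f : X ⟶ Y) (h : A.SFam (OCx.horn (N + 1) 0) X),
    fill Y (h.push A.toSemiBase f) = E.appCell f.hom N (fill X h)
  par : ∀ {X : E.Gpd} (b : A.SFam (OCx.bdry (N + 1)) X),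
    E.Par X.obj (E.appCell (b.app (OCx.bdryFace N 0)).hom N (A.top N le_rfl))
      (fill X (b.toHorn A.toSemiBase 0))

/-- Fillers in the horns, from contractibility. -/
theorem nonempty_next (h : SemiCtrCone) {C : Coherator} {N : ℕ} (A : Semi C.C N) :
    Nonempty (Next A) := by
  obtain ⟨H⟩ := nonempty_srep A.toSemiBase (OCx.horn (N + 1) 0)
  have hv : ∃ v : (OCx.horn (N + 1) 0).Simp 0, v.1 0 = (0 : Fin (N + 2)) := by
    refine ⟨⟨fun _ => (0 : Fin (N + 2)), Subsingleton.strictMono (α := Fin 1) _,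
      Fin.last (N + 1), Fin.last_pos.ne', ?_⟩, rfl⟩
    rintro ⟨x, hx⟩
    exact (Fin.last_pos (n := N)).ne hx
  have hcone : (OCx.horn (N + 1) 0).IsCone (0 : Fin (N + 2)) := by
    intro j v
    obtain ⟨i, hi, hiv⟩ := v.2.2
    let vv : Fin (j + 1) → Fin (N + 2) := v.1
    let s : Finset (Fin (N + 2)) := insert 0 (Finset.univ.image vv)
    have hs : s.card = s.card - 1 + 1 :=
      (Nat.sub_add_cancel (Finset.card_pos.2 ⟨0, Finset.mem_insert_self _ _⟩)).symm
    have hr : Set.range (s.orderEmbOfFin hs) = insert 0 (Set.range vv) := by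
      rw [Finset.range_orderEmbOfFin, Finset.coe_insert, Finset.coe_image, Finset.coe_univ,
        Set.image_univ]
    have hm : i ∉ Set.range (s.orderEmbOfFin hs) := by
      rw [hr]
      rintro (h | h)
      · exact hi h
      · exact hiv h
    exact ⟨s.card - 1, ⟨s.orderEmbOfFin hs, (s.orderEmbOfFin hs).strictMono, i, hi, hm⟩, hr⟩
  have hG : C.C.Ctr H.G.obj := h C N A (OCx.horn (N + 1) 0) (0 : Fin (N + 2))
    (inferInstanceAs (Finite (Fin (N + 2))))
    (fun _ v => horn_le v) hv hcone H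
  have hc : ∃ c : C.C.cells H.G.obj N, ∀ (X : C.C.Gpd) (b : A.SFam (OCx.bdry (N + 1)) X)
      (g : H.G ⟶ X), (∀ {j : ℕ} (v : (OCx.horn (N + 1) 0).Simp j),
        H.fam.app v ≫ g = (b.toHorn A.toSemiBase 0).app v) →
      C.C.Par X.obj (C.C.appCell (b.app (OCx.bdryFace N 0)).hom N (A.top N le_rfl))
        (C.C.appCell g.hom N c) := by
    cases N with
    | zero => exact ⟨hG.nonempty.some, fun _ _ _ _ => trivial⟩
    | succ M =>
      let mk : ∀ {j : ℕ}, (OCx.bdry (M + 1)).Simp j → (OCx.horn (M + 2) 0).Simp j := fun {j} u =>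
        ⟨Fin.succ ∘ u.1, Fin.strictMono_succ.comp u.2.1, by
          obtain ⟨i, hi⟩ := (Set.ne_univ_iff_exists_notMem _).1 u.2.2
          exact ⟨i.succ, Fin.succ_ne_zero i, fun ⟨x, hx⟩ => hi ⟨x, Fin.succ_injective _ hx⟩⟩⟩
      let bb : A.SFam (OCx.bdry (M + 1)) H.G :=
        ⟨fun u => H.fam.app (mk u), fun u δ h => H.fam.nat (mk u) δ h⟩
      obtain ⟨c, hc⟩ := hG.linked _ _ (A.par M.lt_succ_self bb)
      refine ⟨c, fun X b g hg e => ?_⟩
      have hb : bb.push A.toSemiBase g = A.bdryOf (b.app (OCx.bdryFace (M + 1) 0)) := by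
        refine SemiBase.SFam.ext (funext fun j => funext fun u => ?_)
        show H.fam.app (mk u) ≫ g = A.map _ _ ≫ b.app (OCx.bdryFace (M + 1) 0)
        rw [hg, b.nat]
        refine congrArg b.app (Subtype.ext ?_)
        funext x
        exact (Fin.succAbove_zero_apply _).symm
      have ts := A.top_sides M.lt_succ_self (b.app (OCx.bdryFace (M + 1) 0))
      rw [← hb] at ts
      refine Eq.trans ?_ (C.C.act_natural g.hom _ c).symm
      cases e
      · exact ts.1.trans (congrArg (C.C.appCell g.hom M) hc.1).symm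
      · exact ts.2.trans ((A.fillOf_natural _ g _).trans
          (congrArg (C.C.appCell g.hom M) hc.2).symm)
  obtain ⟨c, hc⟩ := hc
  choose g hg using fun (X : C.C.Gpd) (f : A.SFam (OCx.horn (N + 1) 0) X) =>
    H.exists_desc A.toSemiBase f
  refine ⟨⟨fun X f => C.C.appCell (g X f).hom N c, fun {X Y} f k => ?_,
    fun {X} b => hc X b _ (hg X _)⟩⟩
  have : g Y (k.push A.toSemiBase f) = g X k ≫ f := H.hom_ext A.toSemiBase fun v => by
    rw [hg, ← Category.assoc, hg]
    rfl
  rw [this]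
  rfl

/-- The faces of dimension `N + 1`. -/
abbrev Top (N k : ℕ) : Type := {v : Fin (N + 2) → Fin (k + 1) // StrictMono v}

/-- The boundary of a face of dimension `N + 1`, in a family on the skeleton. -/
def bdryFam {B : SemiBase E} {N k : ℕ} {X : E.Gpd} (φ : B.SFam (skel N k) X) (v : Top N k) :
    B.SFam (OCx.bdry (N + 1)) X where
  app w := φ.app ⟨v.1 ∘ w.1, v.2.comp w.2.1, bdry_le w⟩
  nat _ δ h := φ.nat _ δ h

namespace Next

variable {N : ℕ} {A : Semi E N} (D : Next A)

/-- The source of the cell over a face. -/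
def src {k : ℕ} {X : E.Gpd} (φ : A.SFam (skel N k) X) (v : Top N k) : E.cells X.obj N :=
  E.appCell ((bdryFam φ v).app (OCx.bdryFace N 0)).hom N (A.top N le_rfl)

/-- The target of the cell over a face. -/
def tgt {k : ℕ} {X : E.Gpd} (φ : A.SFam (skel N k) X) (v : Top N k) : E.cells X.obj N :=
  D.fill X ((bdryFam φ v).toHorn A.toSemiBase 0)

theorem tgt_push {k : ℕ} {X Y : E.Gpd} (φ : A.SFam (skel N k) X) (g : X ⟶ Y) (v : Top N k) :
    D.tgt (φ.push A.toSemiBase g) v = E.appCell g.hom N (D.tgt φ v) :=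
  D.natural g ((bdryFam φ v).toHorn A.toSemiBase 0)

/-- A skeleton with one cell attached for every face of dimension `N + 1`. -/
structure Glue (k : ℕ) : Type 1 where
  P : E.Gpd
  fam : A.SFam (skel N k) P
  c : Top N k → E.cells P.obj (N + 1)
  sides : ∀ v, E.HasSides P.obj (c v) (src fam v) (D.tgt fam v)
  univ : ∀ (X : E.Gpd) (φ : A.SFam (skel N k) X) (z : Top N k → E.cells X.obj (N + 1)),
    (∀ v, E.HasSides X.obj (z v) (src φ v) (D.tgt φ v)) →
    ∃! g : P ⟶ X, fam.push A.toSemiBase g = φ ∧ ∀ v, E.appCell g.hom (N + 1) (c v) = z v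

theorem nonempty_glue (k : ℕ) : Nonempty (D.Glue k) := by
  obtain ⟨G⟩ := nonempty_srep A.toSemiBase (skel N k)
  obtain ⟨P, inc, c, hc, hu⟩ := exists_attach G.G N (src G.fam) (D.tgt G.fam)
  refine ⟨⟨P, G.fam.push A.toSemiBase inc, c, fun v => ?_, fun X φ z hz => ?_⟩⟩
  · rw [D.tgt_push]
    exact hc v
  · obtain ⟨g0, hg0, -⟩ := G.univ X φ
    obtain ⟨g, hg, hgu⟩ := hu X g0 z fun v => by
      rw [← D.tgt_push, hg0]
      refine ⟨(hz v).1.trans ?_, (hz v).2⟩
      exact (congrArg (fun f => src f v) hg0).symm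
    have hpush : ∀ g' : P ⟶ X, (G.fam.push A.toSemiBase inc).push A.toSemiBase g' =
        G.fam.push A.toSemiBase (inc ≫ g') := fun g' =>
      SemiBase.SFam.ext (funext fun _ => funext fun _ => Category.assoc _ _ _)
    refine ⟨g, ⟨by rw [hpush, hg.1, hg0], hg.2⟩, fun g' hg' => hgu g' ⟨?_, hg'.2⟩⟩
    refine G.hom_ext A.toSemiBase fun v => ?_
    exact (congrArg (fun f : A.SFam (skel N k) X => f.app v) ((hpush g').symm.trans hg'.1)).trans
      (congrArg (fun f : A.SFam (skel N k) X => f.app v) hg0).symm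

theorem Glue.hom_ext {k : ℕ} (G : D.Glue k) {X : E.Gpd} {g g' : G.P ⟶ X}
    (h : ∀ {j : ℕ} (u : (skel N k).Simp j), G.fam.app u ≫ g = G.fam.app u ≫ g')
    (hc : ∀ v, E.appCell g.hom (N + 1) (G.c v) = E.appCell g'.hom (N + 1) (G.c v)) : g = g' := by
  refine (G.univ X (G.fam.push A.toSemiBase g) (fun v => E.appCell g.hom (N + 1) (G.c v))
    fun v => ⟨?_, ?_⟩).unique ⟨rfl, fun _ => rfl⟩
    ⟨SemiBase.SFam.ext (funext fun _ => funext fun u => (h u).symm), fun v => (hc v).symm⟩
  · exact (E.act_natural g.hom _ _).trans (congrArg (E.appCell g.hom N) (G.sides v).1)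
  · rw [D.tgt_push]
    exact (E.act_natural g.hom _ _).trans (congrArg (E.appCell g.hom N) (G.sides v).2)

/-- A chosen gluing. -/
def glue (k : ℕ) : D.Glue k := (D.nonempty_glue k).some

/-- The skeleton of a face, in a skeleton. -/
def faceFam {k j : ℕ} (δ : Op k j) (hδ : Function.Injective δ) :
    A.SFam (skel N k) (D.glue j).P where
  app u := (D.glue j).fam.app
    ⟨δ ∘ u.1, (δ.monotone.strictMono_of_injective hδ).comp u.2.1, u.2.2⟩
  nat _ ε h := (D.glue j).fam.nat _ ε h

/-- The faces of dimension `N + 1` of a face. -/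
def topFace {k j : ℕ} (δ : Op k j) (hδ : Function.Injective δ) (v : Top N k) : Top N j :=
  ⟨δ ∘ v.1, (δ.monotone.strictMono_of_injective hδ).comp v.2⟩

theorem exists_map {k j : ℕ} (δ : Op k j) (hδ : Function.Injective δ) :
    ∃! g : (D.glue k).P ⟶ (D.glue j).P, (D.glue k).fam.push A.toSemiBase g = D.faceFam δ hδ ∧
      ∀ v, E.appCell g.hom (N + 1) ((D.glue k).c v) = (D.glue j).c (topFace δ hδ v) :=
  (D.glue k).univ _ _ _ fun v => (D.glue j).sides (topFace δ hδ v)

/-- The map of a face. -/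
def map {k j : ℕ} (δ : Op k j) (hδ : Function.Injective δ) :
    (D.glue k).P ⟶ (D.glue j).P :=
  (D.exists_map δ hδ).choose

theorem fam_map {k j : ℕ} (δ : Op k j) (hδ : Function.Injective δ) {i : ℕ}
    (u : (skel N k).Simp i) :
    (D.glue k).fam.app u ≫ D.map δ hδ = (D.glue j).fam.app
      ⟨δ ∘ u.1, (δ.monotone.strictMono_of_injective hδ).comp u.2.1, u.2.2⟩ :=
  congrArg (fun f : A.SFam (skel N k) _ => f.app u) (D.exists_map δ hδ).choose_spec.1.1

theorem cell_map {k j : ℕ} (δ : Op k j) (hδ : Function.Injective δ) (v : Top N k) :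
    E.appCell (D.map δ hδ).hom (N + 1) ((D.glue k).c v) = (D.glue j).c (topFace δ hδ v) :=
  (D.exists_map δ hδ).choose_spec.1.2 v

/-- The next stage, without its cells. -/
def base : SemiBase E where
  F k := (D.glue k).P
  map δ hδ := D.map δ hδ
  map_id k := (D.glue k).hom_ext D (fun u => (D.fam_map _ _ u).trans (Category.comp_id _).symm)
    fun v => D.cell_map _ _ v
  map_comp δ ε hδ hε := (D.glue _).hom_ext D
    (fun u => ((Category.assoc _ _ _).symm.trans ((congrArg (· ≫ D.map ε hε)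
      (D.fam_map δ hδ u)).trans (D.fam_map ε hε _))).trans (D.fam_map (ε.comp δ) (hε.comp hδ) u).symm)
    fun v => ((congrArg (E.appCell (D.map ε hε).hom (N + 1)) (D.cell_map δ hδ v)).trans
      (D.cell_map ε hε _)).trans (D.cell_map (ε.comp δ) (hε.comp hδ) v).symm

/-- The whole face, in the skeleton. -/
def idSimp {k : ℕ} (hk : k ≤ N) : (skel N k).Simp k := ⟨id, strictMono_id, hk⟩

theorem top_isEmpty {k : ℕ} (hk : k ≤ N) (v : Top N k) : False := by
  have := Fintype.card_le_of_injective v.1 v.2.injective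
  simp at this
  omega

/-- The tautological family on the skeleton. -/
def tautSkel (k : ℕ) : A.SFam (skel N k) (A.F k) where
  app u := A.map (SemiBase.simpOp u.1 u.2.1) u.2.1.injective
  nat _ _ _ := A.map_comp _ _ _ _

theorem exists_back {k : ℕ} (hk : k ≤ N) :
    ∃! g : (D.glue k).P ⟶ A.F k, (D.glue k).fam.push A.toSemiBase g = tautSkel k ∧
      ∀ v, E.appCell g.hom (N + 1) ((D.glue k).c v) = (top_isEmpty hk v).elim :=
  (D.glue k).univ _ _ _ fun v => (top_isEmpty hk v).elim

/-- Nothing changes up to the dimension. -/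
def agree : Agree A.toSemiBase D.base N where
  e k hk :=
    { hom := (D.glue k).fam.app (idSimp hk)
      inv := (D.exists_back hk).choose
      hom_inv_id := (congrArg (fun f : A.SFam (skel N k) _ => f.app (idSimp hk))
        (D.exists_back hk).choose_spec.1.1).trans (A.map_id k)
      inv_hom_id := (D.glue k).hom_ext D (fun u =>
        ((Category.assoc _ _ _).symm.trans ((congrArg (· ≫ (D.glue k).fam.app (idSimp hk))
          (congrArg (fun f : A.SFam (skel N k) _ => f.app u)
            (D.exists_back hk).choose_spec.1.1)).trans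
          ((D.glue k).fam.nat (idSimp hk) (SemiBase.simpOp u.1 u.2.1) u.2.1.injective))).trans
          (Category.comp_id ((D.glue k).fam.app u)).symm) fun v => (top_isEmpty hk v).elim }
  nat {k j} hk hj δ h := by
    refine ((D.glue j).fam.nat (idSimp hj) δ h).trans (Eq.trans ?_ (D.fam_map δ h _).symm)
    rfl

/-- The cells of the next stage. -/
def top (k : ℕ) (hk : k ≤ N + 1) : E.cells (D.base.F k).obj k :=
  if h : k ≤ N then E.appCell (D.agree.e k h).hom.hom k (A.top k h)
  else (show N + 1 = k by omega) ▸ (D.glue (N + 1)).c ⟨id, strictMono_id⟩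

theorem top_lo {k : ℕ} (h : k ≤ N) (hk : k ≤ N + 1) :
    D.top k hk = E.appCell (D.agree.e k h).hom.hom k (A.top k h) :=
  dif_pos h

theorem top_hi : D.top (N + 1) le_rfl = (D.glue (N + 1)).c ⟨id, strictMono_id⟩ :=
  dif_neg (Nat.not_succ_le_self N)

/-- The fillers of the next stage. -/
def fillOf (k : ℕ) (hk : k < N + 1) (X : E.Gpd) (f : D.base.SFam (OCx.horn (k + 1) 0) X) :
    E.cells X.obj k :=
  if h : k < N then A.fillOf h (D.agree.backH h.le f)
  else (show N = k by omega) ▸ D.fill X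
    (D.agree.backH le_rfl ((show k = N by omega) ▸ f))

theorem fillOf_lo {k : ℕ} (h : k < N) (hk : k < N + 1) (X : E.Gpd)
    (f : D.base.SFam (OCx.horn (k + 1) 0) X) :
    D.fillOf k hk X f = A.fillOf h (D.agree.backH h.le f) :=
  dif_pos h

theorem fillOf_hi (X : E.Gpd) (f : D.base.SFam (OCx.horn (N + 1) 0) X) :
    D.fillOf N N.lt_succ_self X f = D.fill X (D.agree.backH le_rfl f) :=
  dif_neg (lt_irrefl N)

theorem e_face {j : ℕ} (u : (OCx.bdry (N + 1)).Simp j) :
    (D.agree.e j (bdry_le u)).hom ≫ D.base.map (SemiBase.simpOp u.1 u.2.1) u.2.1.injective =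
      (D.glue (N + 1)).fam.app ⟨u.1, u.2.1, bdry_le u⟩ :=
  D.fam_map (SemiBase.simpOp u.1 u.2.1) u.2.1.injective (idSimp (bdry_le u))

theorem level_hi : IsLevel D.base N (D.top N N.le_succ) (D.top (N + 1) le_rfl)
    (D.fillOf N N.lt_succ_self) := by
  rw [D.top_lo le_rfl N.le_succ, D.top_hi]
  have hface : ∀ {X : E.Gpd} (b : D.base.SFam (OCx.bdry (N + 1)) X),
      D.fillOf N N.lt_succ_self X (b.toHorn D.base 0) =
        D.fill X ((D.agree.backB le_rfl b).toHorn A.toSemiBase 0) := fun b => D.fillOf_hi _ _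
  refine ⟨fun {X Y} f h => ?_, fun {X} b => ?_, ?_, ?_, fun {X} b z hz => ?_⟩
  · rw [D.fillOf_hi, D.fillOf_hi]
    exact (congrArg (D.fill Y) (D.agree.back_push _ h f)).trans (D.natural f _)
  · rw [hface]
    exact D.par (D.agree.backB le_rfl b)
  · refine ((D.glue (N + 1)).sides ⟨id, strictMono_id⟩).1.trans ?_
    show _ = E.appCell ((D.agree.e N le_rfl).hom ≫ D.base.map (Op.delta 0) _).hom N _
    exact congrArg (fun q => E.appCell q.hom N (A.top N le_rfl))
      (D.fam_map (Op.delta 0) (Op.delta_injective 0) (idSimp le_rfl)).symm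
  · refine ((D.glue (N + 1)).sides ⟨id, strictMono_id⟩).2.trans ?_
    rw [hface]
    refine congrArg (fun q : A.SFam _ _ => D.fill _ (q.toHorn A.toSemiBase 0)) ?_
    exact SemiBase.SFam.ext (funext fun j => funext fun u => (D.e_face u).symm)
  · rw [hface] at hz
    let φ : A.SFam (skel N (N + 1)) X :=
      { app := fun {j} u => (D.agree.backB le_rfl b).app ⟨u.1, u.2.1, fun hr => by
          have := Fintype.card_le_of_surjective (α := Fin (j + 1)) (β := Fin (N + 2)) u.1
            (Set.range_eq_univ.1 hr)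
          have := u.2.2
          simp at *
          omega⟩
        nat := fun u δ h => (D.agree.backB le_rfl b).nat _ δ h }
    have hid : ∀ v : Top N (N + 1), v = ⟨id, strictMono_id⟩ := fun v =>
      Subtype.ext ((v.2.range_inj strictMono_id).1 (by
        rw [Set.range_id]
        exact (Finite.injective_iff_surjective.1 v.2.injective).range_eq))
    obtain ⟨g, hg, hgu⟩ := (D.glue (N + 1)).univ X φ (fun _ => z) fun v => by
      rw [hid v]
      exact hz
    refine ⟨g, ⟨hg.2 _, D.agree.backB_injective le_rfl ?_⟩, fun g' hg' => hgu g' ⟨?_, ?_⟩⟩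
    · refine SemiBase.SFam.ext (funext fun j => funext fun u => ?_)
      show (D.agree.e j (bdry_le u)).hom ≫
        D.base.map (SemiBase.simpOp u.1 u.2.1) u.2.1.injective ≫ g = _
      exact ((Category.assoc _ _ _).symm.trans (congrArg (· ≫ g) (D.e_face u))).trans
        (congrArg (fun f : A.SFam (skel N (N + 1)) X => f.app ⟨u.1, u.2.1, bdry_le u⟩) hg.1)
    · refine SemiBase.SFam.ext (funext fun j => funext fun u => ?_)
      show (D.glue (N + 1)).fam.app u ≫ g' = (D.agree.e j u.2.2).hom ≫ b.app _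
      rw [← hg'.2]
      refine Eq.trans ?_ (Category.assoc _ _ _)
      exact congrArg (· ≫ g') (D.fam_map (SemiBase.simpOp u.1 u.2.1) u.2.1.injective
        (idSimp u.2.2)).symm
    · intro v
      rw [hid v]
      exact hg'.1

theorem level (k : ℕ) (hk : k < N + 1) :
    IsLevel D.base k (D.top k hk.le) (D.top (k + 1) hk) (D.fillOf k hk) := by
  by_cases h : k < N
  · exact D.agree.level h (A.level h) (D.top_lo h.le _) (D.top_lo h _) (D.fillOf_lo h hk)
  · obtain rfl : k = N := by omega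
    exact D.level_hi

/-- The next stage. -/
def semi : Semi E (N + 1) where
  toSemiBase := D.base
  top := D.top
  zero_univ X x := by
    obtain ⟨g, hg, hu⟩ := A.zero_univ X x
    rw [D.top_lo N.zero_le]
    refine ⟨(D.agree.e 0 N.zero_le).inv ≫ g, ?_, fun g' hg' => ?_⟩
    · show E.appCell ((D.agree.e 0 N.zero_le).hom ≫ (D.agree.e 0 N.zero_le).inv ≫ g).hom 0 _ = x
      rw [Iso.hom_inv_id_assoc]
      exact hg
    · rw [← hu ((D.agree.e 0 N.zero_le).hom ≫ g') hg', Iso.inv_hom_id_assoc]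
  fillOf {k} hk {X} f := D.fillOf k hk X f
  fillOf_natural hk := (D.level _ hk).natural
  par hk := (D.level _ hk).par
  top_src hk := (D.level _ hk).top_src
  top_tgt hk := (D.level _ hk).top_tgt
  univ hk := (D.level _ hk).univ

end Next

end

end Vale.Agent.P259.Free
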