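import Vale.Agent.P259.Core
import Vale.Agent.P259.Free.GlobCells

/-!
# P259, module D: cells of globular sums and their complexes
-/

namespace Vale.Agent.P259.Free

open CategoryTheory Opposite
open Vale.Agent.P259.Cat

noncomputable section

/-- The cells of dimension `k`. -/
abbrev TCell (T : Table) (k : ℕ) : Type := T.toGSet.obj (op ⟨k⟩)

namespace TCell

variable {S T : Table}

/-- The cell at a position. -/
def mk (T : Table) (p : Fin (T.len + 1)) {k : ℕ} (g : (⟨k⟩ : Globe) ⟶ ⟨T.top p⟩) : TCell T k :=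
  Quot.mk _ ⟨p, g⟩

theorem exists_mk {k : ℕ} (c : TCell T k) : ∃ p g, c = mk T p g := by
  induction c using Quot.ind with
  | mk a => exact ⟨a.1, a.2, rfl⟩

/-- A map of globular sums on cells. -/
def map (f : S ⟶ T) {k : ℕ} (c : TCell S k) : TCell T k := f.hom.app (op ⟨k⟩) c

/-- The sides of a cell. -/
def face (e : Bool) {k : ℕ} (c : TCell T (k + 1)) : TCell T k :=
  T.toGSet.map (Globe.face e k.lt_succ_self).op c

theorem face_mk (e : Bool) {k : ℕ} (p : Fin (T.len + 1)) (g : (⟨k + 1⟩ : Globe) ⟶ ⟨T.top p⟩) :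
    face e (mk T p g) = mk T p (Globe.face e k.lt_succ_self ≫ g) := rfl

theorem face_face (e e' : Bool) {k : ℕ} (c : TCell T (k + 1 + 1)) :
    face e (face e' c) = face e (face (!e') c) := by
  obtain ⟨p, g, rfl⟩ := exists_mk c
  rw [face_mk, face_mk, face_mk, face_mk, ← Category.assoc, ← Category.assoc]
  rfl

theorem map_face (f : S ⟶ T) (e : Bool) {k : ℕ} (c : TCell S (k + 1)) :
    map f (face e c) = face e (map f c) :=
  NatTrans.naturality_apply f.hom (Globe.face e k.lt_succ_self).op c

theorem map_id {k : ℕ} (c : TCell T k) : map (𝟙 T) c = c := rfl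

theorem map_comp {R : Table} (f : R ⟶ S) (g : S ⟶ T) {k : ℕ} (c : TCell R k) :
    map (f ≫ g) c = map g (map f c) := rfl

theorem map_incl (p : Fin (T.len + 1)) {k : ℕ} (g : (⟨k⟩ : Globe) ⟶ ⟨T.top p⟩) :
    map (incl T p) (mk (disc (T.top p)) 0 g) = mk T p g := rfl

theorem map_side (e : Bool) {j i : ℕ} (h : j < i) {k : ℕ} (g : (⟨k⟩ : Globe) ⟶ ⟨j⟩) :
    map (side e h) (mk (disc j) 0 g) = mk (disc i) 0 (g ≫ Globe.face e h) := rfl

theorem disc_cases {i k : ℕ} (c : TCell (disc i) k) :
    ∃ g : (⟨k⟩ : Globe) ⟶ ⟨i⟩, c = mk (disc i) 0 g := by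
  induction c using Quot.ind with
  | mk a =>
      obtain ⟨p, g⟩ := a
      obtain rfl : p = 0 := Fin.ext (Nat.lt_one_iff.1 p.2)
      exact ⟨g, rfl⟩

/-- The top cell of a disc. -/
def top (i : ℕ) : TCell (disc i) i := mk (disc i) 0 (𝟙 _)

/-- The proper cell of a disc. -/
def below (e : Bool) {k i : ℕ} (h : k < i) : TCell (disc i) k := mk (disc i) 0 (Globe.face e h)

theorem disc_mk_none {i k : ℕ} (h : k = i) :
    mk (disc i) 0 (⟨none, h⟩ : (⟨k⟩ : Globe) ⟶ ⟨i⟩) = h ▸ top i := by
  subst h
  rfl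

theorem disc_cells {i k : ℕ} (c : TCell (disc i) k) :
    (∃ h : k = i, c = h ▸ top i) ∨ ∃ e, ∃ h : k < i, c = below e h := by
  obtain ⟨⟨o, ho⟩, rfl⟩ := disc_cases c
  cases o with
  | none => exact Or.inl ⟨ho, disc_mk_none ho⟩
  | some e => exact Or.inr ⟨e, ho, rfl⟩

theorem face_top (e : Bool) (i : ℕ) : face e (top (i + 1)) = below e i.lt_succ_self := rfl

theorem face_below (e e' : Bool) {k i : ℕ} (h : k + 1 < i) :
    face e (below e' h) = below e (Nat.lt_of_succ_lt h) := rfl

theorem map_side_top (e : Bool) {j i : ℕ} (h : j < i) :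
    map (side e h) (top j) = below e h := rfl

theorem map_side_below (e e' : Bool) {k j i : ℕ} (h : j < i) (hk : k < j) :
    map (side e h) (below e' hk) = below e' (hk.trans h) := rfl

end TCell

/-- The cellular complex of a globular sum. -/
def AbC (T : Table) : Cells.{0} :=
  globCells (fun k => TCell T k) (fun _ c => TCell.face false c) (fun _ c => TCell.face true c)
    (fun _ c => TCell.face_face false false c) (fun _ c => TCell.face_face true false c)

/-- The complex. -/
abbrev Ab (T : Table) : Cx.{0} := (AbC T).cx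

/-- The augmentation element. -/
def abE (T : Table) : (Ab T).X 0 := Finsupp.single PUnit.unit 1

/-- The generator of a cell. -/
def abCell {T : Table} {k : ℕ} (c : TCell T k) : (Ab T).X (k + 1) :=
  @Finsupp.single (TCell T k) ℤ _ c 1

theorem d_abCell_zero {T : Table} (c : TCell T 0) : (Ab T).d 0 (abCell c) = abE T :=
  (lin_single _ _ _).trans (one_smul _ _)

theorem d_abCell {T : Table} {k : ℕ} (c : TCell T (k + 1)) :
    (Ab T).d (k + 1) (abCell c) = abCell (TCell.face true c) - abCell (TCell.face false c) :=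
  (lin_single _ _ _).trans (one_smul _ _)

/-- Extensionality on cells. -/
theorem ab_ext {T : Table} {L : Cx.{0}} {f g : CxHom (Ab T) L} (h0 : f.f 0 (abE T) = g.f 0 (abE T))
    (h : ∀ k (c : TCell T k), f.f (k + 1) (abCell c) = g.f (k + 1) (abCell c)) : f = g := by
  refine Cells.hom_eq fun n c => ?_
  cases n with
  | zero => exact h0
  | succ k => exact h k c

/-- A chain map from values on cells. -/
def abHom {T : Table} {L : Cx.{0}} (e : L.X 0) (v : ∀ k, TCell T k → L.X (k + 1))
    (h0 : ∀ c, L.d 0 (v 0 c) = e)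
    (h : ∀ k c, L.d (k + 1) (v (k + 1) c) =
      v k (TCell.face true c) - v k (TCell.face false c)) : CxHom (Ab T) L :=
  Cells.toHom (A := AbC T)
    (fun n => match n with
      | 0 => fun _ => e
      | k + 1 => v k)
    (fun n c => match n, c with
      | 0, c => ((lin_single _ _ _).trans (one_smul _ _)).trans (h0 c).symm
      | k + 1, c => by
          refine (lin_sub (v k) (TCell.face true c) (TCell.face false c)).trans ?_
          exact (h k c).symm)

theorem abHom_e {T : Table} {L : Cx.{0}} (e : L.X 0) (v : ∀ k, TCell T k → L.X (k + 1))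
    (h0) (h) : (abHom e v h0 h).f 0 (abE T) = e :=
  Cells.toHom_single (A := AbC T) _ _ 0 _

theorem abHom_cell {T : Table} {L : Cx.{0}} (e : L.X 0) (v : ∀ k, TCell T k → L.X (k + 1))
    (h0) (h) (k : ℕ) (c : TCell T k) : (abHom e v h0 h).f (k + 1) (abCell c) = v k c :=
  Cells.toHom_single (A := AbC T) _ _ (k + 1) _

/-- The chain map of a map of globular sums. -/
def abMap {S T : Table} (f : S ⟶ T) : CxHom (Ab S) (Ab T) :=
  abHom (abE T) (fun _ c => abCell (TCell.map f c)) (fun c => d_abCell_zero _)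
    (fun k c => by rw [d_abCell, TCell.map_face, TCell.map_face])

theorem abMap_e {S T : Table} (f : S ⟶ T) : (abMap f).f 0 (abE S) = abE T := abHom_e _ _ _ _

theorem abMap_cell {S T : Table} (f : S ⟶ T) {k : ℕ} (c : TCell S k) :
    (abMap f).f (k + 1) (abCell c) = abCell (TCell.map f c) := abHom_cell _ _ _ _ _ _

theorem abMap_id (T : Table) : abMap (𝟙 T) = CxHom.id (Ab T) :=
  ab_ext (abMap_e _) fun _ c => abMap_cell _ c

theorem abMap_comp {R S T : Table} (f : R ⟶ S) (g : S ⟶ T) :
    abMap (f ≫ g) = (abMap g).comp (abMap f) := by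
  refine ab_ext ?_ fun k c => ?_
  · show _ = (abMap g).f 0 ((abMap f).f 0 (abE R))
    rw [abMap_e, abMap_e, abMap_e]
  · show _ = (abMap g).f (k + 1) ((abMap f).f (k + 1) (abCell c))
    rw [abMap_cell, abMap_cell, abMap_cell, TCell.map_comp]

/-- Values at positions, agreeing on the bottoms, give values on all cells. -/
def cellLift {T : Table} {α : Type*} {k : ℕ}
    (v : ∀ p, ((⟨k⟩ : Globe) ⟶ ⟨T.top p⟩) → α)
    (hv : ∀ (p : Fin T.len) (g : (⟨k⟩ : Globe) ⟶ ⟨T.bot p⟩),
      v p.castSucc (g ≫ Globe.face true (T.lt_left p)) =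
        v p.succ (g ≫ Globe.face false (T.lt_right p))) : TCell T k → α :=
  Quot.lift (fun a => v a.1 a.2) fun a b h => by
    cases h with
    | glue p g => exact hv p g

/-- Chain maps out of the complex of a globular sum, glued from the discs. -/
theorem ab_glue (T : Table) {L : Cx.{0}} (e : L.X 0) (f : ∀ p, CxHom (Ab (disc (T.top p))) L)
    (he : ∀ p, (f p).f 0 (abE _) = e)
    (hf : ∀ p : Fin T.len, (f p.castSucc).comp (abMap (side true (T.lt_left p))) =
      (f p.succ).comp (abMap (side false (T.lt_right p)))) :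
    ∃ F : CxHom (Ab T) L, F.f 0 (abE T) = e ∧ ∀ p, F.comp (abMap (incl T p)) = f p := by
  let v : ∀ k, TCell T k → L.X (k + 1) := fun k =>
    cellLift (fun p g => (f p).f (k + 1) (abCell (TCell.mk (disc (T.top p)) 0 g))) fun p g => by
      have h := congrArg (fun F => F.f (k + 1) (abCell (TCell.mk (disc (T.bot p)) 0 g))) (hf p)
      exact (congrArg ((f p.castSucc).f (k + 1)) (abMap_cell (side true (T.lt_left p)) _)).symm.trans
        (h.trans (congrArg ((f p.succ).f (k + 1)) (abMap_cell (side false (T.lt_right p)) _)))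
  have h0 : ∀ c, L.d 0 (v 0 c) = e := fun c => by
    obtain ⟨p, g, rfl⟩ := TCell.exists_mk c
    show L.d 0 ((f p).f 1 _) = e
    rw [← (f p).comm, d_abCell_zero, he]
  have h : ∀ k c, L.d (k + 1) (v (k + 1) c) =
      v k (TCell.face true c) - v k (TCell.face false c) := fun k c => by
    obtain ⟨p, g, rfl⟩ := TCell.exists_mk c
    show L.d (k + 1) ((f p).f (k + 1 + 1) _) = _
    rw [← (f p).comm, d_abCell, map_sub]
    rfl
  refine ⟨abHom e v h0 h, abHom_e _ _ _ _, fun p => ab_ext ?_ fun k c => ?_⟩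
  · show (abHom e v h0 h).f 0 ((abMap (incl T p)).f 0 (abE _)) = _
    rw [abMap_e, abHom_e, he]
  · obtain ⟨g, rfl⟩ := TCell.disc_cases c
    show (abHom e v h0 h).f (k + 1) ((abMap (incl T p)).f (k + 1) _) = _
    rw [abMap_cell, abHom_cell, TCell.map_incl]
    rfl

/-- Chain maps agreeing on every position are equal. -/
theorem ab_ext_incl {T : Table} {L : Cx.{0}} {F G : CxHom (Ab T) L}
    (h : ∀ p, F.comp (abMap (incl T p)) = G.comp (abMap (incl T p))) : F = G := by
  refine ab_ext ?_ fun k c => ?_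
  · have h' := congrArg (fun K => K.f 0 (abE _)) (h 0)
    exact (congrArg (F.f 0) (abMap_e _)).symm.trans (h'.trans (congrArg (G.f 0) (abMap_e _)))
  · obtain ⟨p, g, rfl⟩ := TCell.exists_mk c
    have h' := congrArg (fun K => K.f (k + 1) (abCell (TCell.mk (disc (T.top p)) 0 g))) (h p)
    exact (congrArg (F.f (k + 1)) (abMap_cell (incl T p) _)).symm.trans
      (h'.trans (congrArg (G.f (k + 1)) (abMap_cell (incl T p) _)))

end

end Vale.Agent.P259.Free
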